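import Vale.Agent.P226.Obtuse

/-!
# Assembly: the propeller bound from normalised, sorted, obtuse families (P226)

It suffices to bound the width by `3 / 2` for at least six centred, pairwise obtuse vectors in
dimension at least five, with squared norms decreasing in the index and of sum one.
-/

namespace Vale.Agent.P226

open MeasureTheory ProbabilityTheory
open scoped RealInnerProductSpace

/-- The scalar hypothesis of the final step. -/
def WidthBound : Prop :=
  ∀ (d k : ℕ) (z : Fin (k + 1) → EuclideanSpace ℝ (Fin d)), 5 ≤ d → 5 ≤ k → ∑ i, z i = 0 →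
    (∀ i j, i ≠ j → ⟪z i, z j⟫ ≤ 0) → Antitone (fun i => ‖z i‖) → ∑ i, ‖z i‖ ^ 2 = 1 →
    width z ≤ 3 / 2

theorem sum_pad {M : Type*} [AddCommMonoid M] {k m : ℕ} (f : Fin (k + 1) → M) :
    ∑ i : Fin (k + m + 1), (if h : (i : ℕ) < k + 1 then f ⟨i, h⟩ else 0) = ∑ i, f i := by
  refine (Fintype.sum_of_injective (Fin.castLE (by omega)) (Fin.castLE_injective _) f _ ?_ ?_).symm
  · intro i hi
    rw [dif_neg]
    exact fun h => hi ⟨⟨i, h⟩, Fin.ext rfl⟩
  · intro i
    simp [i.2]

section General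

variable {E : Type*} [NormedAddCommGroup E] [InnerProductSpace ℝ E] [FiniteDimensional ℝ E]
  [MeasurableSpace E] [BorelSpace E]

omit [BorelSpace E] in
theorem width_of_forall_eq_zero {ι : Type*} [Fintype ι] [Nonempty ι] (z : ι → E)
    (hz : ∀ i, z i = 0) : width z = 0 := by
  have : ∀ g, maxForm z g = 0 := fun g => le_antisymm
    ((maxForm_le_iff z g 0).2 fun i => by simp [hz i])
    (maxForm_nonneg_of_sum_eq_zero z (by simp [hz]) g)
  simp [width, this]

omit [BorelSpace E] in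
/-- Appending zero vectors to a centred family keeps the width. -/
theorem width_append_zero {k m : ℕ} (z : Fin (k + 1) → E) (hz : ∑ i, z i = 0) :
    width (fun i : Fin (k + m + 1) => if h : (i : ℕ) < k + 1 then z ⟨i, h⟩ else 0) = width z := by
  have : ∀ g, maxForm (fun i : Fin (k + m + 1) =>
      if h : (i : ℕ) < k + 1 then z ⟨i, h⟩ else 0) g = maxForm z g := by
    intro g
    apply le_antisymm
    · rw [maxForm_le_iff]
      intro i
      split_ifs with h
      · exact inner_le_maxForm z ⟨i, h⟩ g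
      · rw [inner_zero_left]; exact maxForm_nonneg_of_sum_eq_zero z hz g
    · rw [maxForm_le_iff]
      intro i
      refine le_trans (le_of_eq ?_) (inner_le_maxForm _ ⟨i, by omega⟩ g)
      simp [i.2]
  simp only [width, this]

end General

/-- The width inequality with the scaling, padding and sorting removed. -/
theorem width_le_of_widthBound (h : WidthBound) (d k : ℕ)
    (w : Fin (k + 1) → EuclideanSpace ℝ (Fin d)) (hw : ∑ i, w i = 0)
    (hob : ∀ i j, i ≠ j → ⟪w i, w j⟫ ≤ 0) :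
    width w ≤ 3 / 2 * Real.sqrt (∑ i, ‖w i‖ ^ 2) := by
  set S := ∑ i, ‖w i‖ ^ 2 with hSdef
  rcases (Finset.sum_nonneg fun i _ => sq_nonneg ‖w i‖).eq_or_lt with h0 | h0
  · rw [← hSdef] at h0
    have hz : ∀ i, w i = 0 := fun i => norm_eq_zero.1 (pow_eq_zero_iff two_ne_zero |>.1
      ((Finset.sum_eq_zero_iff_of_nonneg fun i _ => sq_nonneg ‖w i‖).1
        (hSdef ▸ h0.symm) i (Finset.mem_univ i)))
    rw [width_of_forall_eq_zero w hz]
    positivity
  rw [← hSdef] at h0
  have hs : 0 < Real.sqrt S := Real.sqrt_pos.2 h0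
  let L : EuclideanSpace ℝ (Fin d) →ₗᵢ[ℝ] EuclideanSpace ℝ (Fin d ⊕ Fin 5) :=
    { toFun := fun x => WithLp.toLp 2 (Sum.elim x.ofLp 0)
      map_add' := fun x y => by ext (i | i) <;> simp
      map_smul' := fun r x => by ext (i | i) <;> simp
      norm_map' := fun x => by simp [EuclideanSpace.norm_eq, Fintype.sum_sum_type] }
  let e : EuclideanSpace ℝ (Fin d ⊕ Fin 5) ≃ₗᵢ[ℝ] EuclideanSpace ℝ (Fin (d + 5)) :=
    LinearIsometryEquiv.piLpCongrLeft 2 ℝ ℝ finSumFinEquiv
  let Φ := e.toLinearIsometry.comp L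
  let u : Fin (k + 1) → EuclideanSpace ℝ (Fin (d + 5)) := fun i => (Real.sqrt S)⁻¹ • Φ (w i)
  have husum : ∑ i, u i = 0 := by
    simp only [u, ← Finset.smul_sum, ← map_sum, hw, map_zero, smul_zero]
  have huob : ∀ i j, i ≠ j → ⟪u i, u j⟫ ≤ 0 := by
    intro i j hij
    simp only [u, real_inner_smul_left, real_inner_smul_right, Φ.inner_map_map]
    exact mul_nonpos_of_nonneg_of_nonpos (by positivity)
      (mul_nonpos_of_nonneg_of_nonpos (by positivity) (hob i j hij))
  let p : Fin (k + 5 + 1) → EuclideanSpace ℝ (Fin (d + 5)) :=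
    fun i => if hi : (i : ℕ) < k + 1 then u ⟨i, hi⟩ else 0
  let σ := Tuple.sort (fun i => -‖p i‖)
  have hpsum : ∑ i, p i = 0 := by rw [sum_pad u]; exact husum
  have hpnorm : ∑ i, ‖p i‖ ^ 2 = 1 := by
    have hp : ∀ i : Fin (k + 5 + 1), ‖p i‖ ^ 2
        = if hi : (i : ℕ) < k + 1 then ‖u ⟨i, hi⟩‖ ^ 2 else 0 := fun i => by
      simp only [p]; split_ifs <;> simp
    simp only [hp]
    rw [sum_pad (fun i => ‖u i‖ ^ 2)]
    simp only [u, norm_smul, norm_inv, Real.norm_eq_abs, abs_of_pos hs, mul_pow,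
      LinearIsometry.norm_map, ← Finset.mul_sum, ← hSdef, inv_pow, Real.sq_sqrt h0.le]
    exact inv_mul_cancel₀ h0.ne'
  have hpob : ∀ i j, i ≠ j → ⟪p i, p j⟫ ≤ 0 := by
    intro i j hij
    simp only [p]
    split_ifs
    · exact huob _ _ fun e => hij (Fin.ext (Fin.mk.inj_iff.1 e))
    all_goals simp
  have hb := h (d + 5) (k + 5) (fun i => p (σ i)) (by omega) (by omega)
    (by rw [Equiv.sum_comp σ p]; exact hpsum)
    (fun i j hij => hpob _ _ fun e => hij (σ.injective e))
    (fun i j hij => by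
      have := Tuple.monotone_sort (fun i => -‖p i‖) hij
      simpa using this)
    (by rw [Equiv.sum_comp σ fun i => ‖p i‖ ^ 2]; exact hpnorm)
  rw [width_comp_surjective p σ.surjective, width_append_zero (m := 5) u husum,
    width_smul (fun i => Φ (w i)) (inv_nonneg.2 hs.le), width_map Φ w, inv_mul_le_iff₀ hs] at hb
  linarith

/-- Q1 from the normalised width bound. -/
theorem propeller_of_widthBound (h : WidthBound) (d k : ℕ)
    (A : Fin k → Set (EuclideanSpace ℝ (Fin d))) (hA : ∀ i, MeasurableSet (A i))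
    (hd : Pairwise (Function.onFun (AEDisjoint (stdGaussian (EuclideanSpace ℝ (Fin d)))) A))
    (hU : (⋃ i, A i) =ᵐ[stdGaussian (EuclideanSpace ℝ (Fin d))] Set.univ) :
    ∑ i, ‖∫ x in A i, x ∂(stdGaussian (EuclideanSpace ℝ (Fin d)))‖ ^ 2 ≤ 9 / (8 * Real.pi) :=
  moments_le_of_obtuse_width_le (width_le_of_widthBound h) d k A hA hd hU

/-- The same with the hypothesis stated for every number of vectors. -/
theorem propeller_of_normalized
    (h : ∀ (d k : ℕ) (z : Fin (k + 1) → EuclideanSpace ℝ (Fin d)), 5 ≤ d → ∑ i, z i = 0 →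
      (∀ i j, i ≠ j → ⟪z i, z j⟫ ≤ 0) → ∑ i, ‖z i‖ ^ 2 = 1 →
      (∀ i j, i ≤ j → ‖z j‖ ≤ ‖z i‖) → width z ≤ 3 / 2)
    (d k : ℕ) (A : Fin k → Set (EuclideanSpace ℝ (Fin d))) (hA : ∀ i, MeasurableSet (A i))
    (hd : Pairwise (Function.onFun (AEDisjoint (stdGaussian (EuclideanSpace ℝ (Fin d)))) A))
    (hU : (⋃ i, A i) =ᵐ[stdGaussian (EuclideanSpace ℝ (Fin d))] Set.univ) :
    ∑ i, ‖∫ x in A i, x ∂(stdGaussian (EuclideanSpace ℝ (Fin d)))‖ ^ 2 ≤ 9 / (8 * Real.pi) :=
  propeller_of_widthBound (fun d k z hd5 _ hz hob ha hn => h d k z hd5 hz hob hn ha) d k A hA hd hU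

end Vale.Agent.P226
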