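import Mathlib

/-!
# Shared definitions for the Gaussian propeller bound (P226)

All bounds are written in the unit `W = √(2π) * E[...]`.
-/

namespace Vale.Agent.P226

open MeasureTheory ProbabilityTheory
open scoped RealInnerProductSpace

/-- The maximum over a finite family of the linear forms `⟪w i, g⟫`. -/
noncomputable def maxForm {ι E : Type*} [Fintype ι] [Nonempty ι] [NormedAddCommGroup E]
    [InnerProductSpace ℝ E] (w : ι → E) (g : E) : ℝ :=
  Finset.univ.sup' Finset.univ_nonempty (fun i => ⟪w i, g⟫)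

/-- `√(2π)` times the expected maximum of the Gaussian vector `(⟪w i, g⟫)_i`. -/
noncomputable def width {ι E : Type*} [Fintype ι] [Nonempty ι] [NormedAddCommGroup E]
    [InnerProductSpace ℝ E] [FiniteDimensional ℝ E] [MeasurableSpace E] (w : ι → E) : ℝ :=
  Real.sqrt (2 * Real.pi) * ∫ g, maxForm w g ∂(stdGaussian E)

/-- `√(2π)` times the expected positive part of `⟪w, g⟫ - f g`. -/
noncomputable def excess {E : Type*} [NormedAddCommGroup E] [InnerProductSpace ℝ E]
    [FiniteDimensional ℝ E] [MeasurableSpace E] (w : E) (f : E → ℝ) : ℝ :=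
  Real.sqrt (2 * Real.pi) * ∫ g, max (⟪w, g⟫ - f g) 0 ∂(stdGaussian E)

/-- The norm of the orthogonal projection onto a subspace. -/
noncomputable def projNorm {E : Type*} [NormedAddCommGroup E] [InnerProductSpace ℝ E]
    [FiniteDimensional ℝ E] (V : Submodule ℝ E) (g : E) : ℝ :=
  ‖V.starProjection g‖

/-- `√(2π) * E (v Z - t R_ν)₊` in closed form for `ν = 2`. -/
noncomputable def phi2 (v t : ℝ) : ℝ := v - t * Real.arctan (v / t)

/-- `√(2π) * E (v Z - t R_ν)₊` in closed form for `ν = 3`. -/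
noncomputable def phi3 (v t : ℝ) : ℝ :=
  Real.sqrt (v ^ 2 + t ^ 2) + t ^ 2 / Real.sqrt (v ^ 2 + t ^ 2) - 2 * t

/-- `√(2π) * E (v Z - t R_ν)₊` in closed form for `ν = 4`. -/
noncomputable def phi4 (v t : ℝ) : ℝ :=
  v - 3 / 2 * t * Real.arctan (v / t) + t ^ 2 * v / (2 * (v ^ 2 + t ^ 2))

/-- `√(2π) * E (v Z - t R_ν)₊` in closed form for `ν = 5`. -/
noncomputable def phi5 (v t : ℝ) : ℝ :=
  Real.sqrt (v ^ 2 + t ^ 2) + 2 * t ^ 2 / Real.sqrt (v ^ 2 + t ^ 2)
    - t ^ 4 / (3 * Real.sqrt (v ^ 2 + t ^ 2) ^ 3) - 8 / 3 * t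

/-- The in-plane cap for `ν = 3`: `√(2π) * E (v G₁ - t R₃)₊`. -/
noncomputable def cap3 (v t : ℝ) : ℝ := if v ≤ t then 0 else (v - t) ^ 2 / v

/-- Upper bound for the in-space cap for `ν = 4`, using the tangent parameter `17 / 10`. -/
noncomputable def cap4 (v t : ℝ) : ℝ :=
  if v ≤ t then 0 else
    3 * v / (2 * Real.sqrt (17 / 10)) *
      ((1 - t / v) ^ 2 * Real.sqrt (1 - t / v) *
        (4 / 15 * (2 + 17 / 10) - 4 / 35 * (1 - t / v)))

/-- The in-space cap for `ν = 5`: `√(2π) * E (v G₁ - t R₅)₊`. -/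
noncomputable def cap5 (v t : ℝ) : ℝ :=
  if v ≤ t then 0 else (v - t) ^ 3 * (3 * v + t) / (3 * v ^ 3)

end Vale.Agent.P226
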