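import Mathlib
import Vale.Agent.P226.WidthDefs

/-!
# One-variable calculus for the radial bounds (P226)
-/

namespace Vale.Agent.P226

open MeasureTheory Set Real
open scoped ENNReal

/-- A nonnegative derivative integrates to the increment, as a lower integral. -/
theorem lintegral_Ioo_of_deriv {F f : ℝ → ℝ} {a b : ℝ} (hab : a ≤ b)
    (hc : ContinuousOn F (Icc a b)) (hd : ∀ x ∈ Ioo a b, HasDerivAt F (f x) x)
    (hf : ∀ x ∈ Ioo a b, 0 ≤ f x) :
    ∫⁻ x in Ioo a b, ENNReal.ofReal (f x) = ENNReal.ofReal (F b - F a) := by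
  have hint : IntegrableOn f (Ioc a b) :=
    intervalIntegral.integrableOn_deriv_of_nonneg hc hd hf
  have hint' : IntegrableOn f (Ioo a b) := hint.mono_set Ioo_subset_Ioc_self
  have hnn : 0 ≤ᵐ[volume.restrict (Ioo a b)] f :=
    (ae_restrict_mem measurableSet_Ioo).mono hf
  rw [← ofReal_integral_eq_lintegral_ofReal hint' hnn]
  congr 1
  rw [← integral_Ioc_eq_integral_Ioo, ← intervalIntegral.integral_of_le hab]
  exact intervalIntegral.integral_eq_sub_of_hasDerivAt_of_le hab hc hd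
    ((intervalIntegrable_iff_integrableOn_Ioc_of_le hab).2 hint)

theorem lintegral_Ioo_one {v : ℝ} (hv : 0 ≤ v) {f : ℝ → ℝ} (hf : ∀ s, 0 < s → f s = 1) :
    ∫⁻ s in Ioo 0 v, ENNReal.ofReal (f s) = ENNReal.ofReal v := by
  have h := lintegral_Ioo_of_deriv (F := fun s => s) (f := f) hv continuous_id.continuousOn
    (fun x hx => by rw [hf x hx.1]; exact hasDerivAt_id x)
    (fun x hx => by rw [hf x hx.1]; exact zero_le_one)
  simpa using h

theorem hasDerivAt_q (t x : ℝ) (h : 0 < x ^ 2 + t ^ 2) :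
    HasDerivAt (fun v => √(v ^ 2 + t ^ 2)) (x / √(x ^ 2 + t ^ 2)) x := by
  have h' := ((hasDerivAt_pow 2 x).add_const (t ^ 2)).sqrt h.ne'
  refine h'.congr_deriv ?_
  have := Real.sqrt_pos.2 h
  field_simp
  norm_num

theorem phi2_zero_left (t : ℝ) : phi2 0 t = 0 := by simp [phi2]

theorem phi3_zero_left {t : ℝ} (ht : 0 < t) : phi3 0 t = 0 := by
  simp [phi3, Real.sqrt_sq ht.le]
  field_simp
  ring

theorem phi4_zero_left (t : ℝ) : phi4 0 t = 0 := by simp [phi4]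

theorem phi5_zero_left {t : ℝ} (ht : 0 < t) : phi5 0 t = 0 := by
  simp [phi5, Real.sqrt_sq ht.le]
  field_simp
  ring

theorem hasDerivAt_atan_div {t : ℝ} (ht : 0 < t) (x : ℝ) :
    HasDerivAt (fun v => Real.arctan (v / t)) (t / (x ^ 2 + t ^ 2)) x := by
  refine ((hasDerivAt_id' x).div_const t).arctan.congr_deriv ?_
  have : x ^ 2 + t ^ 2 ≠ 0 := by positivity
  field_simp
  ring

theorem hasDerivAt_phi2 {t : ℝ} (ht : 0 < t) (x : ℝ) :
    HasDerivAt (fun v => phi2 v t) ((x / √(x ^ 2 + t ^ 2)) ^ 2) x := by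
  have hp : 0 < x ^ 2 + t ^ 2 := by positivity
  refine ((hasDerivAt_id' x).sub ((hasDerivAt_atan_div ht x).const_mul t)).congr_deriv ?_
  rw [div_pow, Real.sq_sqrt hp.le]
  field_simp
  ring

theorem hasDerivAt_phi3 {t : ℝ} (ht : 0 < t) (x : ℝ) :
    HasDerivAt (fun v => phi3 v t) ((x / √(x ^ 2 + t ^ 2)) ^ 3) x := by
  have hp : 0 < x ^ 2 + t ^ 2 := by positivity
  have hq := hasDerivAt_q t x hp
  have hs := Real.sqrt_pos.2 hp
  have hsq := Real.sq_sqrt hp.le
  refine (((hq.add ((hasDerivAt_const x (t ^ 2)).div hq hs.ne')).sub_const (2 * t))).congr_deriv ?_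
  set q := √(x ^ 2 + t ^ 2)
  field_simp
  linear_combination x * hsq

theorem hasDerivAt_phi4 {t : ℝ} (ht : 0 < t) (x : ℝ) :
    HasDerivAt (fun v => phi4 v t) ((x / √(x ^ 2 + t ^ 2)) ^ 4) x := by
  have hp : 0 < x ^ 2 + t ^ 2 := by positivity
  have hden : HasDerivAt (fun v : ℝ => 2 * (v ^ 2 + t ^ 2)) (2 * (2 * x)) x := by
    simpa using ((hasDerivAt_pow 2 x).add_const (t ^ 2)).const_mul 2
  refine (((hasDerivAt_id' x).sub ((hasDerivAt_atan_div ht x).const_mul (3 / 2 * t))).add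
    (((hasDerivAt_id' x).const_mul (t ^ 2)).div hden (by positivity))).congr_deriv ?_
  rw [div_pow, show √(x ^ 2 + t ^ 2) ^ 4 = (√(x ^ 2 + t ^ 2) ^ 2) ^ 2 by ring,
    Real.sq_sqrt hp.le]
  field_simp
  ring

theorem hasDerivAt_phi5 {t : ℝ} (ht : 0 < t) (x : ℝ) :
    HasDerivAt (fun v => phi5 v t) ((x / √(x ^ 2 + t ^ 2)) ^ 5) x := by
  have hp : 0 < x ^ 2 + t ^ 2 := by positivity
  have hq := hasDerivAt_q t x hp
  have hs := Real.sqrt_pos.2 hp
  have hsq := Real.sq_sqrt hp.le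
  refine ((((hq.add ((hasDerivAt_const x (2 * t ^ 2)).div hq hs.ne')).sub
    ((hasDerivAt_const x (t ^ 4)).div ((hq.pow 3).const_mul 3)
      (mul_ne_zero three_ne_zero (pow_ne_zero 3 hs.ne')))).sub_const
      (8 / 3 * t))).congr_deriv ?_
  simp only [Pi.pow_apply]
  set q := √(x ^ 2 + t ^ 2)
  have ht2 : t ^ 2 = q ^ 2 - x ^ 2 := by linarith
  rw [show t ^ 4 = (t ^ 2) ^ 2 by ring, ht2]
  push_cast
  field_simp
  ring

theorem calc_phi {F : ℝ → ℝ → ℝ} (n : ℕ)
    (hd : ∀ t, 0 < t → ∀ x, HasDerivAt (fun v => F v t) ((x / √(x ^ 2 + t ^ 2)) ^ n) x)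
    (h0 : ∀ t, 0 < t → F 0 t = 0) (ht0 : ∀ v, 0 ≤ v → F v 0 = v)
    {v t : ℝ} (hv : 0 ≤ v) (ht : 0 ≤ t) :
    ∫⁻ s in Ioo 0 v, ENNReal.ofReal ((s / √(s ^ 2 + t ^ 2)) ^ n) = ENNReal.ofReal (F v t) := by
  rcases ht.eq_or_lt with rfl | ht
  · rw [ht0 v hv, lintegral_Ioo_one hv (fun s hs => by simp [Real.sqrt_sq hs.le, hs.ne'])]
  · have h := lintegral_Ioo_of_deriv (F := fun v => F v t) hv
      (fun x _ => (hd t ht x).continuousAt.continuousWithinAt) (fun x _ => hd t ht x)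
      (fun x hx => pow_nonneg (div_nonneg hx.1.le (Real.sqrt_nonneg _)) n)
    rwa [h0 t ht, sub_zero] at h

theorem phi2_zero_right {v : ℝ} : phi2 v 0 = v := by simp [phi2]

theorem phi3_zero_right {v : ℝ} (hv : 0 ≤ v) : phi3 v 0 = v := by simp [phi3, Real.sqrt_sq hv]

theorem phi4_zero_right {v : ℝ} : phi4 v 0 = v := by simp [phi4]

theorem phi5_zero_right {v : ℝ} (hv : 0 ≤ v) : phi5 v 0 = v := by simp [phi5, Real.sqrt_sq hv]

theorem calc_phi2 {v t : ℝ} (hv : 0 ≤ v) (ht : 0 ≤ t) :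
    ∫⁻ s in Ioo 0 v, ENNReal.ofReal ((s / √(s ^ 2 + t ^ 2)) ^ 2) = ENNReal.ofReal (phi2 v t) :=
  calc_phi 2 (fun _ h => hasDerivAt_phi2 h) (fun t _ => phi2_zero_left t)
    (fun _ _ => phi2_zero_right) hv ht

theorem calc_phi3 {v t : ℝ} (hv : 0 ≤ v) (ht : 0 ≤ t) :
    ∫⁻ s in Ioo 0 v, ENNReal.ofReal ((s / √(s ^ 2 + t ^ 2)) ^ 3) = ENNReal.ofReal (phi3 v t) :=
  calc_phi 3 (fun _ h => hasDerivAt_phi3 h) (fun _ h => phi3_zero_left h)
    (fun _ h => phi3_zero_right h) hv ht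

theorem calc_phi4 {v t : ℝ} (hv : 0 ≤ v) (ht : 0 ≤ t) :
    ∫⁻ s in Ioo 0 v, ENNReal.ofReal ((s / √(s ^ 2 + t ^ 2)) ^ 4) = ENNReal.ofReal (phi4 v t) :=
  calc_phi 4 (fun _ h => hasDerivAt_phi4 h) (fun t _ => phi4_zero_left t)
    (fun _ _ => phi4_zero_right) hv ht

theorem calc_phi5 {v t : ℝ} (hv : 0 ≤ v) (ht : 0 ≤ t) :
    ∫⁻ s in Ioo 0 v, ENNReal.ofReal ((s / √(s ^ 2 + t ^ 2)) ^ 5) = ENNReal.ofReal (phi5 v t) :=
  calc_phi 5 (fun _ h => hasDerivAt_phi5 h) (fun _ h => phi5_zero_left h)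
    (fun _ h => phi5_zero_right h) hv ht

/-- The in-plane integrand vanishes below `t`. -/
theorem capInt_zero {s t : ℝ} {m : ℕ} (hm : m ≠ 0) (hs : 0 ≤ s) (hst : s ≤ t) :
    (√(s ^ 2 - t ^ 2) / s) ^ m = 0 := by
  rw [Real.sqrt_eq_zero_of_nonpos (by nlinarith), zero_div, zero_pow hm]

theorem calc_cap {F : ℝ → ℝ → ℝ} {m : ℕ} (hm : m ≠ 0)
    (hd : ∀ t, 0 < t → ∀ x, t < x → HasDerivAt (fun v => F v t) ((√(x ^ 2 - t ^ 2) / x) ^ m) x)
    (hc : ∀ t, 0 < t → ∀ v, ContinuousOn (fun v => F v t) (Icc t v))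
    (h0 : ∀ t, 0 < t → F t t = 0)
    {v t : ℝ} (ht : 0 < t) :
    ∫⁻ s in Ioo 0 v, ENNReal.ofReal ((√(s ^ 2 - t ^ 2) / s) ^ m)
      = ENNReal.ofReal (if v ≤ t then 0 else F v t) := by
  split_ifs with hvt
  · rw [ENNReal.ofReal_zero]
    refine setLIntegral_eq_zero measurableSet_Ioo (fun s hs => ?_)
    simp [capInt_zero hm hs.1.le (hs.2.le.trans hvt)]
  · push Not at hvt
    rw [← Ioc_union_Ioo_eq_Ioo ht.le hvt, lintegral_union measurableSet_Ioo
      (Set.disjoint_left.2 fun s h1 h2 => (not_lt.2 h1.2) h2.1)]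
    rw [setLIntegral_eq_zero measurableSet_Ioc (fun s hs => by
      simp [capInt_zero hm hs.1.le hs.2]), zero_add]
    have h := lintegral_Ioo_of_deriv (F := fun v => F v t) hvt.le (hc t ht v)
      (fun x hx => hd t ht x hx.1)
      (fun x hx => pow_nonneg (div_nonneg (Real.sqrt_nonneg _) (ht.le.trans hx.1.le)) m)
    rwa [h0 t ht, sub_zero] at h

theorem calc_cap_zero {m : ℕ} {v : ℝ} (hv : 0 ≤ v) :
    ∫⁻ s in Ioo 0 v, ENNReal.ofReal ((√(s ^ 2 - (0:ℝ) ^ 2) / s) ^ m) = ENNReal.ofReal v :=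
  lintegral_Ioo_one hv (fun s hs => by simp [Real.sqrt_sq hs.le, hs.ne'])

theorem calc_cap3 {v t : ℝ} (hv : 0 ≤ v) (ht : 0 ≤ t) :
    ∫⁻ s in Ioo 0 v, ENNReal.ofReal ((√(s ^ 2 - t ^ 2) / s) ^ 2)
      = ENNReal.ofReal (cap3 v t) := by
  rcases ht.eq_or_lt with rfl | ht
  · rw [calc_cap_zero hv, cap3]
    rcases hv.eq_or_lt with rfl | hv
    · simp
    · rw [if_neg (not_le.2 hv)]; congr 1; field_simp; ring
  · refine calc_cap (F := fun v t => (v - t) ^ 2 / v) two_ne_zero ?_ ?_ (by simp) ht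
    · intro t ht x hx
      have hx0 : 0 < x := ht.trans hx
      refine ((((hasDerivAt_id' x).sub_const t).pow 2).div (hasDerivAt_id' x) hx0.ne').congr_deriv
        ?_
      rw [div_pow, Real.sq_sqrt (by nlinarith)]
      simp only [Pi.pow_apply]
      field_simp
      push_cast
      ring
    · intro t ht v x hx
      exact (ContinuousAt.div (by fun_prop) continuousAt_id
        (ht.trans_le hx.1).ne').continuousWithinAt

theorem calc_cap5 {v t : ℝ} (hv : 0 ≤ v) (ht : 0 ≤ t) :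
    ∫⁻ s in Ioo 0 v, ENNReal.ofReal ((√(s ^ 2 - t ^ 2) / s) ^ 4)
      = ENNReal.ofReal (cap5 v t) := by
  rcases ht.eq_or_lt with rfl | ht
  · rw [calc_cap_zero hv, cap5]
    rcases hv.eq_or_lt with rfl | hv
    · simp
    · rw [if_neg (not_le.2 hv)]; congr 1; field_simp; ring
  · refine calc_cap (F := fun v t => (v - t) ^ 3 * (3 * v + t) / (3 * v ^ 3)) four_ne_zero ?_ ?_
      (by simp) ht
    · intro t ht x hx
      have hx0 : 0 < x := ht.trans hx
      refine (((((hasDerivAt_id' x).sub_const t).pow 3).mul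
        (((hasDerivAt_id' x).const_mul 3).add_const t)).div
        ((hasDerivAt_pow 3 x).const_mul 3) (by positivity)).congr_deriv ?_
      rw [div_pow, show √(x ^ 2 - t ^ 2) ^ 4 = (√(x ^ 2 - t ^ 2) ^ 2) ^ 2 by ring,
        Real.sq_sqrt (by nlinarith)]
      simp only [Pi.pow_apply, Pi.mul_apply]
      field_simp
      push_cast
      ring
    · intro t ht v x hx
      have := ht.trans_le hx.1
      exact (ContinuousAt.div (by fun_prop) (by fun_prop) (by positivity)).continuousWithinAt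

/-- `∫ u in x..1, √(1 - u²)` in closed form. -/
noncomputable def segArea (x : ℝ) : ℝ :=
  π / 4 - (Real.arcsin x + x * √(1 - x ^ 2)) / 2

/-- `∫ s in 1..r, (1 - 1 / s²) ^ (3 / 2)` is `r * capAux (1 / r)`. -/
noncomputable def capAux (x : ℝ) : ℝ := √(1 - x ^ 2) ^ 3 - 3 * x * segArea x

theorem hasDerivAt_sqrt_one_sub {x : ℝ} (h : x ^ 2 < 1) :
    HasDerivAt (fun u => √(1 - u ^ 2)) (-x / √(1 - x ^ 2)) x := by
  have h1 : (0:ℝ) < 1 - x ^ 2 := by linarith
  refine (((hasDerivAt_pow 2 x).const_sub 1).sqrt h1.ne').congr_deriv ?_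
  have := Real.sqrt_pos.2 h1
  field_simp
  norm_num

theorem hasDerivAt_segArea {x : ℝ} (h0 : -1 < x) (h1 : x < 1) :
    HasDerivAt segArea (-√(1 - x ^ 2)) x := by
  have hx : x ^ 2 < 1 := by nlinarith
  have hd : (0:ℝ) < 1 - x ^ 2 := by linarith
  have hs := Real.sqrt_pos.2 hd
  refine ((((hasDerivAt_arcsin h0.ne' h1.ne).add ((hasDerivAt_id' x).mul
    (hasDerivAt_sqrt_one_sub hx))).div_const 2).const_sub (π / 4)).congr_deriv ?_
  have := Real.sq_sqrt hd.le
  field_simp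
  linear_combination this

theorem hasDerivAt_capAux {x : ℝ} (h0 : -1 < x) (h1 : x < 1) :
    HasDerivAt capAux (-3 * segArea x) x := by
  have hx : x ^ 2 < 1 := by nlinarith
  have hd : (0:ℝ) < 1 - x ^ 2 := by linarith
  have hs := Real.sqrt_pos.2 hd
  refine (((hasDerivAt_sqrt_one_sub hx).pow 3).sub (((hasDerivAt_id' x).const_mul 3).mul
    (hasDerivAt_segArea h0 h1))).congr_deriv ?_
  field_simp
  norm_num
  ring

theorem continuous_segArea : Continuous segArea := by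
  unfold segArea; fun_prop

theorem continuous_capAux : Continuous capAux := by
  unfold capAux; have := continuous_segArea; fun_prop

theorem sqrt_one_add_le {x : ℝ} (hx : -1 ≤ x) :
    √(1 + x) ≤ (1 + x + 17 / 10) / (2 * √(17 / 10)) := by
  have hc : 0 < √(17 / 10 : ℝ) := by positivity
  rw [le_div_iff₀ (by positivity)]
  nlinarith [sq_nonneg (√(1 + x) - √(17 / 10)), Real.sq_sqrt (by linarith : (0:ℝ) ≤ 1 + x),
    Real.sq_sqrt (by norm_num : (0:ℝ) ≤ 17 / 10)]

theorem hasDerivAt_pow_mul_sqrt (n : ℕ) {y : ℝ} (hy : 0 < y) :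
    HasDerivAt (fun y => y ^ (n + 1) * √y) (((n : ℝ) + 3 / 2) * (y ^ n * √y)) y := by
  have hs := Real.sqrt_pos.2 hy
  refine ((hasDerivAt_pow (n + 1) y).mul (Real.hasDerivAt_sqrt hy.ne')).congr_deriv ?_
  have he : y ^ (n + 1) * (1 / (2 * √y)) = y ^ n * √y / 2 := by
    have hy' : y ^ (n + 1) = y ^ n * (√y * √y) := by rw [Real.mul_self_sqrt hy.le, pow_succ]
    rw [hy']
    field_simp
  rw [he]
  push_cast
  ring

theorem hasDerivAt_pow_mul_sqrt_one_sub (n : ℕ) {x : ℝ} (hx : x < 1) :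
    HasDerivAt (fun x => (1 - x) ^ (n + 1) * √(1 - x))
      (-(((n : ℝ) + 3 / 2) * ((1 - x) ^ n * √(1 - x)))) x := by
  have h := (hasDerivAt_pow_mul_sqrt n (show 0 < 1 - x by linarith)).comp x
    ((hasDerivAt_id' x).const_sub 1)
  exact h.congr_deriv (by ring)

theorem segArea_le {x : ℝ} (h0 : 0 ≤ x) (h1 : x ≤ 1) :
    segArea x ≤ ((2 + 17 / 10) * (2 / 3) * ((1 - x) ^ 1 * √(1 - x))
      - 2 / 5 * ((1 - x) ^ 2 * √(1 - x))) / (2 * √(17 / 10)) := by
  let B : ℝ → ℝ := fun u => ((2 + 17 / 10) * (2 / 3) * ((1 - u) ^ 1 * √(1 - u))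
      - 2 / 5 * ((1 - u) ^ 2 * √(1 - u))) / (2 * √(17 / 10)) - segArea u
  have hanti : AntitoneOn B (Icc 0 1) := by
    apply antitoneOn_of_hasDerivWithinAt_nonpos (convex_Icc 0 1)
      (f' := fun u => -(√(1 - u) * ((1 + u + 17 / 10) / (2 * √(17 / 10)) - √(1 + u))))
    · have := continuous_segArea
      exact Continuous.continuousOn (by fun_prop)
    · intro u hu
      rw [interior_Icc] at hu
      have ha : (0:ℝ) ≤ 1 - u := by linarith [hu.2]
      refine HasDerivAt.hasDerivWithinAt ?_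
      refine ((((hasDerivAt_pow_mul_sqrt_one_sub 0 hu.2).const_mul ((2 + 17 / 10) * (2 / 3))).sub
        ((hasDerivAt_pow_mul_sqrt_one_sub 1 hu.2).const_mul (2 / 5))).div_const
        (2 * √(17 / 10))).sub (hasDerivAt_segArea (by linarith [hu.1]) hu.2) |>.congr_deriv ?_
      have hm : √(1 - u ^ 2) = √(1 - u) * √(1 + u) := by
        rw [← Real.sqrt_mul ha]; ring_nf
      rw [hm]
      have hc : 0 < √(17 / 10 : ℝ) := by positivity
      field_simp
      norm_num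
      ring
    · intro u hu
      rw [interior_Icc] at hu
      exact neg_nonpos.2 (mul_nonneg (Real.sqrt_nonneg _)
        (sub_nonneg.2 (sqrt_one_add_le (by linarith [hu.1]))))
  have h := hanti (⟨h0, h1⟩ : x ∈ Icc (0:ℝ) 1) (right_mem_Icc.2 zero_le_one) h1
  have hz : B 1 = 0 := by simp [B, segArea]; ring
  rw [hz] at h
  simpa [B] using h

theorem capAux_le {x : ℝ} (h0 : 0 ≤ x) (h1 : x ≤ 1) :
    capAux x ≤ 3 / (2 * √(17 / 10)) *
      ((1 - x) ^ 2 * √(1 - x) * (4 / 15 * (2 + 17 / 10) - 4 / 35 * (1 - x))) := by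
  let B : ℝ → ℝ := fun u => 3 / (2 * √(17 / 10)) *
      (4 / 15 * (2 + 17 / 10) * ((1 - u) ^ 2 * √(1 - u))
        - 4 / 35 * ((1 - u) ^ 3 * √(1 - u))) - capAux u
  have hanti : AntitoneOn B (Icc 0 1) := by
    apply antitoneOn_of_hasDerivWithinAt_nonpos (convex_Icc 0 1)
      (f' := fun u => -(3 * (((2 + 17 / 10) * (2 / 3) * ((1 - u) ^ 1 * √(1 - u))
      - 2 / 5 * ((1 - u) ^ 2 * √(1 - u))) / (2 * √(17 / 10)) - segArea u)))
    · have := continuous_capAux
      exact Continuous.continuousOn (by fun_prop)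
    · intro u hu
      rw [interior_Icc] at hu
      refine HasDerivAt.hasDerivWithinAt ?_
      refine ((((hasDerivAt_pow_mul_sqrt_one_sub 1 hu.2).const_mul (4 / 15 * (2 + 17 / 10))).sub
        ((hasDerivAt_pow_mul_sqrt_one_sub 2 hu.2).const_mul (4 / 35))).const_mul
        (3 / (2 * √(17 / 10)))).sub (hasDerivAt_capAux (by linarith [hu.1]) hu.2)
        |>.congr_deriv ?_
      have hc : 0 < √(17 / 10 : ℝ) := by positivity
      field_simp
      norm_num
      ring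
    · intro u hu
      rw [interior_Icc] at hu
      have := segArea_le hu.1.le hu.2.le
      linarith
  have h := hanti (⟨h0, h1⟩ : x ∈ Icc (0:ℝ) 1) (right_mem_Icc.2 zero_le_one) h1
  have hz : B 1 = 0 := by simp [B, capAux, segArea]; ring
  rw [hz] at h
  simp only [B] at h
  linarith [show 3 / (2 * √(17 / 10 : ℝ)) *
      ((1 - x) ^ 2 * √(1 - x) * (4 / 15 * (2 + 17 / 10) - 4 / 35 * (1 - x)))
      = 3 / (2 * √(17 / 10)) * (4 / 15 * (2 + 17 / 10) * ((1 - x) ^ 2 * √(1 - x))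
        - 4 / 35 * ((1 - x) ^ 3 * √(1 - x))) by ring]

theorem calc_cap4 {v t : ℝ} (hv : 0 ≤ v) (ht : 0 ≤ t) :
    ∫⁻ s in Ioo 0 v, ENNReal.ofReal ((√(s ^ 2 - t ^ 2) / s) ^ 3)
      ≤ ENNReal.ofReal (cap4 v t) := by
  rcases ht.eq_or_lt with rfl | ht
  · rw [calc_cap_zero hv, cap4]
    apply ENNReal.ofReal_le_ofReal
    rcases hv.eq_or_lt with rfl | hv
    · simp
    · rw [if_neg (not_le.2 hv)]
      have hc : √(17 / 10 : ℝ) ≤ 1304 / 1000 := Real.sqrt_le_iff.2 ⟨by norm_num, by norm_num⟩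
      have hc0 : 0 < √(17 / 10 : ℝ) := by positivity
      simp only [zero_div, sub_zero, Real.sqrt_one, one_pow, mul_one, one_mul]
      rw [div_mul_eq_mul_div, le_div_iff₀ (by positivity)]
      nlinarith
  · rw [calc_cap (F := fun v t => v * capAux (t / v)) (m := 3) (by norm_num) ?_ ?_ ?_ ht]
    · apply ENNReal.ofReal_le_ofReal
      unfold cap4
      split_ifs with hvt
      · exact le_rfl
      · push Not at hvt
        have hv' : 0 < v := ht.trans hvt
        have h := capAux_le (div_nonneg ht.le hv'.le) ((div_le_one hv').2 hvt.le)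
        calc v * capAux (t / v) ≤ v * _ := mul_le_mul_of_nonneg_left h hv'.le
          _ = _ := by ring
    · intro t ht x hx
      have hx0 : 0 < x := ht.trans hx
      have h1 : t / x < 1 := (div_lt_one hx0).2 hx
      have h0 : -1 < t / x := lt_trans (by norm_num) (div_pos ht hx0)
      have hdiv : HasDerivAt (fun v => t / v) (-t / x ^ 2) x :=
        ((hasDerivAt_const x t).div (hasDerivAt_id' x) hx0.ne').congr_deriv (by ring)
      refine ((hasDerivAt_id' x).mul ((hasDerivAt_capAux h0 h1).comp x hdiv)).congr_deriv ?_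
      have hsx : √(x ^ 2 - t ^ 2) = x * √(1 - (t / x) ^ 2) := by
        rw [show x ^ 2 - t ^ 2 = x ^ 2 * (1 - (t / x) ^ 2) by field_simp,
          Real.sqrt_mul (sq_nonneg x), Real.sqrt_sq hx0.le]
      rw [hsx, mul_div_cancel_left₀ _ hx0.ne']
      simp only [Function.comp_apply, capAux]
      field_simp
      ring
    · intro t ht v x hx
      have := ht.trans_le hx.1
      exact ((continuousAt_id).mul (continuous_capAux.continuousAt.comp
        (continuousAt_const.div continuousAt_id this.ne'))).continuousWithinAt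
    · intro t ht
      simp [div_self ht.ne', capAux, segArea]
      right
      ring

end Vale.Agent.P226
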