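import Vale.Agent.P226.PolyCheck
import Vale.Agent.P226.RadialCalc

/-!
# Boolean checks for the scalar side of the branches (P226)

* `lineOK`: a quadratic majorant in `v ^ 2 + x` for the summand `capₙ v t + κ x / (2 v)`;
* `kOK`: a bound `phiₙ v t ≤ K v ^ 2` on an interval `[0, s]`.

All parameters are rational and the checks reduce to `polyNonneg`.
-/

namespace Vale.Agent.P226

open Real

namespace BranchScalar

/-- The constant coefficient of the majorant as a polynomial in `v`. -/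
def lineA0 (al gam M x be : ℚ) : ℚ := be + al * x - gam * (x - M) * (x - M)

/-- The coefficient of `v ^ 2` in the majorant. -/
def lineA2 (al gam M x : ℚ) : ℚ := al - 2 * gam * (x - M)

/-- The slope constant `κₙ`. -/
def kappa : ℕ → ℚ
  | 4 => 201 / 200
  | _ => 1

/-- The polynomial to be nonnegative below the threshold. -/
def belowPoly (n : ℕ) (al gam M x be : ℚ) : List ℚ :=
  [-(kappa n * x / 2), lineA0 al gam M x be, 0, lineA2 al gam M x, 0, -gam]

/-- The polynomial to be nonnegative above the threshold, `n = 3`. -/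
def abovePoly3 (t al gam M x be : ℚ) : List ℚ :=
  [-(t * t) - x / 2, lineA0 al gam M x be + 2 * t, -1, lineA2 al gam M x, 0, -gam]

/-- The polynomial to be nonnegative above the threshold, `n = 5`. -/
def abovePoly5 (t al gam M x be : ℚ) : List ℚ :=
  [t * t * t * t, 0, -(6 * t * t) - 3 * x / 2, 3 * lineA0 al gam M x be + 8 * t, -3,
    3 * lineA2 al gam M x, 0, -(3 * gam)]

/-- Rational upper bound of `3 / (2 √(17/10))`. -/
def capK : ℚ := 23009 / 20000

/-- The polynomial to be nonnegative above the threshold, `n = 4`, with the tangent of the square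
root at `c ^ 2`. -/
def abovePoly4 (t al gam M x be c : ℚ) : List ℚ :=
  let k := capK / (2 * c)
  let p₂ := (1 + c * c) * (4 / 15 * (2 + 17 / 10) - 4 / 35)
  let p₁ := (1 + c * c) * (4 / 35) * t - (4 / 15 * (2 + 17 / 10) - 4 / 35) * t
  let p₀ := -(4 / 35 * (t * t))
  [-(k * (t * t * p₀)), -(k * (t * t * p₁ - 2 * t * p₀)),
    -(k * (t * t * p₂ - 2 * t * p₁ + p₀)) - 201 / 400 * x,
    lineA0 al gam M x be - k * (-(2 * t * p₂) + p₁), -(k * p₂), lineA2 al gam M x, 0, -gam]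

/-- One Newton step for a square root, rounded up to a multiple of `2⁻¹⁶`. -/
def sqrtStep (y g : ℚ) : ℚ := mkRat (⌈(g + y / g) / 2 * 65536⌉) 65536

/-- An approximate square root (only its positivity and the checked inequalities are used). -/
def sqrtApprox (y g : ℚ) : ℚ := sqrtStep y (sqrtStep y (sqrtStep y (sqrtStep y g)))

/-- The test above the threshold for `n = 4`, choosing the tangent point on each piece. -/
def above4 (t al gam M x be : ℚ) : ℕ → ℚ → ℚ → Bool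
  | 0, lo, hi =>
    let c := sqrtApprox (((lo + hi) / 2 - t) / ((lo + hi) / 2)) (1 / 2)
    decide (0 < c) && polyNonneg (abovePoly4 t al gam M x be c) lo hi 2
  | k + 1, lo, hi =>
    let c := sqrtApprox (((lo + hi) / 2 - t) / ((lo + hi) / 2)) (1 / 2)
    (decide (0 < c) && polyNonneg (abovePoly4 t al gam M x be c) lo hi 2) ||
      (above4 t al gam M x be k lo ((lo + hi) / 2) && above4 t al gam M x be k ((lo + hi) / 2) hi)

/-- The test above the threshold. -/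
def above (n : ℕ) (t al gam M x be lo hi : ℚ) : Bool :=
  match n with
  | 3 => polyNonneg (abovePoly3 t al gam M x be) lo hi 8
  | 4 => above4 t al gam M x be 6 lo hi
  | 5 => polyNonneg (abovePoly5 t al gam M x be) lo hi 8
  | _ => false

end BranchScalar

open BranchScalar in
/-- The Boolean check that `capₙ v t + κₙ x / (2 v) ≤ be + al w - gam (w - M)²`, `w = v² + x`, on
`[lo, hi]`. -/
def lineOK (n : ℕ) (t al gam M x be lo hi : ℚ) : Bool :=
  (n == 3 || n == 4 || n == 5) && decide (0 < t) && decide (0 ≤ x) && decide (0 ≤ lo)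
    && decide (lo ≤ hi) && (decide (0 < lo) || (decide (x = 0) && decide (0 ≤ lineA0 al gam M x be)))
    && (decide (t < lo) || polyNonneg (belowPoly n al gam M x be) lo (min hi t) 8)
    && (decide (hi ≤ t) || above n t al gam M x be (max lo t) hi)

open BranchScalar in
/-- The Boolean check that `phiₙ v t ≤ K v²` on `[0, s]`. -/
def kOK (n : ℕ) (t s K : ℚ) : Bool :=
  decide (0 < t) && decide (0 ≤ s) &&
    match n with
    | 2 => polyNonneg [105 * K * t, -35, 90 * K * t, -9, 9 * K * t] 0 (s / t) 6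
    | 4 => polyNonneg [210 * K * t, 0, 390 * K * t, -42, 198 * K * t, -18, 18 * K * t] 0 (s / t) 6
    | 3 =>
      let q := sqrtApprox (s * s + t * t) (s + t)
      decide (0 ≤ q) && decide (s * s + t * t ≤ q * q) && polyNonneg [t, K * t - 1, K] t q 6
    | 5 =>
      let q := sqrtApprox (s * s + t * t) (s + t)
      decide (0 ≤ q) && decide (s * s + t * t ≤ q * q) &&
        polyNonneg [-(t * t * t), -(t * t), 5 * t, 3 * K * t - 3, 3 * K] t q 6
    | _ => false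

namespace BranchScalar

theorem eval_belowPoly (n : ℕ) (al gam M x be : ℚ) (v : ℝ) :
    polyEval (belowPoly n al gam M x be) v
      = v * ((be : ℝ) + al * (v ^ 2 + x) - gam * (v ^ 2 + x - M) ^ 2)
        - (kappa n : ℝ) * x / 2 := by
  simp only [belowPoly, polyEval, lineA0, lineA2]
  push_cast
  ring

/-- Below the threshold. -/
theorem below_sound {n : ℕ} {t al gam M x be lo hi : ℚ}
    (hlo : 0 < lo ∨ (x = 0 ∧ 0 ≤ lineA0 al gam M x be)) (hlo0 : 0 ≤ lo)
    (h : polyNonneg (belowPoly n al gam M x be) lo (min hi t) 8 = true) {v : ℝ}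
    (h1 : (lo : ℝ) ≤ v) (h2 : v ≤ hi) (h3 : v ≤ t) :
    (kappa n : ℝ) * (x / (2 * v)) - al * (v ^ 2 + x) + gam * (v ^ 2 + x - M) ^ 2 ≤ be := by
  have hp := polyNonneg_sound h h1 (by rw [Rat.cast_min]; exact le_min h2 h3)
  rw [eval_belowPoly] at hp
  rcases ((Rat.cast_nonneg.2 hlo0).trans h1).eq_or_lt with h0 | h0
  · rcases hlo with hl | ⟨hx, hA⟩
    · exact absurd (h0 ▸ h1) (not_le.2 (Rat.cast_pos.2 hl))
    · subst hx
      have hA' : (0 : ℝ) ≤ ((lineA0 al gam M 0 be : ℚ) : ℝ) := Rat.cast_nonneg.2 hA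
      simp only [lineA0] at hA'
      push_cast at hA'
      subst h0
      push_cast
      simp only [zero_div, mul_zero]
      linarith [show (gam : ℝ) * ((0:ℝ) ^ 2 + 0 - M) ^ 2 = gam * (0 - M) * (0 - M) by ring,
        show (al : ℝ) * ((0:ℝ) ^ 2 + 0) = 0 by ring]
  · refine le_of_mul_le_mul_left (a := v) ?_ h0
    have e : v * ((kappa n : ℝ) * ((x : ℝ) / (2 * v))) = (kappa n : ℝ) * x / 2 := by field_simp
    linear_combination hp + e

theorem lineOK_cases {n : ℕ} {t al gam M x be lo hi : ℚ}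
    (h : lineOK n t al gam M x be lo hi = true) :
    0 < t ∧ 0 ≤ x ∧ 0 ≤ lo ∧ (0 < lo ∨ (x = 0 ∧ 0 ≤ lineA0 al gam M x be)) ∧
      (t < lo ∨ polyNonneg (belowPoly n al gam M x be) lo (min hi t) 8 = true) ∧
      (hi ≤ t ∨ above n t al gam M x be (max lo t) hi = true) := by
  simp only [lineOK, Bool.and_eq_true, Bool.or_eq_true, decide_eq_true_eq] at h
  exact ⟨h.1.1.1.1.1.1.2, h.1.1.1.1.1.2, h.1.1.1.1.2, h.1.1.2, h.1.2, h.2⟩

theorem abovePoly3_sound {t al gam M x be lo hi : ℚ}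
    (h : polyNonneg (abovePoly3 t al gam M x be) lo hi 8 = true) {v : ℝ}
    (h1 : (lo : ℝ) ≤ v) (h2 : v ≤ hi) (hv : 0 < v) :
    (v - t) ^ 2 / v + x / (2 * v) - al * (v ^ 2 + x) + gam * (v ^ 2 + x - M) ^ 2 ≤ be := by
  have hp := polyNonneg_sound h h1 h2
  simp only [abovePoly3, lineA0, lineA2, polyEval] at hp
  push_cast at hp
  refine le_of_mul_le_mul_left (a := v) ?_ hv
  have e : v * ((v - t) ^ 2 / v) = (v - t) ^ 2 := by field_simp
  have e' : v * ((x : ℝ) / (2 * v)) = x / 2 := by field_simp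
  linear_combination hp + e + e'

theorem abovePoly5_sound {t al gam M x be lo hi : ℚ}
    (h : polyNonneg (abovePoly5 t al gam M x be) lo hi 8 = true) {v : ℝ}
    (h1 : (lo : ℝ) ≤ v) (h2 : v ≤ hi) (hv : 0 < v) :
    (v - t) ^ 3 * (3 * v + t) / (3 * v ^ 3) + x / (2 * v)
      - al * (v ^ 2 + x) + gam * (v ^ 2 + x - M) ^ 2 ≤ be := by
  have hp := polyNonneg_sound h h1 h2
  simp only [abovePoly5, lineA0, lineA2, polyEval] at hp
  push_cast at hp
  refine le_of_mul_le_mul_left (a := 3 * v ^ 3) ?_ (by positivity)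
  have e : 3 * v ^ 3 * ((v - t) ^ 3 * (3 * v + t) / (3 * v ^ 3))
      = (v - t) ^ 3 * (3 * v + t) := by field_simp
  have e' : 3 * v ^ 3 * ((x : ℝ) / (2 * v)) = 3 * v ^ 2 * x / 2 := by field_simp
  linear_combination hp + e + e'

theorem capK_ge : 3 / (2 * √(17 / 10 : ℝ)) ≤ (capK : ℝ) := by
  have h : (30000 / 23009 : ℝ) ≤ √(17 / 10) := Real.le_sqrt_of_sq_le (by norm_num)
  have hc : (capK : ℝ) = 23009 / 20000 := by norm_num [capK]
  rw [hc, div_le_iff₀ (by positivity)]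
  linarith

theorem cap4_le_tangent {v t c : ℝ} (ht : 0 < t) (hv : t < v) (hc : 0 < c) :
    cap4 v t ≤ (capK : ℝ) * v * ((1 - t / v) ^ 2 * (((1 - t / v) + c ^ 2) / (2 * c)) *
      (4 / 15 * (2 + 17 / 10) - 4 / 35 * (1 - t / v))) := by
  have hv0 : 0 < v := ht.trans hv
  rw [cap4, if_neg (not_le.2 hv)]
  have hy0 : 0 ≤ 1 - t / v := sub_nonneg.2 ((div_le_one hv0).2 hv.le)
  have hy1 : 1 - t / v ≤ 1 := by linarith [div_nonneg ht.le hv0.le]
  have hs : √(1 - t / v) ≤ ((1 - t / v) + c ^ 2) / (2 * c) := by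
    rw [le_div_iff₀ (by positivity)]
    nlinarith [sq_nonneg (√(1 - t / v) - c), Real.sq_sqrt hy0]
  have hA : 0 ≤ 4 / 15 * (2 + 17 / 10) - 4 / 35 * (1 - t / v) := by linarith
  have hk : 3 * v / (2 * √(17 / 10 : ℝ)) ≤ (capK : ℝ) * v := by
    rw [mul_div_right_comm]
    exact mul_le_mul_of_nonneg_right capK_ge hv0.le
  calc _ ≤ (capK : ℝ) * v * ((1 - t / v) ^ 2 * √(1 - t / v) *
        (4 / 15 * (2 + 17 / 10) - 4 / 35 * (1 - t / v))) := by
        exact mul_le_mul_of_nonneg_right hk (by positivity)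
    _ ≤ _ := by
        have hK : 0 ≤ (capK : ℝ) * v := mul_nonneg (by norm_num [capK]) hv0.le
        gcongr

theorem abovePoly4_sound {t al gam M x be lo hi c : ℚ} {d : ℕ} (hc : 0 < c) (ht : 0 < t)
    (h : polyNonneg (abovePoly4 t al gam M x be c) lo hi d = true) {v : ℝ}
    (h1 : (lo : ℝ) ≤ v) (h2 : v ≤ hi) (hv : (t : ℝ) < v) :
    cap4 v t + 201 / 200 * ((x : ℝ) / (2 * v)) - al * (v ^ 2 + x)
      + gam * (v ^ 2 + x - M) ^ 2 ≤ be := by
  have hc' : (0 : ℝ) < c := Rat.cast_pos.2 hc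
  have ht' : (0 : ℝ) < t := Rat.cast_pos.2 ht
  have hv0 : 0 < v := ht'.trans hv
  have hp := polyNonneg_sound h h1 h2
  simp only [abovePoly4, lineA0, lineA2, polyEval] at hp
  push_cast at hp
  have hb := cap4_le_tangent ht' hv hc'
  suffices key : (capK : ℝ) * v * ((1 - t / v) ^ 2 * (((1 - t / v) + c ^ 2) / (2 * c)) *
      (4 / 15 * (2 + 17 / 10) - 4 / 35 * (1 - t / v))) + 201 / 200 * ((x : ℝ) / (2 * v))
      - al * (v ^ 2 + x) + gam * (v ^ 2 + x - M) ^ 2 ≤ be by linarith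
  refine le_of_mul_le_mul_left (a := v ^ 3) ?_ (by positivity)
  have e : v ^ 3 * ((capK : ℝ) * v * ((1 - t / v) ^ 2 * (((1 - t / v) + c ^ 2) / (2 * c)) *
      (4 / 15 * (2 + 17 / 10) - 4 / 35 * (1 - t / v))))
      = (capK : ℝ) / (2 * c) * ((v - t) ^ 2 * ((1 + c * c) * v - t) *
        ((4 / 15 * (2 + 17 / 10) - 4 / 35) * v + 4 / 35 * t)) := by
    field_simp
    ring
  have e' : v ^ 3 * (201 / 200 * ((x : ℝ) / (2 * v))) = 201 / 400 * x * v ^ 2 := by
    field_simp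
    ring
  linear_combination hp + e + e'

theorem above4_sound {t al gam M x be : ℚ} (ht : 0 < t) :
    ∀ (k : ℕ) {lo hi : ℚ}, above4 t al gam M x be k lo hi = true → ∀ {v : ℝ},
      (lo : ℝ) ≤ v → v ≤ hi → (t : ℝ) < v →
      cap4 v t + 201 / 200 * ((x : ℝ) / (2 * v)) - al * (v ^ 2 + x)
        + gam * (v ^ 2 + x - M) ^ 2 ≤ be
  | 0, _, _, h, _, h1, h2, hv => by
    simp only [above4, Bool.and_eq_true, decide_eq_true_eq] at h
    exact abovePoly4_sound h.1 ht h.2 h1 h2 hv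
  | k + 1, lo, hi, h, v, h1, h2, hv => by
    simp only [above4, Bool.and_eq_true, Bool.or_eq_true, decide_eq_true_eq] at h
    rcases h with h | ⟨hl, hr⟩
    · exact abovePoly4_sound h.1 ht h.2 h1 h2 hv
    · rcases le_total v (((lo + hi) / 2 : ℚ) : ℝ) with hm | hm
      · exact above4_sound ht k hl h1 hm hv
      · exact above4_sound ht k hr hm h2 hv

end BranchScalar

open BranchScalar

/-- Soundness of `lineOK` for `n = 3`. -/
theorem lineOK_three {t al gam M x be lo hi : ℚ} (h : lineOK 3 t al gam M x be lo hi = true)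
    {v : ℝ} (h1 : (lo : ℝ) ≤ v) (h2 : v ≤ hi) :
    cap3 v t + (x : ℝ) / (2 * v) - al * (v ^ 2 + x) + gam * (v ^ 2 + x - M) ^ 2 ≤ be := by
  obtain ⟨ht, -, hlo0, hlo, hb, ha⟩ := lineOK_cases h
  by_cases hv : v ≤ t
  · rw [cap3, if_pos hv, zero_add]
    have hb' := hb.resolve_left fun hl => not_lt.2 (h1.trans hv) (Rat.cast_lt.2 hl)
    simpa [kappa] using below_sound hlo hlo0 hb' h1 h2 hv
  · push Not at hv
    rw [cap3, if_neg (not_le.2 hv)]
    have ha' := ha.resolve_left fun hl => not_lt.2 (h2.trans (Rat.cast_le.2 hl)) hv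
    exact abovePoly3_sound ha' (by rw [Rat.cast_max]; exact max_le h1 hv.le) h2
      ((Rat.cast_pos.2 ht).trans hv)

/-- Soundness of `lineOK` for `n = 4`. -/
theorem lineOK_four {t al gam M x be lo hi : ℚ} (h : lineOK 4 t al gam M x be lo hi = true)
    {v : ℝ} (h1 : (lo : ℝ) ≤ v) (h2 : v ≤ hi) :
    cap4 v t + 201 / 200 * ((x : ℝ) / (2 * v)) - al * (v ^ 2 + x)
      + gam * (v ^ 2 + x - M) ^ 2 ≤ be := by
  obtain ⟨ht, -, hlo0, hlo, hb, ha⟩ := lineOK_cases h
  by_cases hv : v ≤ t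
  · rw [cap4, if_pos hv, zero_add]
    have hb' := hb.resolve_left fun hl => not_lt.2 (h1.trans hv) (Rat.cast_lt.2 hl)
    simpa [kappa] using below_sound hlo hlo0 hb' h1 h2 hv
  · push Not at hv
    have ha' := ha.resolve_left fun hl => not_lt.2 (h2.trans (Rat.cast_le.2 hl)) hv
    exact above4_sound ht 6 ha' (by rw [Rat.cast_max]; exact max_le h1 hv.le) h2 hv

/-- Soundness of `lineOK` for `n = 5`. -/
theorem lineOK_five {t al gam M x be lo hi : ℚ} (h : lineOK 5 t al gam M x be lo hi = true)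
    {v : ℝ} (h1 : (lo : ℝ) ≤ v) (h2 : v ≤ hi) :
    cap5 v t + (x : ℝ) / (2 * v) - al * (v ^ 2 + x) + gam * (v ^ 2 + x - M) ^ 2 ≤ be := by
  obtain ⟨ht, -, hlo0, hlo, hb, ha⟩ := lineOK_cases h
  by_cases hv : v ≤ t
  · rw [cap5, if_pos hv, zero_add]
    have hb' := hb.resolve_left fun hl => not_lt.2 (h1.trans hv) (Rat.cast_lt.2 hl)
    simpa [kappa] using below_sound hlo hlo0 hb' h1 h2 hv
  · push Not at hv
    rw [cap5, if_neg (not_le.2 hv)]
    have ha' := ha.resolve_left fun hl => not_lt.2 (h2.trans (Rat.cast_le.2 hl)) hv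
    exact abovePoly5_sound ha' (by rw [Rat.cast_max]; exact max_le h1 hv.le) h2
      ((Rat.cast_pos.2 ht).trans hv)

namespace BranchScalar

/-- A rational lower bound for the arctangent. -/
theorem arctan_ge {z : ℝ} (hz : 0 ≤ z) :
    z * (105 + 55 * z ^ 2) / (105 + 90 * z ^ 2 + 9 * z ^ 4) ≤ arctan z := by
  let f : ℝ → ℝ := fun u => arctan u - u * (105 + 55 * u ^ 2) / (105 + 90 * u ^ 2 + 9 * u ^ 4)
  have hd : ∀ u : ℝ, HasDerivAt f
      (576 * u ^ 8 / ((1 + u ^ 2) * (105 + 90 * u ^ 2 + 9 * u ^ 4) ^ 2)) u := by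
    intro u
    refine ((hasDerivAt_arctan u).sub (((hasDerivAt_id' u).mul
      (((hasDerivAt_pow 2 u).const_mul 55).const_add 105)).div
      ((((hasDerivAt_pow 2 u).const_mul 90).const_add 105).add
        ((hasDerivAt_pow 4 u).const_mul 9))
      (show (105 + 90 * u ^ 2 + 9 * u ^ 4 : ℝ) ≠ 0 by positivity))).congr_deriv ?_
    simp only [Pi.add_apply, Pi.mul_apply]
    have : (105 + 90 * u ^ 2 + 9 * u ^ 4) ≠ 0 := by positivity
    have : (1 + u ^ 2) ≠ 0 := by positivity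
    field_simp
    push_cast
    ring
  have hmono : Monotone f := monotone_of_deriv_nonneg (fun u => (hd u).differentiableAt)
    fun u => by rw [(hd u).deriv]; positivity
  have h := hmono hz
  simp only [f, arctan_zero, zero_mul, zero_div, sub_zero] at h
  linarith

end BranchScalar

theorem kOK_two {t s K : ℚ} (h : kOK 2 t s K = true) {v : ℝ} (h0 : 0 ≤ v) (h1 : v ≤ s) :
    phi2 v t ≤ (K : ℝ) * v ^ 2 := by
  simp only [kOK, Bool.and_eq_true, decide_eq_true_eq] at h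
  obtain ⟨⟨ht, -⟩, hp⟩ := h
  have ht' : (0 : ℝ) < t := Rat.cast_pos.2 ht
  obtain ⟨z, hz, hzv⟩ : ∃ z, 0 ≤ z ∧ v = t * z :=
    ⟨v / t, div_nonneg h0 ht'.le, (mul_div_cancel₀ _ ht'.ne').symm⟩
  subst hzv
  have hzs : z ≤ ((s / t : ℚ) : ℝ) := by
    rw [Rat.cast_div, le_div_iff₀ ht']
    linarith
  have hp' := polyNonneg_sound hp (by rw [Rat.cast_zero]; exact hz) hzs
  simp only [polyEval] at hp'
  push_cast at hp'
  have hat := arctan_ge hz
  have hD : 0 < 105 + 90 * z ^ 2 + 9 * z ^ 4 := by positivity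
  rw [phi2, mul_div_cancel_left₀ _ ht'.ne']
  rw [div_le_iff₀ hD] at hat
  refine le_of_mul_le_mul_left (a := 105 + 90 * z ^ 2 + 9 * z ^ 4) ?_ hD
  nlinarith [mul_le_mul_of_nonneg_left hat ht'.le, mul_nonneg (mul_nonneg ht'.le (sq_nonneg z)) hp']

theorem kOK_four {t s K : ℚ} (h : kOK 4 t s K = true) {v : ℝ} (h0 : 0 ≤ v) (h1 : v ≤ s) :
    phi4 v t ≤ (K : ℝ) * v ^ 2 := by
  simp only [kOK, Bool.and_eq_true, decide_eq_true_eq] at h
  obtain ⟨⟨ht, -⟩, hp⟩ := h
  have ht' : (0 : ℝ) < t := Rat.cast_pos.2 ht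
  obtain ⟨z, hz, hzv⟩ : ∃ z, 0 ≤ z ∧ v = t * z :=
    ⟨v / t, div_nonneg h0 ht'.le, (mul_div_cancel₀ _ ht'.ne').symm⟩
  subst hzv
  have hzs : z ≤ ((s / t : ℚ) : ℝ) := by
    rw [Rat.cast_div, le_div_iff₀ ht']
    linarith
  have hp' := polyNonneg_sound hp (by rw [Rat.cast_zero]; exact hz) hzs
  simp only [polyEval] at hp'
  push_cast at hp'
  have hat := arctan_ge hz
  have hD : 0 < 105 + 90 * z ^ 2 + 9 * z ^ 4 := by positivity
  have hw : 0 < 1 + z ^ 2 := by positivity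
  rw [phi4, mul_div_cancel_left₀ _ ht'.ne']
  rw [div_le_iff₀ hD] at hat
  have e : (t : ℝ) ^ 2 * (t * z) / (2 * ((t * z) ^ 2 + t ^ 2)) = t * z / (2 * (1 + z ^ 2)) := by
    field_simp
    ring
  rw [e]
  refine le_of_mul_le_mul_left (a := 2 * (1 + z ^ 2) * (105 + 90 * z ^ 2 + 9 * z ^ 4)) ?_
    (by positivity)
  have e' : 2 * (1 + z ^ 2) * (105 + 90 * z ^ 2 + 9 * z ^ 4) * ((t : ℝ) * z / (2 * (1 + z ^ 2)))
      = (105 + 90 * z ^ 2 + 9 * z ^ 4) * (t * z) := by
    field_simp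
  nlinarith [mul_le_mul_of_nonneg_left hat (mul_nonneg ht'.le hw.le),
    mul_nonneg (mul_nonneg ht'.le (sq_nonneg z)) hp']

theorem kOK_three {t s K : ℚ} (h : kOK 3 t s K = true) {v : ℝ} (h0 : 0 ≤ v) (h1 : v ≤ s) :
    phi3 v t ≤ (K : ℝ) * v ^ 2 := by
  simp only [kOK, Bool.and_eq_true, decide_eq_true_eq] at h
  obtain ⟨⟨ht, -⟩, ⟨hq0, hq2⟩, hp⟩ := h
  have ht' : (0 : ℝ) < t := Rat.cast_pos.2 ht
  have hp0 : 0 < v ^ 2 + (t : ℝ) ^ 2 := by positivity
  have hq0' := Rat.cast_nonneg (K := ℝ).2 hq0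
  have hq2' := Rat.cast_le (K := ℝ).2 hq2
  push_cast at hq2'
  have htq : (t : ℝ) ≤ √(v ^ 2 + (t : ℝ) ^ 2) :=
    Real.le_sqrt_of_sq_le (by nlinarith [sq_nonneg v])
  have hqs := Real.sq_sqrt hp0.le
  have hub : √(v ^ 2 + (t : ℝ) ^ 2) ≤ _ :=
    Real.sqrt_le_iff.2 ⟨hq0', by nlinarith [pow_le_pow_left₀ h0 h1 2]⟩
  have hp' := polyNonneg_sound hp htq hub
  simp only [polyEval] at hp'
  push_cast at hp'
  rw [phi3]
  set q := √(v ^ 2 + (t : ℝ) ^ 2)
  have hq : 0 < q := ht'.trans_le htq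
  refine le_of_mul_le_mul_left (a := q) ?_ hq
  have e : q * (q + (t : ℝ) ^ 2 / q - 2 * t) = (q - t) ^ 2 := by field_simp; ring
  rw [e]
  nlinarith [mul_nonneg (sub_nonneg.2 htq) hp']

theorem kOK_five {t s K : ℚ} (h : kOK 5 t s K = true) {v : ℝ} (h0 : 0 ≤ v) (h1 : v ≤ s) :
    phi5 v t ≤ (K : ℝ) * v ^ 2 := by
  simp only [kOK, Bool.and_eq_true, decide_eq_true_eq] at h
  obtain ⟨⟨ht, -⟩, ⟨hq0, hq2⟩, hp⟩ := h
  have ht' : (0 : ℝ) < t := Rat.cast_pos.2 ht
  have hp0 : 0 < v ^ 2 + (t : ℝ) ^ 2 := by positivity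
  have hq0' := Rat.cast_nonneg (K := ℝ).2 hq0
  have hq2' := Rat.cast_le (K := ℝ).2 hq2
  push_cast at hq2'
  have htq : (t : ℝ) ≤ √(v ^ 2 + (t : ℝ) ^ 2) :=
    Real.le_sqrt_of_sq_le (by nlinarith [sq_nonneg v])
  have hqs := Real.sq_sqrt hp0.le
  have hub : √(v ^ 2 + (t : ℝ) ^ 2) ≤ _ :=
    Real.sqrt_le_iff.2 ⟨hq0', by nlinarith [pow_le_pow_left₀ h0 h1 2]⟩
  have hp' := polyNonneg_sound hp htq hub
  simp only [polyEval] at hp'
  push_cast at hp'
  rw [phi5]
  set q := √(v ^ 2 + (t : ℝ) ^ 2)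
  have hq : 0 < q := ht'.trans_le htq
  refine le_of_mul_le_mul_left (a := 3 * q ^ 3) ?_ (by positivity)
  have e : 3 * q ^ 3 * (q + 2 * (t : ℝ) ^ 2 / q - (t : ℝ) ^ 4 / (3 * q ^ 3) - 8 / 3 * t)
      = (q - t) ^ 3 * (3 * q + t) := by field_simp; ring
  rw [e]
  have h2 := mul_nonneg (sub_nonneg.2 htq) hp'
  linear_combination h2 + 3 * (K : ℝ) * q ^ 3 * hqs

end Vale.Agent.P226
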