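import Vale.Agent.P226.RadialEval

/-!
# Radial bounds for the excess over a subspace (P226)

For a subspace `V` of dimension `ν ∈ {2, 3, 4, 5}` and `t ≥ 0`:

* `excess_projNorm_le_phiν`: the excess of any `w` over `t * projNorm V` is at most `phiν ‖w‖ t`;
* `excess_projNorm_le_capν`: for `w ∈ V` it is at most `capν ‖w‖ t`;
* `integral_projNorm_ν`: the first moment of `projNorm V`, in the unit `√(2π)`.
-/

namespace Vale.Agent.P226

open MeasureTheory ProbabilityTheory Real
open scoped ENNReal RealInnerProductSpace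

section

variable {E : Type*} [NormedAddCommGroup E] [InnerProductSpace ℝ E] [FiniteDimensional ℝ E]

/-- An orthonormal frame of `V` whose first vector carries the component of `u`. -/
theorem exists_frame (V : Submodule ℝ E) {m : ℕ} (hV : Module.finrank ℝ V = m + 1) (u : E) :
    ∃ e : Fin (m + 1) → E, Orthonormal ℝ e ∧ ⟪u, e 0⟫ = ‖V.starProjection u‖ ∧
      (∀ j : Fin m, ⟪u, e j.succ⟫ = 0) ∧ ∀ g, ∑ i, ⟪e i, g⟫ ^ 2 = projNorm V g ^ 2 := by
  obtain ⟨p, hp⟩ : ∃ p : V, (p : E) = V.starProjection u :=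
    ⟨⟨_, Submodule.starProjection_apply_mem V u⟩, rfl⟩
  have hnp : ‖p‖ = ‖V.starProjection u‖ := by rw [← hp]; rfl
  obtain ⟨b, hb⟩ : ∃ b : OrthonormalBasis (Fin (m + 1)) ℝ V, p = ‖p‖ • b 0 := by
    rcases eq_or_ne p 0 with h0 | h0
    · obtain ⟨b, -⟩ := Orthonormal.exists_orthonormalBasis_extension_of_card_eq
        (v := fun _ : Fin (m + 1) => p) (s := ∅) (by simpa using hV)
        ⟨fun x => x.2.elim, fun x => x.2.elim⟩
      exact ⟨b, by simp [h0]⟩
    · have hon : Orthonormal ℝ (Set.domRestrict ({0} : Set (Fin (m + 1)))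
          fun _ : Fin (m + 1) => ‖p‖⁻¹ • p) := by
        refine ⟨fun x => ?_, fun x y hxy => ?_⟩
        · simp [norm_smul, h0]
        · exact absurd (Subtype.ext ((Set.mem_singleton_iff.1 x.2).trans
            (Set.mem_singleton_iff.1 y.2).symm)) hxy
      obtain ⟨b, hb⟩ := Orthonormal.exists_orthonormalBasis_extension_of_card_eq
        (v := fun _ : Fin (m + 1) => ‖p‖⁻¹ • p) (by simpa using hV) hon
      exact ⟨b, by rw [hb 0 (Set.mem_singleton _), smul_inv_smul₀ (norm_ne_zero_iff.2 h0)]⟩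
  have hinner : ∀ g i, ⟪(b i : E), g⟫ = ⟪(b i : E), V.starProjection g⟫ := by
    intro g i
    rw [← Submodule.inner_starProjection_left_eq_right,
      Submodule.starProjection_eq_self_iff.2 (b i).2]
  have hu : ∀ i, ⟪u, (b i : E)⟫ = ‖p‖ * ⟪b 0, b i⟫ := by
    intro i
    rw [real_inner_comm, hinner, ← hp, ← Submodule.coe_inner, real_inner_comm]
    conv_lhs => rw [hb]
    rw [real_inner_smul_left]
  refine ⟨fun i => (b i : E), b.orthonormal.comp_linearIsometry V.subtypeₗᵢ, ?_, fun j => ?_,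
    fun g => ?_⟩
  · rw [hu, real_inner_self_eq_norm_sq, b.orthonormal.1 0, one_pow, mul_one, hnp]
  · rw [hu, b.orthonormal.2 (Fin.succ_ne_zero j).symm, mul_zero]
  · have hg := b.sum_sq_inner_right ⟨_, Submodule.starProjection_apply_mem V g⟩
    unfold projNorm
    simp_rw [hinner g]
    exact hg

variable [MeasurableSpace E] [BorelSpace E]

/-- The excess of a unit direction is an instance of the model. -/
theorem lintegral_excess (V : Submodule ℝ E) {m : ℕ} (hV : Module.finrank ℝ V = m + 1) {u : E}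
    (hu : ‖u‖ = 1) (v t : ℝ) {a b : ℝ} (ha : ‖V.starProjection u‖ = a) (hab : a ^ 2 + b ^ 2 = 1) :
    ∫⁻ g, ENNReal.ofReal (v * ⟪u, g⟫ - t * projNorm V g) ∂stdGaussian E
      = excessModel m v t a b := by
  obtain ⟨e, he, h0, hs, hsum⟩ := exists_frame V hV u
  have h := lintegral_coords hu he hab (h0.trans ha) hs
    (G := fun x r => ENNReal.ofReal (v * x - t * √r)) (by fun_prop)
  refine Eq.trans ?_ h
  refine lintegral_congr fun g => ?_
  rw [hsum, Real.sqrt_sq (show 0 ≤ projNorm V g from norm_nonneg _)]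

theorem measurable_projNorm (V : Submodule ℝ E) : Measurable (projNorm V) :=
  (V.starProjection.continuous.norm).measurable

/-- A bound on the lower integral is a bound on the excess. -/
theorem excess_le_of_lintegral (w : E) {f : E → ℝ} (hf : Measurable f) {Φ : ℝ} (hΦ : 0 ≤ Φ)
    (h : ∫⁻ g, ENNReal.ofReal (⟪w, g⟫ - f g) ∂stdGaussian E
      ≤ ENNReal.ofReal (Φ / √(2 * π))) : excess w f ≤ Φ := by
  have hpos : (0:ℝ) < √(2 * π) := by positivity
  have hI : ∫ g, max (⟪w, g⟫ - f g) 0 ∂stdGaussian E ≤ Φ / √(2 * π) := by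
    rw [integral_eq_lintegral_of_nonneg_ae (f := fun g => max (⟪w, g⟫ - f g) 0)
      (ae_of_all _ fun g => le_max_right _ _) (Measurable.aestronglyMeasurable (by fun_prop))]
    refine ENNReal.toReal_le_of_le_ofReal (div_nonneg hΦ hpos.le) ?_
    refine le_of_eq_of_le (lintegral_congr fun g => ?_) h
    simp
  unfold excess
  calc √(2 * π) * ∫ g, max (⟪w, g⟫ - f g) 0 ∂stdGaussian E ≤ √(2 * π) * (Φ / √(2 * π)) :=
        mul_le_mul_of_nonneg_left hI hpos.le
    _ = Φ := by field_simp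

theorem excess_zero_le (V : Submodule ℝ E) {t Φ : ℝ} (ht : 0 ≤ t) (hΦ : 0 ≤ Φ) :
    excess (0 : E) (fun g => t * projNorm V g) ≤ Φ := by
  refine excess_le_of_lintegral 0 ((measurable_projNorm V).const_mul t) hΦ ?_
  have : ∀ g, ENNReal.ofReal (⟪(0 : E), g⟫ - t * projNorm V g) = 0 := fun g =>
    ENNReal.ofReal_of_nonpos (by
      rw [inner_zero_left, zero_sub, neg_nonpos]; exact mul_nonneg ht (norm_nonneg _))
  rw [lintegral_congr this, lintegral_zero]
  exact zero_le

/-- The master bound in any position. -/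
theorem excess_projNorm_le (V : Submodule ℝ E) {m : ℕ} (hV : Module.finrank ℝ V = m + 1) (w : E)
    {t Φ : ℝ} (ht : 0 ≤ t) (hΦ : 0 ≤ Φ)
    (hcalc : ∫⁻ s in Set.Ioo 0 ‖w‖, ENNReal.ofReal ((s / √(s ^ 2 + t ^ 2)) ^ (m + 1))
      = ENNReal.ofReal Φ) :
    excess w (fun g => t * projNorm V g) ≤ Φ := by
  rcases eq_or_ne w 0 with rfl | hw
  · exact excess_zero_le V ht hΦ
  have hn := norm_pos_iff.2 hw
  refine excess_le_of_lintegral w ((measurable_projNorm V).const_mul t) hΦ ?_
  have hu : ‖‖w‖⁻¹ • w‖ = 1 := by simp [norm_smul, hn.ne']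
  set a := ‖V.starProjection (‖w‖⁻¹ • w)‖ with ha
  have ha1 : a ≤ 1 := hu ▸ Submodule.norm_starProjection_apply_le V _
  have hab : a ^ 2 + √(1 - a ^ 2) ^ 2 = 1 := by
    rw [Real.sq_sqrt (by nlinarith [norm_nonneg (V.starProjection (‖w‖⁻¹ • w))])]
    ring
  have heq := lintegral_excess V hV hu ‖w‖ t ha.symm hab
  calc ∫⁻ g, ENNReal.ofReal (⟪w, g⟫ - t * projNorm V g) ∂stdGaussian E
      = excessModel m ‖w‖ t a √(1 - a ^ 2) := by
        rw [← heq]
        refine lintegral_congr fun g => ?_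
        rw [real_inner_smul_left, ← mul_assoc, mul_inv_cancel₀ hn.ne', one_mul]
    _ ≤ excessModel m ‖w‖ t 0 1 := excessModel_le_indep m hn ht hab
    _ = ENNReal.ofReal (Φ / √(2 * π)) := by
        rw [excessModel_indep m hn.le ht, hcalc, ← ENNReal.ofReal_mul (by positivity),
          one_div_mul_eq_div]

/-- The master bound inside the subspace. -/
theorem excess_projNorm_le_of_mem (V : Submodule ℝ E) {m : ℕ} (hm : m ≠ 0)
    (hV : Module.finrank ℝ V = m + 1) {w : E} (hwV : w ∈ V) {t Φ : ℝ} (ht : 0 ≤ t) (hΦ : 0 ≤ Φ)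
    (hcalc : ∫⁻ s in Set.Ioo 0 ‖w‖, ENNReal.ofReal ((√(s ^ 2 - t ^ 2) / s) ^ m)
      ≤ ENNReal.ofReal Φ) :
    excess w (fun g => t * projNorm V g) ≤ Φ := by
  rcases eq_or_ne w 0 with rfl | hw
  · exact excess_zero_le V ht hΦ
  have hn := norm_pos_iff.2 hw
  refine excess_le_of_lintegral w ((measurable_projNorm V).const_mul t) hΦ ?_
  have hu : ‖‖w‖⁻¹ • w‖ = 1 := by simp [norm_smul, hn.ne']
  have ha : ‖V.starProjection (‖w‖⁻¹ • w)‖ = 1 := by
    rw [Submodule.starProjection_eq_self_iff.2 (V.smul_mem _ hwV), hu]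
  have heq := lintegral_excess V hV hu ‖w‖ t ha (b := 0) (by norm_num)
  calc ∫⁻ g, ENNReal.ofReal (⟪w, g⟫ - t * projNorm V g) ∂stdGaussian E
      = excessModel m ‖w‖ t 1 0 := by
        rw [← heq]
        refine lintegral_congr fun g => ?_
        rw [real_inner_smul_left, ← mul_assoc, mul_inv_cancel₀ hn.ne', one_mul]
    _ ≤ ENNReal.ofReal (1 / √(2 * π)) * ENNReal.ofReal Φ := by
        rw [excessModel_plane hm hn.le ht]
        exact mul_le_mul_right hcalc _
    _ = ENNReal.ofReal (Φ / √(2 * π)) := by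
        rw [← ENNReal.ofReal_mul (by positivity), one_div_mul_eq_div]

theorem excess_projNorm_le_phi2 (V : Submodule ℝ E) (hV : Module.finrank ℝ V = 2) (w : E) {t : ℝ}
    (ht : 0 ≤ t) : excess w (fun g => t * projNorm V g) ≤ phi2 ‖w‖ t :=
  excess_projNorm_le V (m := 1) hV w ht (phi2_nonneg (norm_nonneg w) ht)
    (calc_phi2 (norm_nonneg w) ht)

theorem excess_projNorm_le_phi3 (V : Submodule ℝ E) (hV : Module.finrank ℝ V = 3) (w : E) {t : ℝ}
    (ht : 0 ≤ t) : excess w (fun g => t * projNorm V g) ≤ phi3 ‖w‖ t :=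
  excess_projNorm_le V (m := 2) hV w ht (phi3_nonneg (norm_nonneg w) ht)
    (calc_phi3 (norm_nonneg w) ht)

theorem excess_projNorm_le_phi4 (V : Submodule ℝ E) (hV : Module.finrank ℝ V = 4) (w : E) {t : ℝ}
    (ht : 0 ≤ t) : excess w (fun g => t * projNorm V g) ≤ phi4 ‖w‖ t :=
  excess_projNorm_le V (m := 3) hV w ht (phi4_nonneg (norm_nonneg w) ht)
    (calc_phi4 (norm_nonneg w) ht)

theorem excess_projNorm_le_phi5 (V : Submodule ℝ E) (hV : Module.finrank ℝ V = 5) (w : E) {t : ℝ}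
    (ht : 0 ≤ t) : excess w (fun g => t * projNorm V g) ≤ phi5 ‖w‖ t :=
  excess_projNorm_le V (m := 4) hV w ht (phi5_nonneg (norm_nonneg w) ht)
    (calc_phi5 (norm_nonneg w) ht)

theorem excess_projNorm_le_cap3 (V : Submodule ℝ E) (hV : Module.finrank ℝ V = 3) {w : E}
    (hw : w ∈ V) {t : ℝ} (ht : 0 ≤ t) :
    excess w (fun g => t * projNorm V g) ≤ cap3 ‖w‖ t :=
  excess_projNorm_le_of_mem V (m := 2) two_ne_zero hV hw ht (cap3_nonneg ht)
    (calc_cap3 (norm_nonneg w) ht).le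

theorem excess_projNorm_le_cap4 (V : Submodule ℝ E) (hV : Module.finrank ℝ V = 4) {w : E}
    (hw : w ∈ V) {t : ℝ} (ht : 0 ≤ t) :
    excess w (fun g => t * projNorm V g) ≤ cap4 ‖w‖ t :=
  excess_projNorm_le_of_mem V (m := 3) three_ne_zero hV hw ht (cap4_nonneg ht)
    (calc_cap4 (norm_nonneg w) ht)

theorem excess_projNorm_le_cap5 (V : Submodule ℝ E) (hV : Module.finrank ℝ V = 5) {w : E}
    (hw : w ∈ V) {t : ℝ} (ht : 0 ≤ t) :
    excess w (fun g => t * projNorm V g) ≤ cap5 ‖w‖ t :=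
  excess_projNorm_le_of_mem V (m := 4) four_ne_zero hV hw ht (cap5_nonneg ht)
    (calc_cap5 (norm_nonneg w) ht).le

/-- The first moment of the projected norm from the limit of the closed form. -/
theorem integral_projNorm_of_tendsto (V : Submodule ℝ E) {m : ℕ}
    (hV : Module.finrank ℝ V = m + 1) {F : ℝ → ℝ → ℝ} {ℓ : ℝ}
    (hcalc : ∀ {v t : ℝ}, 0 ≤ v → 0 ≤ t →
      ∫⁻ s in Set.Ioo 0 v, ENNReal.ofReal ((s / √(s ^ 2 + t ^ 2)) ^ (m + 1))
        = ENNReal.ofReal (F v t))
    (hF : ∀ {v t : ℝ}, 0 ≤ v → 0 ≤ t → 0 ≤ F v t)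
    (hℓ : Filter.Tendsto (fun n : ℕ => (n : ℝ) - F n 1) Filter.atTop (nhds ℓ)) (hℓ0 : 0 ≤ ℓ) :
    √(2 * π) * ∫ g, projNorm V g ∂stdGaussian E = 2 * ℓ := by
  have : Nontrivial V := Module.nontrivial_of_finrank_pos (R := ℝ) (by omega)
  obtain ⟨x, hx⟩ := exists_ne (0 : V)
  have hxE : ‖(x : E)‖ ≠ 0 := by simpa using hx
  set u : E := ‖(x : E)‖⁻¹ • (x : E) with hu_def
  have hu : ‖u‖ = 1 := by simp [hu_def, norm_smul, hxE]
  obtain ⟨e, he, h0, hs, hsum⟩ := exists_frame V hV u
  have ha : ⟪u, e 0⟫ = 1 := by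
    rw [h0, Submodule.starProjection_eq_self_iff.2 (V.smul_mem _ x.2), hu]
  have h := lintegral_coords hu he (a := 1) (b := 0) (by norm_num) ha hs
    (G := fun _ r => ENNReal.ofReal √r) (by fun_prop)
  have hK : ∫⁻ g, ENNReal.ofReal (projNorm V g) ∂stdGaussian E
      = ∫⁻ y, ENNReal.ofReal √(sumSq y) ∂gaussPi (m + 1) := by
    calc ∫⁻ g, ENNReal.ofReal (projNorm V g) ∂stdGaussian E
        = ∫⁻ g, ENNReal.ofReal √(∑ i, ⟪e i, g⟫ ^ 2) ∂stdGaussian E := by
          refine lintegral_congr fun g => ?_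
          rw [hsum, Real.sqrt_sq (show 0 ≤ projNorm V g from norm_nonneg _)]
      _ = _ := by
          rw [h, lintegral_gaussPi_succ (by have := measurable_sumSq (m := m + 1); fun_prop)]
          simp [sumSq_cons]
  rw [integral_eq_lintegral_of_nonneg_ae
      (ae_of_all _ (fun g => show 0 ≤ projNorm V g from norm_nonneg _))
      (measurable_projNorm V).aestronglyMeasurable,
    hK, lintegral_sqrt_sumSq m (Φ := fun n => F n 1) (fun n => by
      rw [excessModel_indep m (Nat.cast_nonneg n) zero_le_one,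
        hcalc (Nat.cast_nonneg n) zero_le_one, ← ENNReal.ofReal_mul (by positivity),
        one_div_mul_eq_div])
      (fun n => hF (Nat.cast_nonneg n) zero_le_one) hℓ,
    ENNReal.toReal_ofReal (by positivity)]
  field_simp

theorem integral_projNorm_two (V : Submodule ℝ E) (hV : Module.finrank ℝ V = 2) :
    √(2 * π) * ∫ g, projNorm V g ∂stdGaussian E = π := by
  rw [integral_projNorm_of_tendsto V (m := 1) hV calc_phi2 phi2_nonneg tendsto_phi2
    (by positivity)]
  ring

theorem integral_projNorm_three (V : Submodule ℝ E) (hV : Module.finrank ℝ V = 3) :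
    √(2 * π) * ∫ g, projNorm V g ∂stdGaussian E = 4 := by
  rw [integral_projNorm_of_tendsto V (m := 2) hV calc_phi3 phi3_nonneg tendsto_phi3 two_pos.le]
  norm_num

theorem integral_projNorm_four (V : Submodule ℝ E) (hV : Module.finrank ℝ V = 4) :
    √(2 * π) * ∫ g, projNorm V g ∂stdGaussian E = 3 * π / 2 := by
  rw [integral_projNorm_of_tendsto V (m := 3) hV calc_phi4 phi4_nonneg tendsto_phi4
    (by positivity)]
  ring

theorem integral_projNorm_five (V : Submodule ℝ E) (hV : Module.finrank ℝ V = 5) :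
    √(2 * π) * ∫ g, projNorm V g ∂stdGaussian E = 16 / 3 := by
  rw [integral_projNorm_of_tendsto V (m := 4) hV calc_phi5 phi5_nonneg tendsto_phi5
    (by norm_num)]
  norm_num

end

end Vale.Agent.P226
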