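import Vale.Agent.P226.WidthDefs

/-!
# From the propeller bound to a bound on Gaussian widths (P226)

Invariances of `width`, the union-type upper bounds, the exact width of three vectors,
and the reduction of the moment inequality to the width inequality.
-/

namespace Vale.Agent.P226

open MeasureTheory ProbabilityTheory
open scoped RealInnerProductSpace

section Basic

variable {ι κ E F : Type*} [NormedAddCommGroup E] [InnerProductSpace ℝ E]
  [NormedAddCommGroup F] [InnerProductSpace ℝ F]

lemma sqrt_two_pi_nonneg : 0 ≤ Real.sqrt (2 * Real.pi) := Real.sqrt_nonneg _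

lemma sqrt_two_pi_pos : 0 < Real.sqrt (2 * Real.pi) :=
  Real.sqrt_pos.2 (by positivity)

lemma inner_le_maxForm [Fintype ι] [Nonempty ι] (w : ι → E) (i : ι) (g : E) :
    ⟪w i, g⟫ ≤ maxForm w g :=
  Finset.le_sup' (fun j => ⟪w j, g⟫) (Finset.mem_univ i)

lemma maxForm_le_iff [Fintype ι] [Nonempty ι] (w : ι → E) (g : E) (r : ℝ) :
    maxForm w g ≤ r ↔ ∀ i, ⟪w i, g⟫ ≤ r := by
  simp [maxForm, Finset.sup'_le_iff]

lemma exists_maxForm_eq [Fintype ι] [Nonempty ι] (w : ι → E) (g : E) :
    ∃ i, maxForm w g = ⟪w i, g⟫ := by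
  obtain ⟨i, -, hi⟩ := Finset.exists_mem_eq_sup' (s := (Finset.univ : Finset ι))
    Finset.univ_nonempty (fun j => ⟪w j, g⟫)
  exact ⟨i, hi⟩

/-- A centred family has a nonnegative maximum form. -/
lemma maxForm_nonneg_of_sum_eq_zero [Fintype ι] [Nonempty ι] (w : ι → E)
    (hw : ∑ i, w i = 0) (g : E) : 0 ≤ maxForm w g := by
  have h : ∑ i, ⟪w i, g⟫ ≤ ∑ _i : ι, maxForm w g :=
    Finset.sum_le_sum fun i _ => inner_le_maxForm w i g
  rw [← sum_inner, hw, inner_zero_left, Finset.sum_const, nsmul_eq_mul] at h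
  exact nonneg_of_mul_nonneg_right h (Nat.cast_pos.2 (Finset.card_univ (α := ι) ▸ Fintype.card_pos))

lemma maxForm_add_const [Fintype ι] [Nonempty ι] (w : ι → E) (c g : E) :
    maxForm (fun i => w i + c) g = maxForm w g + ⟪c, g⟫ := by
  apply le_antisymm
  · rw [maxForm_le_iff]
    intro i
    rw [inner_add_left]
    linarith [inner_le_maxForm w i g]
  · obtain ⟨i, hi⟩ := exists_maxForm_eq w g
    rw [hi, ← inner_add_left]
    exact inner_le_maxForm (fun i => w i + c) i g

lemma maxForm_sub_const [Fintype ι] [Nonempty ι] (w : ι → E) (c g : E) :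
    maxForm (fun i => w i - c) g = maxForm w g - ⟪c, g⟫ := by
  simp only [sub_eq_add_neg]
  rw [maxForm_add_const, inner_neg_left]

lemma maxForm_smul [Fintype ι] [Nonempty ι] (w : ι → E) {c : ℝ} (hc : 0 ≤ c) (g : E) :
    maxForm (fun i => c • w i) g = c * maxForm w g := by
  apply le_antisymm
  · rw [maxForm_le_iff]
    intro i
    rw [real_inner_smul_left]
    exact mul_le_mul_of_nonneg_left (inner_le_maxForm w i g) hc
  · obtain ⟨i, hi⟩ := exists_maxForm_eq w g
    rw [hi, ← real_inner_smul_left]
    exact inner_le_maxForm (fun i => c • w i) i g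

lemma maxForm_comp_surjective [Fintype ι] [Nonempty ι] [Fintype κ] [Nonempty κ]
    (w : ι → E) {f : κ → ι} (hf : Function.Surjective f) (g : E) :
    maxForm (fun k => w (f k)) g = maxForm w g := by
  apply le_antisymm
  · rw [maxForm_le_iff]
    exact fun k => inner_le_maxForm w (f k) g
  · rw [maxForm_le_iff]
    intro i
    obtain ⟨k, rfl⟩ := hf i
    exact inner_le_maxForm (fun k => w (f k)) k g

variable [FiniteDimensional ℝ E]

omit [FiniteDimensional ℝ E] in
lemma continuous_maxForm [Fintype ι] [Nonempty ι] (w : ι → E) : Continuous (maxForm w) := by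
  unfold maxForm
  exact Continuous.finset_sup'_apply Finset.univ_nonempty (fun i _ => by fun_prop)

variable [MeasurableSpace E]

lemma width_comp_surjective [Fintype ι] [Nonempty ι] [Fintype κ] [Nonempty κ]
    (w : ι → E) {f : κ → ι} (hf : Function.Surjective f) :
    width (fun k => w (f k)) = width w := by
  simp only [width, maxForm_comp_surjective w hf]

variable [BorelSpace E]

omit [FiniteDimensional ℝ E] in
lemma measurable_maxForm [Fintype ι] [Nonempty ι] (w : ι → E) : Measurable (maxForm w) :=
  (continuous_maxForm w).measurable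

lemma integrable_inner (v : E) : Integrable (fun g => ⟪v, g⟫) (stdGaussian E) :=
  IsGaussian.integrable_dual (stdGaussian E) (innerSL ℝ v)

lemma integral_inner_eq_zero (v : E) : ∫ g, ⟪v, g⟫ ∂(stdGaussian E) = 0 :=
  integral_strongDual_stdGaussian (innerSL ℝ v)

lemma integrable_maxForm [Fintype ι] [Nonempty ι] (w : ι → E) :
    Integrable (maxForm w) (stdGaussian E) := by
  have h : maxForm w =
      Finset.univ.sup' Finset.univ_nonempty (fun i => fun g => ⟪w i, g⟫) := by
    funext g
    rw [Finset.sup'_apply]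
    rfl
  rw [h]
  exact Finset.sup'_induction (p := fun f : E → ℝ => Integrable f (stdGaussian E))
    Finset.univ_nonempty _ (fun f₁ h₁ f₂ h₂ => h₁.sup h₂) (fun i _ => integrable_inner (w i))

lemma integrable_posPart (v : E) {f : E → ℝ} (hf : Integrable f (stdGaussian E)) :
    Integrable (fun g => max (⟪v, g⟫ - f g) 0) (stdGaussian E) :=
  ((integrable_inner v).sub hf).pos_part

omit [BorelSpace E] in
lemma excess_nonneg (v : E) (f : E → ℝ) : 0 ≤ excess v f :=
  mul_nonneg sqrt_two_pi_nonneg (integral_nonneg fun _ => le_max_right _ _)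

omit [BorelSpace E] in
lemma excess_eq_zero_of_le (v : E) (f : E → ℝ) (h : ∀ g, ⟪v, g⟫ ≤ f g) : excess v f = 0 := by
  have : (fun g => max (⟪v, g⟫ - f g) 0) = fun _ => (0 : ℝ) := by
    funext g
    exact max_eq_right (sub_nonpos.2 (h g))
  simp [excess, this]

lemma width_add_const [Fintype ι] [Nonempty ι] (w : ι → E) (c : E) :
    width (fun i => w i + c) = width w := by
  simp only [width, maxForm_add_const]
  rw [integral_add (integrable_maxForm w) (integrable_inner c), integral_inner_eq_zero, add_zero]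

lemma width_sub_const [Fintype ι] [Nonempty ι] (w : ι → E) (c : E) :
    width (fun i => w i - c) = width w := by
  simp only [sub_eq_add_neg]
  exact width_add_const w (-c)

omit [BorelSpace E] in
lemma width_smul [Fintype ι] [Nonempty ι] (w : ι → E) {c : ℝ} (hc : 0 ≤ c) :
    width (fun i => c • w i) = c * width w := by
  simp only [width, maxForm_smul w hc, integral_const_mul]
  ring

variable [FiniteDimensional ℝ F] [MeasurableSpace F] [BorelSpace F]

/-- The adjoint of a linear isometry pushes the standard Gaussian to the standard Gaussian. -/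
lemma map_adjoint_stdGaussian (L : E →ₗᵢ[ℝ] F) :
    (stdGaussian F).map (ContinuousLinearMap.adjoint L.toContinuousLinearMap) = stdGaussian E := by
  apply Measure.ext_of_charFun (E := E)
  funext t
  rw [charFun_stdGaussian, charFun_apply, integral_map (by fun_prop) (by fun_prop)]
  have h := charFun_stdGaussian (E := F) (L t)
  rw [charFun_apply, L.norm_map] at h
  rw [← h]
  simp only [ContinuousLinearMap.adjoint_inner_left, LinearIsometry.coe_toContinuousLinearMap]

lemma width_map [Fintype ι] [Nonempty ι] (L : E →ₗᵢ[ℝ] F) (w : ι → E) :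
    width (fun i => L (w i)) = width w := by
  simp only [width]
  congr 1
  rw [← map_adjoint_stdGaussian L,
    integral_map (by fun_prop) (measurable_maxForm w).aestronglyMeasurable]
  congr 1
  funext g
  simp [maxForm, ContinuousLinearMap.adjoint_inner_right]

end Basic

section Union

variable {ι E : Type*} [Fintype ι] [Nonempty ι] [NormedAddCommGroup E] [InnerProductSpace ℝ E]
  [FiniteDimensional ℝ E] [MeasurableSpace E] [BorelSpace E]

/-- The union bound with a threshold function. -/
theorem width_le_union (w : ι → E) {a : E → ℝ} (ha : Integrable a (stdGaussian E)) :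
    width w ≤ Real.sqrt (2 * Real.pi) * (∫ g, a g ∂(stdGaussian E)) + ∑ i, excess (w i) a := by
  have hpt : ∀ g, maxForm w g ≤ a g + ∑ i, max (⟪w i, g⟫ - a g) 0 := by
    intro g
    rw [maxForm_le_iff]
    intro i
    have h1 := Finset.single_le_sum (s := (Finset.univ : Finset ι))
      (f := fun j => max (⟪w j, g⟫ - a g) 0) (fun j _ => le_max_right _ _) (Finset.mem_univ i)
    have h2 := le_max_left (⟪w i, g⟫ - a g) 0
    linarith
  have hsum : Integrable (fun g => ∑ i, max (⟪w i, g⟫ - a g) 0) (stdGaussian E) :=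
    integrable_finsetSum _ fun i _ => integrable_posPart (w i) ha
  have h := mul_le_mul_of_nonneg_left
    (integral_mono (integrable_maxForm w) (ha.add hsum) hpt) sqrt_two_pi_nonneg
  simp only [Pi.add_apply] at h
  rw [integral_add ha hsum, integral_finsetSum _ fun i _ => integrable_posPart (w i) ha,
    mul_add, Finset.mul_sum] at h
  exact h

variable [DecidableEq ι]

/-- The union bound with the vectors in `s` measured from `c`, and the threshold shared between
`c` and the vectors outside `s`. No sign condition on `a` or `l` is needed. -/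
theorem width_le_split (w : ι → E) (s : Finset ι) (c : E) {a : E → ℝ}
    (ha : Integrable a (stdGaussian E)) (l : ℝ) :
    width w ≤ Real.sqrt (2 * Real.pi) * (∫ g, a g ∂(stdGaussian E))
      + ∑ i ∈ s, excess (w i - c) a + excess (-c) (fun g => l * a g)
      + ∑ i ∈ sᶜ, excess (w i) (fun g => (1 - l) * a g) := by
  have hpt : ∀ g, maxForm (fun i => w i - c) g ≤ a g + ∑ i ∈ s, max (⟪w i - c, g⟫ - a g) 0
      + max (⟪-c, g⟫ - l * a g) 0 + ∑ i ∈ sᶜ, max (⟪w i, g⟫ - (1 - l) * a g) 0 := by
    intro g
    rw [maxForm_le_iff]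
    intro i
    have h0 : 0 ≤ ∑ i ∈ s, max (⟪w i - c, g⟫ - a g) 0 :=
      Finset.sum_nonneg fun j _ => le_max_right _ _
    have h0' : 0 ≤ ∑ i ∈ sᶜ, max (⟪w i, g⟫ - (1 - l) * a g) 0 :=
      Finset.sum_nonneg fun j _ => le_max_right _ _
    have h2' := le_max_right (⟪-c, g⟫ - l * a g) 0
    by_cases hi : i ∈ s
    · have h1 := Finset.single_le_sum (f := fun j => max (⟪w j - c, g⟫ - a g) 0)
        (fun j _ => le_max_right _ _) hi
      have h2 := le_max_left (⟪w i - c, g⟫ - a g) 0
      linarith
    · have h1 := Finset.single_le_sum (f := fun j => max (⟪w j, g⟫ - (1 - l) * a g) 0)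
        (fun j _ => le_max_right _ _) (Finset.mem_compl.2 hi)
      have h2 := le_max_left (⟪w i, g⟫ - (1 - l) * a g) 0
      have h3 := le_max_left (⟪-c, g⟫ - l * a g) 0
      have h4 : ⟪w i - c, g⟫ = ⟪w i, g⟫ + ⟪-c, g⟫ := by
        rw [inner_sub_left, inner_neg_left]; ring
      linarith
  have hA : Integrable (fun g => ∑ i ∈ s, max (⟪w i - c, g⟫ - a g) 0) (stdGaussian E) :=
    integrable_finsetSum _ fun i _ => integrable_posPart _ ha
  have hB : Integrable (fun g => max (⟪-c, g⟫ - l * a g) 0) (stdGaussian E) :=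
    integrable_posPart _ (ha.const_mul l)
  have hC : Integrable (fun g => ∑ i ∈ sᶜ, max (⟪w i, g⟫ - (1 - l) * a g) 0) (stdGaussian E) :=
    integrable_finsetSum _ fun i _ => integrable_posPart _ (ha.const_mul (1 - l))
  have h := mul_le_mul_of_nonneg_left
    (integral_mono (integrable_maxForm (fun i => w i - c)) (((ha.add hA).add hB).add hC) hpt)
    sqrt_two_pi_nonneg
  simp only [Pi.add_apply] at h
  have hA' : Integrable (fun g => a g + ∑ i ∈ s, max (⟪w i - c, g⟫ - a g) 0) (stdGaussian E) :=
    ha.add hA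
  have hB' : Integrable (fun g => a g + ∑ i ∈ s, max (⟪w i - c, g⟫ - a g) 0
      + max (⟪-c, g⟫ - l * a g) 0) (stdGaussian E) := hA'.add hB
  rw [integral_add hB' hC, integral_add hA' hB, integral_add ha hA,
    integral_finsetSum _ fun i _ => integrable_posPart (w i - c) ha,
    integral_finsetSum _ fun i _ => integrable_posPart (w i) (ha.const_mul (1 - l)),
    mul_add, mul_add, mul_add, Finset.mul_sum, Finset.mul_sum] at h
  rw [← width_sub_const w c]
  exact h

/-- The threshold given by the maximum form of the vectors in `s`, split version. -/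
theorem width_le_top (w : ι → E) (s : Finset ι) [Nonempty s] (c : E) (l : ℝ) :
    width w ≤ width (fun i : s => w i)
      + excess (-c) (fun g => l * maxForm (fun i : s => w i - c) g)
      + ∑ j ∈ sᶜ, excess (w j) (fun g => (1 - l) * maxForm (fun i : s => w i - c) g) := by
  have h := width_le_split w s c (integrable_maxForm (fun i : s => w i - c)) l
  have h0 : ∑ i ∈ s, excess (w i - c) (maxForm (fun i : s => w i - c)) = 0 :=
    Finset.sum_eq_zero fun i hi => excess_eq_zero_of_le _ _ fun g =>
      inner_le_maxForm (fun j : s => w j - c) ⟨i, hi⟩ g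
  rw [h0, add_zero] at h
  have h1 : Real.sqrt (2 * Real.pi) * (∫ g, maxForm (fun i : s => w i - c) g ∂(stdGaussian E))
      = width (fun i : s => w i) := width_sub_const (fun i : s => w i) c
  linarith

/-- The threshold given by the maximum form of the vectors in `s`, unsplit version. -/
theorem width_le_top' (w : ι → E) (s : Finset ι) [Nonempty s] (c : E) :
    width w ≤ width (fun i : s => w i)
      + ∑ j ∈ sᶜ, excess (w j - c) (fun g => maxForm (fun i : s => w i - c) g) := by
  have h := width_le_union (fun i => w i - c) (integrable_maxForm (fun i : s => w i - c))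
  rw [width_sub_const] at h
  have h0 : ∑ i ∈ s, excess (w i - c) (maxForm (fun i : s => w i - c)) = 0 :=
    Finset.sum_eq_zero fun i hi => excess_eq_zero_of_le _ _ fun g =>
      inner_le_maxForm (fun j : s => w j - c) ⟨i, hi⟩ g
  rw [← Finset.sum_add_sum_compl s, h0, zero_add] at h
  have h1 : Real.sqrt (2 * Real.pi) * (∫ g, maxForm (fun i : s => w i - c) g ∂(stdGaussian E))
      = width (fun i : s => w i) := width_sub_const (fun i : s => w i) c
  linarith

end Union

section Three

variable {E : Type*} [NormedAddCommGroup E] [InnerProductSpace ℝ E]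
  [FiniteDimensional ℝ E] [MeasurableSpace E] [BorelSpace E]

lemma integral_Ioi_mul_exp :
    ∫ x in Set.Ioi (0 : ℝ), x * Real.exp (-(x ^ 2) / 2) = 1 := by
  have h := integral_rpow_mul_exp_neg_mul_rpow (p := 2) (q := 1) (b := 1 / 2)
    (by norm_num) (by norm_num) (by norm_num)
  norm_num at h
  rw [← h]
  refine setIntegral_congr_fun measurableSet_Ioi fun x hx => ?_
  congr 2
  ring

lemma sqrt_two_pi_mul_integral_abs :
    Real.sqrt (2 * Real.pi) * ∫ x, |x| ∂(gaussianReal 0 1) = 2 := by
  rw [integral_gaussianReal_eq_integral_smul (one_ne_zero)]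
  have h : (fun x : ℝ => gaussianPDFReal 0 1 x • |x|) =
      fun x => (Real.sqrt (2 * Real.pi))⁻¹ * (fun y => y * Real.exp (-(y ^ 2) / 2)) |x| := by
    funext x
    simp [gaussianPDFReal, sq_abs]
    ring
  rw [h, integral_const_mul, integral_comp_abs (f := fun y => y * Real.exp (-(y ^ 2) / 2)),
    integral_Ioi_mul_exp, mul_one, ← mul_assoc, mul_inv_cancel₀ sqrt_two_pi_pos.ne', one_mul]

lemma sqrt_two_pi_mul_integral_abs_inner (v : E) :
    Real.sqrt (2 * Real.pi) * ∫ g, |⟪v, g⟫| ∂(stdGaussian E) = 2 * ‖v‖ := by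
  have hmap : (stdGaussian E).map (innerSL ℝ v) =
      (gaussianReal 0 1).map (fun x => ‖v‖ * x) := by
    rw [IsGaussian.map_eq_gaussianReal, integral_strongDual_stdGaussian,
      variance_dual_stdGaussian, innerSL_apply_norm, gaussianReal_map_const_mul]
    congr 1
    · simp
    · apply Subtype.ext
      change (Real.toNNReal (‖v‖ ^ 2) : ℝ) = ‖v‖ ^ 2 * 1
      simp
  have h1 : ∫ g, |⟪v, g⟫| ∂(stdGaussian E) = ∫ x, |x| ∂((stdGaussian E).map (innerSL ℝ v)) := by
    rw [integral_map (by fun_prop) (by fun_prop)]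
    rfl
  have h2 : ∫ x, |x| ∂((gaussianReal 0 1).map (fun x => ‖v‖ * x))
      = ‖v‖ * ∫ x, |x| ∂(gaussianReal 0 1) := by
    rw [integral_map (by fun_prop) (by fun_prop), ← integral_const_mul]
    simp [abs_mul]
  rw [h1, hmap, h2, mul_left_comm, sqrt_two_pi_mul_integral_abs]
  ring

lemma width_neg {ι : Type*} [Fintype ι] [Nonempty ι] (w : ι → E) :
    width (fun i => -w i) = width w :=
  width_map (LinearIsometryEquiv.neg ℝ (E := E)).toLinearIsometry w

lemma max_three_add_max_three_neg (x y z : ℝ) :
    max x (max y z) + max (-x) (max (-y) (-z)) = (|x - y| + |y - z| + |z - x|) / 2 := by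
  rcases le_total x y with h1 | h1 <;> rcases le_total y z with h2 | h2 <;>
    rcases le_total z x with h3 | h3 <;>
    simp [*, abs_of_nonneg, abs_of_nonpos] <;> linarith

omit [FiniteDimensional ℝ E] [MeasurableSpace E] [BorelSpace E] in
lemma maxForm_three (a b c g : E) :
    maxForm ![a, b, c] g = max ⟪a, g⟫ (max ⟪b, g⟫ ⟪c, g⟫) := by
  apply le_antisymm
  · rw [maxForm_le_iff]
    intro i
    fin_cases i <;> simp
  · have h0 := inner_le_maxForm ![a, b, c] 0 g
    have h1 := inner_le_maxForm ![a, b, c] 1 g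
    have h2 := inner_le_maxForm ![a, b, c] 2 g
    simp at h0 h1 h2
    exact max_le h0 (max_le h1 h2)

/-- The exact width of three vectors: half the perimeter of their triangle. -/
theorem width_three (a b c : E) :
    width ![a, b, c] = (‖a - b‖ + ‖b - c‖ + ‖c - a‖) / 2 := by
  have hneg : width (fun i => -(![a, b, c] i)) = width ![a, b, c] := width_neg _
  have hsum : width ![a, b, c] + width (fun i => -(![a, b, c] i))
      = (2 * ‖a - b‖ + 2 * ‖b - c‖ + 2 * ‖c - a‖) / 2 := by
    simp only [← sqrt_two_pi_mul_integral_abs_inner]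
    have hpt : (fun g => maxForm ![a, b, c] g + maxForm (fun i => -(![a, b, c] i)) g) =
        fun g => (|⟪a - b, g⟫| + |⟪b - c, g⟫| + |⟪c - a, g⟫|) / 2 := by
      funext g
      have h : (fun i => -(![a, b, c] i)) = ![-a, -b, -c] := by
        funext i
        fin_cases i <;> simp
      rw [h, maxForm_three, maxForm_three]
      simp only [inner_neg_left, inner_sub_left]
      exact max_three_add_max_three_neg _ _ _
    have hab : Integrable (fun g => |⟪a - b, g⟫|) (stdGaussian E) := (integrable_inner _).abs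
    have hbc : Integrable (fun g => |⟪b - c, g⟫|) (stdGaussian E) := (integrable_inner _).abs
    have hca : Integrable (fun g => |⟪c - a, g⟫|) (stdGaussian E) := (integrable_inner _).abs
    have habc : Integrable (fun g => |⟪a - b, g⟫| + |⟪b - c, g⟫|) (stdGaussian E) := hab.add hbc
    simp only [width]
    rw [← mul_add, ← integral_add (integrable_maxForm _) (integrable_maxForm _), hpt,
      integral_div, integral_add habc hca, integral_add hab hbc]
    ring
  linarith

/-- `width_three` for the subfamily indexed by a finset `{i, j, k}`. -/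
theorem width_three_finset {ι : Type*} [DecidableEq ι] (w : ι → E) (s : Finset ι) [Nonempty s]
    (i j k : ι) (hs : s = {i, j, k}) :
    width (fun x : s => w x) = (‖w i - w j‖ + ‖w j - w k‖ + ‖w k - w i‖) / 2 := by
  subst hs
  let f : Fin 3 → ({i, j, k} : Finset ι) :=
    ![⟨i, by simp⟩, ⟨j, by simp⟩, ⟨k, by simp⟩]
  have hf : Function.Surjective f := by
    rintro ⟨x, hx⟩
    simp only [Finset.mem_insert, Finset.mem_singleton] at hx
    rcases hx with rfl | rfl | rfl
    · exact ⟨0, rfl⟩
    · exact ⟨1, rfl⟩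
    · exact ⟨2, rfl⟩
  rw [← width_comp_surjective (fun x : ({i, j, k} : Finset ι) => w x) hf, ← width_three]
  congr 1
  funext m
  fin_cases m <;> rfl

end Three

section Subspace

variable {E : Type*} [NormedAddCommGroup E] [InnerProductSpace ℝ E] [FiniteDimensional ℝ E]

/-- Any subspace extends to one of a prescribed larger dimension. -/
theorem exists_submodule_ge_finrank_eq (V : Submodule ℝ E) {n : ℕ}
    (h1 : Module.finrank ℝ V ≤ n) (h2 : n ≤ Module.finrank ℝ E) :
    ∃ V' : Submodule ℝ E, V ≤ V' ∧ Module.finrank ℝ V' = n := by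
  induction n, h1 using Nat.le_induction with
  | base => exact ⟨V, le_rfl, rfl⟩
  | succ n hn ih =>
    obtain ⟨W, hVW, hW⟩ := ih (by omega)
    have hne : W ≠ ⊤ := by
      rintro rfl
      rw [finrank_top] at hW
      omega
    obtain ⟨v, hv⟩ : ∃ v, v ∉ W := by
      by_contra! hc
      exact hne (Submodule.eq_top_iff'.2 hc)
    exact ⟨W ⊔ Submodule.span ℝ {v}, hVW.trans le_sup_left,
      by rw [Submodule.finrank_sup_span_singleton hv, hW]⟩

end Subspace

section Moments

variable {E : Type*} [NormedAddCommGroup E] [InnerProductSpace ℝ E]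
  [FiniteDimensional ℝ E] [MeasurableSpace E] [BorelSpace E]

/-- A width bound for the moment vectors bounds the sum of their squared norms. -/
lemma sum_sq_moments_le {ι : Type*} [Fintype ι] [Nonempty ι] (A : ι → Set E)
    (hA : ∀ i, MeasurableSet (A i))
    (hd : Pairwise (Function.onFun (AEDisjoint (stdGaussian E)) A))
    (hU : (⋃ i, A i) =ᵐ[stdGaussian E] Set.univ)
    (h : ∀ z : ι → E, ∑ i, z i = 0 → width z ≤ 3 / 2 * Real.sqrt (∑ i, ‖z i‖ ^ 2)) :
    ∑ i, ‖∫ x in A i, x ∂(stdGaussian E)‖ ^ 2 ≤ 9 / (8 * Real.pi) := by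
  have hnm : ∀ i, NullMeasurableSet (A i) (stdGaussian E) :=
    fun i => (hA i).nullMeasurableSet
  have hid : Integrable (fun x : E => x) (stdGaussian E) := IsGaussian.integrable_fun_id
  obtain ⟨z, hz⟩ : ∃ z : ι → E, ∀ i, z i = ∫ x in A i, x ∂(stdGaussian E) :=
    ⟨_, fun _ => rfl⟩
  simp only [← hz]
  have hsum : ∑ i, z i = 0 := by
    have h1 := integral_iUnion_ae hnm hd hid.integrableOn
    rw [setIntegral_congr_set hU, setIntegral_univ, integral_id_stdGaussian, tsum_fintype] at h1
    rw [h1]
    exact Finset.sum_congr rfl fun i _ => hz i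
  have hmax : ∫ g, maxForm z g ∂(stdGaussian E) = ∑ i, ∫ g in A i, maxForm z g ∂(stdGaussian E) := by
    have h1 := integral_iUnion_ae hnm hd (integrable_maxForm z).integrableOn
    rw [setIntegral_congr_set hU, setIntegral_univ, tsum_fintype] at h1
    exact h1
  have hle : ∑ i, ‖z i‖ ^ 2 ≤ ∫ g, maxForm z g ∂(stdGaussian E) := by
    rw [hmax]
    refine Finset.sum_le_sum fun i _ => ?_
    calc ‖z i‖ ^ 2 = ⟪z i, z i⟫ := (real_inner_self_eq_norm_sq _).symm
      _ = ⟪z i, ∫ x in A i, x ∂(stdGaussian E)⟫ := by rw [← hz]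
      _ = ∫ x in A i, ⟪z i, x⟫ ∂(stdGaussian E) := (integral_inner hid.integrableOn _).symm
      _ ≤ ∫ x in A i, maxForm z x ∂(stdGaussian E) :=
          setIntegral_mono (integrable_inner _).integrableOn (integrable_maxForm z).integrableOn
            fun x => inner_le_maxForm z i x
  obtain ⟨S, hS⟩ : ∃ S, S = ∑ i, ‖z i‖ ^ 2 := ⟨_, rfl⟩
  rw [← hS] at hle ⊢
  have hS0 : 0 ≤ S := hS ▸ Finset.sum_nonneg fun i _ => sq_nonneg _
  have hw : Real.sqrt (2 * Real.pi) * S ≤ 3 / 2 * Real.sqrt S := by
    refine le_trans (mul_le_mul_of_nonneg_left hle sqrt_two_pi_nonneg) ?_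
    rw [hS]
    exact h z hsum
  have hq : (Real.sqrt (2 * Real.pi) * S) ^ 2 ≤ (3 / 2 * Real.sqrt S) ^ 2 :=
    pow_le_pow_left₀ (mul_nonneg sqrt_two_pi_nonneg hS0) hw 2
  rw [mul_pow, mul_pow, Real.sq_sqrt hS0, Real.sq_sqrt (by positivity)] at hq
  rw [le_div_iff₀ (by positivity)]
  rcases hS0.eq_or_lt with hS0 | hS0
  · rw [← hS0]; norm_num
  · refine le_of_mul_le_mul_right ?_ hS0
    nlinarith

/-- The propeller inequality follows from the width inequality in dimension at least five. -/
theorem moments_le_of_width_le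
    (h : ∀ (d k : ℕ) (w : Fin (k + 1) → EuclideanSpace ℝ (Fin d)), 5 ≤ d → ∑ i, w i = 0 →
      width w ≤ 3 / 2 * Real.sqrt (∑ i, ‖w i‖ ^ 2))
    (d k : ℕ) (A : Fin k → Set (EuclideanSpace ℝ (Fin d)))
    (hA : ∀ i, MeasurableSet (A i))
    (hd : Pairwise (Function.onFun (AEDisjoint (stdGaussian (EuclideanSpace ℝ (Fin d)))) A))
    (hU : (⋃ i, A i) =ᵐ[stdGaussian (EuclideanSpace ℝ (Fin d))] Set.univ) :
    ∑ i, ‖∫ x in A i, x ∂(stdGaussian (EuclideanSpace ℝ (Fin d)))‖ ^ 2 ≤ 9 / (8 * Real.pi) := by
  match k, A, hA, hd, hU with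
  | 0, A, _, _, _ =>
    simp only [Finset.univ_eq_empty, Finset.sum_empty]
    positivity
  | k + 1, A, hA, hd, hU =>
    refine sum_sq_moments_le A hA hd hU fun z hz => ?_
    let L : EuclideanSpace ℝ (Fin d) →ₗᵢ[ℝ] EuclideanSpace ℝ (Fin d ⊕ Fin 5) :=
      { toFun := fun x => WithLp.toLp 2 (Sum.elim x.ofLp 0)
        map_add' := fun x y => by ext (i | i) <;> simp
        map_smul' := fun r x => by ext (i | i) <;> simp
        norm_map' := fun x => by simp [EuclideanSpace.norm_eq, Fintype.sum_sum_type] }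
    let e : EuclideanSpace ℝ (Fin d ⊕ Fin 5) ≃ₗᵢ[ℝ] EuclideanSpace ℝ (Fin (d + 5)) :=
      LinearIsometryEquiv.piLpCongrLeft 2 ℝ ℝ finSumFinEquiv
    have hw := h (d + 5) k (fun i => e.toLinearIsometry.comp L (z i)) (by omega)
      (by rw [← map_sum, hz, map_zero])
    rw [width_map (e.toLinearIsometry.comp L) z] at hw
    simpa only [LinearIsometry.norm_map] using hw

end Moments

end Vale.Agent.P226
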