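import Vale.Agent.P226.WidthDefs
import Vale.Agent.P226.Reduction
import Vale.Agent.P226.Radial

/-!
# The radial branches of the width bound (P226)

With threshold `t * projNorm V` for a subspace `V` through some of the vectors:

* `width_le_U3`, `width_le_U4`, `width_le_U5`: `V` contains at most 3, 4 or 5 of the vectors;
* `width_le_T4`, `width_le_T5`: `V` contains 4 or 5 of the vectors measured from their mean `c`,
  the threshold being shared between `c` and the others;
* `width_le_T4'`, `width_le_T5'`: the same with every other vector measured from `c`.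
-/

namespace Vale.Agent.P226

open MeasureTheory ProbabilityTheory
open scoped RealInnerProductSpace

section Subspaces

variable {ι E : Type*} [NormedAddCommGroup E] [InnerProductSpace ℝ E] [FiniteDimensional ℝ E]

/-- A subspace of prescribed dimension through finitely many vectors. -/
theorem exists_submodule_mem (w : ι → E) (s : Finset ι) {n : ℕ} (hs : s.card ≤ n)
    (hn : n ≤ Module.finrank ℝ E) :
    ∃ V : Submodule ℝ E, Module.finrank ℝ V = n ∧ ∀ i ∈ s, w i ∈ V := by
  classical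
  have h1 : Module.finrank ℝ (Submodule.span ℝ ((s.image w : Finset E) : Set E)) ≤ n :=
    (finrank_span_finset_le_card _).trans (Finset.card_image_le.trans hs)
  obtain ⟨V, hle, hV⟩ := exists_submodule_ge_finrank_eq _ h1 hn
  exact ⟨V, hV, fun i hi => hle (Submodule.subset_span (Finset.mem_image_of_mem w hi))⟩

/-- Vectors measured from their mean need one dimension less. -/
theorem exists_submodule_mem_centred (w : ι → E) (s : Finset ι) {n : ℕ} (hs : s.card = n + 1)
    (hn : n ≤ Module.finrank ℝ E) :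
    ∃ V : Submodule ℝ E, Module.finrank ℝ V = n ∧
      ∀ i ∈ s, w i - ((n : ℝ) + 1)⁻¹ • ∑ j ∈ s, w j ∈ V := by
  classical
  set c := ((n : ℝ) + 1)⁻¹ • ∑ j ∈ s, w j
  obtain ⟨i₀, hi₀⟩ : s.Nonempty := Finset.card_pos.1 (by omega)
  obtain ⟨V, hV, hmem⟩ := exists_submodule_mem (fun i => w i - c) (s.erase i₀) (n := n)
    (by rw [Finset.card_erase_of_mem hi₀]; omega) hn
  refine ⟨V, hV, fun i hi => ?_⟩
  rcases eq_or_ne i i₀ with rfl | hne
  · have hsum : ∑ j ∈ s, (w j - c) = 0 := by
      rw [Finset.sum_sub_distrib, Finset.sum_const, hs, ← Nat.cast_smul_eq_nsmul ℝ]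
      simp only [c, smul_smul, Nat.cast_add, Nat.cast_one]
      rw [mul_inv_cancel₀ (by positivity), one_smul, sub_self]
    rw [← Finset.add_sum_erase s _ hi, add_eq_zero_iff_eq_neg] at hsum
    rw [hsum]
    exact V.neg_mem (V.sum_mem fun j hj => hmem j hj)
  · exact hmem i (Finset.mem_erase.2 ⟨hne, hi⟩)

variable [MeasurableSpace E] [BorelSpace E]

theorem integrable_projNorm (V : Submodule ℝ E) : Integrable (projNorm V) (stdGaussian E) :=
  (V.starProjection.integrable_comp IsGaussian.integrable_fun_id).norm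

variable [Fintype ι] [Nonempty ι] [DecidableEq ι]

/-- The union bound with a radial threshold, from bounds on the single excesses. -/
theorem width_le_radial (z : ι → E) (s : Finset ι) (V : Submodule ℝ E) (t : ℝ) {K : ℝ}
    {F G : ℝ → ℝ → ℝ} (hK : Real.sqrt (2 * Real.pi) * ∫ g, projNorm V g ∂stdGaussian E = K)
    (hF : ∀ i ∈ s, excess (z i) (fun g => t * projNorm V g) ≤ F ‖z i‖ t)
    (hG : ∀ j ∈ sᶜ, excess (z j) (fun g => t * projNorm V g) ≤ G ‖z j‖ t) :
    width z ≤ K * t + ∑ i ∈ s, F ‖z i‖ t + ∑ j ∈ sᶜ, G ‖z j‖ t := by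
  have h := width_le_union z (a := fun g => t * projNorm V g) ((integrable_projNorm V).const_mul t)
  rw [integral_const_mul, mul_left_comm, hK, ← Finset.sum_add_sum_compl s] at h
  linarith [Finset.sum_le_sum hF, Finset.sum_le_sum hG]

/-- The split bound with a radial threshold, from bounds on the single excesses. -/
theorem width_le_radial_split (z : ι → E) (s : Finset ι) (c : E) (V : Submodule ℝ E)
    (t l : ℝ) {K : ℝ} {F G : ℝ → ℝ → ℝ}
    (hK : Real.sqrt (2 * Real.pi) * ∫ g, projNorm V g ∂stdGaussian E = K)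
    (hF : ∀ i ∈ s, excess (z i - c) (fun g => t * projNorm V g) ≤ F ‖z i - c‖ t)
    (hC : excess (-c) (fun g => l * t * projNorm V g) ≤ G ‖c‖ (l * t))
    (hG : ∀ j ∈ sᶜ, excess (z j) (fun g => (1 - l) * t * projNorm V g) ≤ G ‖z j‖ ((1 - l) * t)) :
    width z ≤ K * t + ∑ i ∈ s, F ‖z i - c‖ t + G ‖c‖ (l * t)
      + ∑ j ∈ sᶜ, G ‖z j‖ ((1 - l) * t) := by
  have h := width_le_split z s c (a := fun g => t * projNorm V g)
    ((integrable_projNorm V).const_mul t) l
  simp only [← mul_assoc] at h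
  rw [integral_const_mul, ← mul_assoc, mul_comm (Real.sqrt _) t, mul_assoc, hK, mul_comm t K] at h
  linarith [Finset.sum_le_sum hF, Finset.sum_le_sum hG]

end Subspaces

section Branches

variable {ι E : Type*} [Fintype ι] [Nonempty ι] [DecidableEq ι] [NormedAddCommGroup E]
  [InnerProductSpace ℝ E] [FiniteDimensional ℝ E] [MeasurableSpace E] [BorelSpace E]

/-- At most five of the vectors in the subspace. -/
theorem width_le_U5 (z : ι → E) (hE : 5 ≤ Module.finrank ℝ E) {s : Finset ι} (hs : s.card ≤ 5)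
    {t : ℝ} (ht : 0 ≤ t) :
    width z ≤ 16 / 3 * t + ∑ i ∈ s, cap5 ‖z i‖ t + ∑ j ∈ sᶜ, phi5 ‖z j‖ t := by
  obtain ⟨V, hV, hmem⟩ := exists_submodule_mem z s hs hE
  exact width_le_radial z s V t (integral_projNorm_five V hV)
    (fun i hi => excess_projNorm_le_cap5 V hV (hmem i hi) ht)
    (fun j _ => excess_projNorm_le_phi5 V hV (z j) ht)

/-- At most four of the vectors in the subspace. -/
theorem width_le_U4 (z : ι → E) (hE : 4 ≤ Module.finrank ℝ E) {s : Finset ι} (hs : s.card ≤ 4)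
    {t : ℝ} (ht : 0 ≤ t) :
    width z ≤ 3 * Real.pi / 2 * t + ∑ i ∈ s, cap4 ‖z i‖ t + ∑ j ∈ sᶜ, phi4 ‖z j‖ t := by
  obtain ⟨V, hV, hmem⟩ := exists_submodule_mem z s hs hE
  exact width_le_radial z s V t (integral_projNorm_four V hV)
    (fun i hi => excess_projNorm_le_cap4 V hV (hmem i hi) ht)
    (fun j _ => excess_projNorm_le_phi4 V hV (z j) ht)

/-- At most three of the vectors in the subspace. -/
theorem width_le_U3 (z : ι → E) (hE : 3 ≤ Module.finrank ℝ E) {s : Finset ι} (hs : s.card ≤ 3)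
    {t : ℝ} (ht : 0 ≤ t) :
    width z ≤ 4 * t + ∑ i ∈ s, cap3 ‖z i‖ t + ∑ j ∈ sᶜ, phi3 ‖z j‖ t := by
  obtain ⟨V, hV, hmem⟩ := exists_submodule_mem z s hs hE
  exact width_le_radial z s V t (integral_projNorm_three V hV)
    (fun i hi => excess_projNorm_le_cap3 V hV (hmem i hi) ht)
    (fun j _ => excess_projNorm_le_phi3 V hV (z j) ht)

/-- Four vectors measured from their mean, with a shared threshold. -/
theorem width_le_T4 (z : ι → E) (hE : 3 ≤ Module.finrank ℝ E) {s : Finset ι} (hs : s.card = 4)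
    {c : E} (hc : c = (1 / 4 : ℝ) • ∑ i ∈ s, z i) {t l : ℝ} (ht : 0 ≤ t) (hl0 : 0 ≤ l)
    (hl1 : l ≤ 1) :
    width z ≤ 4 * t + ∑ i ∈ s, cap3 ‖z i - c‖ t + phi3 ‖c‖ (l * t)
      + ∑ j ∈ sᶜ, phi3 ‖z j‖ ((1 - l) * t) := by
  obtain ⟨V, hV, hmem⟩ := exists_submodule_mem_centred z s (n := 3) hs hE
  norm_num at hmem
  rw [← hc] at hmem
  exact width_le_radial_split z s c V t l (integral_projNorm_three V hV)
    (fun i hi => excess_projNorm_le_cap3 V hV (hmem i hi) ht)
    (norm_neg c ▸ excess_projNorm_le_phi3 V hV (-c) (mul_nonneg hl0 ht))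
    (fun j _ => excess_projNorm_le_phi3 V hV (z j) (mul_nonneg (sub_nonneg.2 hl1) ht))

/-- Five vectors measured from their mean, with a shared threshold. -/
theorem width_le_T5 (z : ι → E) (hE : 4 ≤ Module.finrank ℝ E) {s : Finset ι} (hs : s.card = 5)
    {c : E} (hc : c = (1 / 5 : ℝ) • ∑ i ∈ s, z i) {t l : ℝ} (ht : 0 ≤ t) (hl0 : 0 ≤ l)
    (hl1 : l ≤ 1) :
    width z ≤ 3 * Real.pi / 2 * t + ∑ i ∈ s, cap4 ‖z i - c‖ t + phi4 ‖c‖ (l * t)
      + ∑ j ∈ sᶜ, phi4 ‖z j‖ ((1 - l) * t) := by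
  obtain ⟨V, hV, hmem⟩ := exists_submodule_mem_centred z s (n := 4) hs hE
  norm_num at hmem
  rw [← hc] at hmem
  exact width_le_radial_split z s c V t l (integral_projNorm_four V hV)
    (fun i hi => excess_projNorm_le_cap4 V hV (hmem i hi) ht)
    (norm_neg c ▸ excess_projNorm_le_phi4 V hV (-c) (mul_nonneg hl0 ht))
    (fun j _ => excess_projNorm_le_phi4 V hV (z j) (mul_nonneg (sub_nonneg.2 hl1) ht))

/-- All vectors measured from the mean of four of them. -/
theorem width_le_T4' (z : ι → E) (hE : 3 ≤ Module.finrank ℝ E) {s : Finset ι} (hs : s.card = 4)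
    {c : E} (hc : c = (1 / 4 : ℝ) • ∑ i ∈ s, z i) {t : ℝ} (ht : 0 ≤ t) :
    width z ≤ 4 * t + ∑ i ∈ s, cap3 ‖z i - c‖ t + ∑ j ∈ sᶜ, phi3 ‖z j - c‖ t := by
  obtain ⟨V, hV, hmem⟩ := exists_submodule_mem_centred z s (n := 3) hs hE
  norm_num at hmem
  rw [← hc] at hmem
  rw [← width_sub_const z c]
  exact width_le_radial (fun i => z i - c) s V t (integral_projNorm_three V hV)
    (fun i hi => excess_projNorm_le_cap3 V hV (hmem i hi) ht)
    (fun j _ => excess_projNorm_le_phi3 V hV (z j - c) ht)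

/-- All vectors measured from the mean of five of them. -/
theorem width_le_T5' (z : ι → E) (hE : 4 ≤ Module.finrank ℝ E) {s : Finset ι} (hs : s.card = 5)
    {c : E} (hc : c = (1 / 5 : ℝ) • ∑ i ∈ s, z i) {t : ℝ} (ht : 0 ≤ t) :
    width z ≤ 3 * Real.pi / 2 * t + ∑ i ∈ s, cap4 ‖z i - c‖ t + ∑ j ∈ sᶜ, phi4 ‖z j - c‖ t := by
  obtain ⟨V, hV, hmem⟩ := exists_submodule_mem_centred z s (n := 4) hs hE
  norm_num at hmem
  rw [← hc] at hmem
  rw [← width_sub_const z c]
  exact width_le_radial (fun i => z i - c) s V t (integral_projNorm_four V hV)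
    (fun i hi => excess_projNorm_le_cap4 V hV (hmem i hi) ht)
    (fun j _ => excess_projNorm_le_phi4 V hV (z j - c) ht)

end Branches

end Vale.Agent.P226
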