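import Vale.Agent.P226.RadialModel

/-!
# Shifted intervals and the tilt domination (P226)

Among all cosines between `u` and the subspace, the orthogonal position maximises the excess.
-/

namespace Vale.Agent.P226

open MeasureTheory ProbabilityTheory Set Real
open scoped ENNReal RealInnerProductSpace

/-- The standard Gaussian density of an interval with given centre. -/
theorem gauss_Ioo_eq {p q : ℝ} (h : p ≤ q) :
    gauss (Ioo p q) = ENNReal.ofReal (∫ x in p..q, gaussianPDFReal 0 1 x) := by
  rw [gauss, gaussianReal_apply_eq_integral _ one_ne_zero, intervalIntegral.integral_of_le h,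
    integral_Ioc_eq_integral_Ioo]

theorem intervalIntegrable_pdf (p q : ℝ) :
    IntervalIntegrable (gaussianPDFReal 0 1) volume p q :=
  (integrable_gaussianPDFReal 0 1).intervalIntegrable

/-- An interval of fixed length loses mass as its centre moves away from the origin. -/
theorem gauss_Ioo_antitone {h s₁ s₂ : ℝ} (hh : 0 ≤ h) (h1 : 0 ≤ s₁) (h2 : s₁ ≤ s₂) :
    gauss (Ioo (s₂ - h) (s₂ + h)) ≤ gauss (Ioo (s₁ - h) (s₁ + h)) := by
  rw [gauss_Ioo_eq (by linarith), gauss_Ioo_eq (by linarith)]
  apply ENNReal.ofReal_le_ofReal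
  have key : ∫ x in (s₁ - h)..(s₂ - h), gaussianPDFReal 0 1 (x + 2 * h)
      ≤ ∫ x in (s₁ - h)..(s₂ - h), gaussianPDFReal 0 1 x := by
    apply intervalIntegral.integral_mono_on (by linarith)
      ((integrable_gaussianPDFReal 0 1).comp_add_right (2 * h)).intervalIntegrable
      (intervalIntegrable_pdf _ _)
    intro x hx
    simp only [gaussianPDFReal]
    apply mul_le_mul_of_nonneg_left _ (by positivity)
    apply exp_le_exp.2
    push_cast
    nlinarith [hx.1, mul_nonneg hh (show 0 ≤ x + h by linarith [hx.1])]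
  rw [intervalIntegral.integral_comp_add_right, show s₁ - h + 2 * h = s₁ + h by ring,
    show s₂ - h + 2 * h = s₂ + h by ring] at key
  have := intervalIntegral.integral_interval_sub_interval_comm' (intervalIntegrable_pdf (s₂ - h)
    (s₂ + h)) (intervalIntegrable_pdf (s₁ - h) (s₁ + h)) (intervalIntegrable_pdf (s₂ - h) (s₁ - h))
  linarith [this, intervalIntegral.integral_symm (μ := volume) (f := gaussianPDFReal 0 1)
    (s₂ - h) (s₁ - h)]

theorem map_neg_gauss : (gauss).map (fun x => -x) = gauss := by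
  simpa using gaussianReal_map_neg (μ := 0) (v := 1)

theorem lintegral_gauss_neg {f : ℝ → ℝ≥0∞} (hf : Measurable f) :
    ∫⁻ x, f (-x) ∂gauss = ∫⁻ x, f x ∂gauss := by
  rw [← lintegral_map hf measurable_neg, show Measure.map Neg.neg gauss = gauss from map_neg_gauss]

theorem gauss_Ioo_abs (s h : ℝ) :
    gauss (Ioo (s - h) (s + h)) = gauss (Ioo (|s| - h) (|s| + h)) := by
  rcases abs_choice s with hs | hs <;> rw [hs]
  conv_lhs => rw [← map_neg_gauss, Measure.map_apply measurable_neg measurableSet_Ioo]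
  congr 1
  ext x
  simp only [mem_preimage, mem_Ioo]
  constructor <;> intro hx <;> constructor <;> linarith [hx.1, hx.2]

/-- The probability that a shifted square stays below `ρ` decreases with the shift. -/
theorem gauss_shift_le {a b ρ u₁ u₂ : ℝ} (hu : |u₁| ≤ |u₂|) :
    gauss {x | (a * u₂ - b * x) ^ 2 < ρ} ≤ gauss {x | (a * u₁ - b * x) ^ 2 < ρ} := by
  rcases eq_or_ne b 0 with rfl | hb
  · apply measure_mono
    intro x hx
    simp only [mem_ofPred_eq, zero_mul, sub_zero, mul_pow] at hx ⊢
    exact lt_of_le_of_lt (mul_le_mul_of_nonneg_left (sq_le_sq.2 hu) (sq_nonneg a)) hx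
  · rcases le_or_gt ρ 0 with hρ | hρ
    · have : {x | (a * u₂ - b * x) ^ 2 < ρ} = ∅ :=
        eq_empty_of_forall_notMem fun x hx => (lt_of_lt_of_le hx hρ).not_ge (sq_nonneg _)
      simp [this]
    · have hset : ∀ u : ℝ, {x | (a * u - b * x) ^ 2 < ρ}
          = Ioo (a / b * u - √ρ / |b|) (a / b * u + √ρ / |b|) := by
        intro u
        ext x
        rw [mem_ofPred_eq, ← Real.sq_sqrt hρ.le, sq_lt_sq, Real.sq_sqrt hρ.le,
          abs_of_nonneg (Real.sqrt_nonneg ρ), mem_Ioo,
          show a * u - b * x = b * (a / b * u - x) by field_simp, abs_mul, mul_comm,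
          ← lt_div_iff₀ (abs_pos.2 hb), abs_lt]
        constructor <;> intro h <;> constructor <;> linarith [h.1, h.2]
      rw [hset, hset, gauss_Ioo_abs, gauss_Ioo_abs (a / b * u₁)]
      refine gauss_Ioo_antitone (by positivity) (abs_nonneg _) ?_
      rw [abs_mul, abs_mul]
      exact mul_le_mul_of_nonneg_left hu (abs_nonneg _)

/-- The event that the tilted norm is below the level `c`. -/
noncomputable def tiltProb (m : ℕ) (t a b c u : ℝ) : ℝ≥0∞ :=
  (gauss.prod (gaussPi m)) {z | t * √((a * u - b * z.1) ^ 2 + sumSq z.2) < c}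

theorem measurableSet_tilt (m : ℕ) (t a b c : ℝ) :
    MeasurableSet {p : ℝ × ℝ × (Fin m → ℝ) |
      t * √((a * p.1 - b * p.2.1) ^ 2 + sumSq p.2.2) < c} := by
  have := measurable_sumSq (m := m)
  exact measurableSet_lt (by fun_prop) measurable_const

theorem measurable_tiltProb (m : ℕ) (t a b c : ℝ) : Measurable (tiltProb m t a b c) :=
  measurable_measure_prodMk_left (measurableSet_tilt m t a b c)

theorem tiltProb_antitone (m : ℕ) {t a b c u₁ u₂ : ℝ} (ht : 0 ≤ t) (hu : |u₁| ≤ |u₂|) :
    tiltProb m t a b c u₂ ≤ tiltProb m t a b c u₁ := by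
  have hs : ∀ u, MeasurableSet {z : ℝ × (Fin m → ℝ) |
      t * √((a * u - b * z.1) ^ 2 + sumSq z.2) < c} := by
    have := measurable_sumSq (m := m)
    exact fun u => measurableSet_lt (by fun_prop) measurable_const
  unfold tiltProb
  rw [Measure.prod_apply_symm (hs u₂), Measure.prod_apply_symm (hs u₁)]
  refine lintegral_mono fun y => ?_
  simp only [preimage_ofPred_eq]
  rcases ht.eq_or_lt with rfl | ht
  · simp
  rcases le_or_gt c 0 with hc | hc
  · have : ∀ x : ℝ, ¬ t * √((a * u₂ - b * x) ^ 2 + sumSq y) < c := fun x hx =>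
      absurd (hx.trans_le hc) (not_lt.2 (by positivity))
    simp [this]
  have hiff : ∀ u x : ℝ, t * √((a * u - b * x) ^ 2 + sumSq y) < c ↔
      (a * u - b * x) ^ 2 < (c / t) ^ 2 - sumSq y := by
    intro u x
    rw [← lt_div_iff₀' ht, Real.sqrt_lt' (by positivity)]
    constructor <;> intro h <;> linarith
  simp_rw [hiff]
  exact gauss_shift_le hu

/-- The mean of the tilted event does not depend on the tilt. -/
theorem lintegral_tiltProb (m : ℕ) {t a b c : ℝ} (hab : a ^ 2 + b ^ 2 = 1) (u₀ : ℝ) :
    ∫⁻ u, tiltProb m t a b c u ∂gauss = tiltProb m t 0 1 c u₀ := by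
  let ψ : ℝ → ℝ≥0∞ := {r | t * √r < c}.indicator 1
  have hψ : Measurable ψ :=
    measurable_const.indicator (measurableSet_lt (by fun_prop) measurable_const)
  have hrep : ∀ a b u, tiltProb m t a b c u
      = ∫⁻ x, ∫⁻ y, ψ ((a * u - b * x) ^ 2 + sumSq y) ∂gaussPi m ∂gauss := by
    intro a b u
    have hs : MeasurableSet {z : ℝ × (Fin m → ℝ) |
        t * √((a * u - b * z.1) ^ 2 + sumSq z.2) < c} := by
      have := measurable_sumSq (m := m)
      exact measurableSet_lt (by fun_prop) measurable_const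
    unfold tiltProb
    rw [← lintegral_indicator_one hs,
      lintegral_prod _ ((measurable_one.indicator hs).aemeasurable)]
    rfl
  simp_rw [hrep]
  rw [lintegral_model_rotate m hab hψ]
  simp

/-- A symmetric decreasing weight puts less than average mass on a tail. -/
theorem setLIntegral_Ioi_le {f : ℝ → ℝ≥0∞} (hf : Measurable f)
    (hanti : ∀ u₁ u₂ : ℝ, |u₁| ≤ |u₂| → f u₂ ≤ f u₁) {d : ℝ} (hd : 0 ≤ d) :
    ∫⁻ u in Ioi d, f u ∂gauss ≤ gauss (Ioi d) * ∫⁻ u, f u ∂gauss := by
  have heven : ∀ u, f (-u) = f u := fun u =>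
    le_antisymm (hanti _ _ (abs_neg u).ge) (hanti _ _ (abs_neg u).le)
  have hsym : ∀ g : ℝ → ℝ≥0∞, Measurable g → (∀ u, g (-u) = g u) →
      ∫⁻ u in Iio (-d), g u ∂gauss = ∫⁻ u in Ioi d, g u ∂gauss := by
    intro g hg he
    rw [← lintegral_indicator measurableSet_Iio, ← lintegral_indicator measurableSet_Ioi,
      ← lintegral_gauss_neg (hg.indicator measurableSet_Iio)]
    refine lintegral_congr fun u => ?_
    simp [Set.indicator_apply, he]
  set out : Set ℝ := Iio (-d) ∪ Ioi d with hout
  have hmo : MeasurableSet out := measurableSet_Iio.union measurableSet_Ioi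
  have hdisj : Disjoint (Iio (-d)) (Ioi d) :=
    Set.disjoint_left.2 fun u (h1 : u < -d) (h2 : d < u) => absurd (h1.trans_le (by linarith)) h2.not_gt
  have hout2 : ∀ g : ℝ → ℝ≥0∞, Measurable g → (∀ u, g (-u) = g u) →
      ∫⁻ u in out, g u ∂gauss = 2 * ∫⁻ u in Ioi d, g u ∂gauss := by
    intro g hg he
    rw [hout, lintegral_union measurableSet_Ioi hdisj, hsym g hg he, two_mul]
  have hq : gauss out = 2 * gauss (Ioi d) := by
    simpa using hout2 (fun _ => 1) measurable_const (fun _ => rfl)
  have hle_out : ∫⁻ u in out, f u ∂gauss ≤ gauss out * f d := by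
    rw [mul_comm, ← setLIntegral_const]
    refine setLIntegral_mono measurable_const fun u hu => hanti _ _ ?_
    rw [abs_of_nonneg hd]
    rcases hu with (h : u < -d) | (h : d < u)
    · linarith [neg_le_abs u]
    · linarith [le_abs_self u]
  have hge_in : gauss outᶜ * f d ≤ ∫⁻ u in outᶜ, f u ∂gauss := by
    rw [mul_comm, ← setLIntegral_const]
    refine setLIntegral_mono hf fun u hu => hanti _ _ ?_
    simp only [hout, mem_compl_iff, mem_union, mem_Iio, mem_Ioi, not_or, not_lt] at hu
    rw [abs_of_nonneg hd]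
    exact abs_le.2 hu
  have key : ∫⁻ u in out, f u ∂gauss ≤ gauss out * ∫⁻ u, f u ∂gauss := by
    calc ∫⁻ u in out, f u ∂gauss
        = gauss out * (∫⁻ u in out, f u ∂gauss) + gauss outᶜ * ∫⁻ u in out, f u ∂gauss := by
          rw [← add_mul, prob_add_prob_compl hmo, one_mul]
      _ ≤ gauss out * (∫⁻ u in out, f u ∂gauss) + gauss outᶜ * (gauss out * f d) := by gcongr
      _ = gauss out * (∫⁻ u in out, f u ∂gauss) + gauss out * (gauss outᶜ * f d) := by ring
      _ ≤ gauss out * (∫⁻ u in out, f u ∂gauss) + gauss out * ∫⁻ u in outᶜ, f u ∂gauss := by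
          gcongr
      _ = gauss out * ∫⁻ u, f u ∂gauss := by rw [← mul_add, lintegral_add_compl _ hmo]
  rw [hout2 f hf heven, hq, mul_assoc] at key
  exact (ENNReal.mul_le_mul_iff_right two_ne_zero (by norm_num)).1 key

/-- A positive part as an integral over levels. -/
theorem ofReal_sub_eq_levels {p r : ℝ} (hr : 0 ≤ r) :
    ENNReal.ofReal (p - r) = ∫⁻ c in Ioi 0, {c | r < c ∧ c < p}.indicator 1 c := by
  have h : {c | r < c ∧ c < p} = Ioo r p := rfl
  rw [h, setLIntegral_indicator measurableSet_Ioo, inter_eq_self_of_subset_left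
    (Ioo_subset_Ioi_self.trans (Ioi_subset_Ioi hr))]
  simp [Real.volume_Ioo]

theorem excessModel_levels (m : ℕ) {v t : ℝ} (ht : 0 ≤ t) (a b : ℝ) :
    excessModel m v t a b = ∫⁻ c in Ioi 0, ∫⁻ u,
      {u | c < v * u}.indicator (tiltProb m t a b c) u ∂gauss := by
  let A : ℝ → ℝ × (Fin m → ℝ) → ℝ → ℝ≥0∞ := fun u z =>
    {c | t * √((a * u - b * z.1) ^ 2 + sumSq z.2) < c ∧ c < v * u}.indicator 1
  have hS : MeasurableSet {p : (ℝ × ℝ × (Fin m → ℝ)) × ℝ |
      t * √((a * p.1.1 - b * p.1.2.1) ^ 2 + sumSq p.1.2.2) < p.2 ∧ p.2 < v * p.1.1} := by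
    have := measurable_sumSq (m := m)
    exact (measurableSet_lt (by fun_prop) measurable_snd).inter
      (measurableSet_lt measurable_snd (by fun_prop))
  have hA : Measurable (fun p : (ℝ × ℝ × (Fin m → ℝ)) × ℝ => A p.1.1 p.1.2 p.2) :=
    measurable_one.indicator hS
  have h1 : excessModel m v t a b
      = ∫⁻ p, (∫⁻ c in Ioi 0, A p.1 p.2 c) ∂(gauss.prod (gauss.prod (gaussPi m))) := by
    have hm : Measurable (fun p : ℝ × ℝ × (Fin m → ℝ) => ENNReal.ofReal
        (v * p.1 - t * √((a * p.1 - b * p.2.1) ^ 2 + sumSq p.2.2))) := by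
      have := measurable_sumSq (m := m)
      fun_prop
    calc excessModel m v t a b = ∫⁻ p, ENNReal.ofReal
          (v * p.1 - t * √((a * p.1 - b * p.2.1) ^ 2 + sumSq p.2.2))
            ∂(gauss.prod (gauss.prod (gaussPi m))) := by
          rw [lintegral_prod _ hm.aemeasurable]
          refine lintegral_congr fun u => ?_
          exact (lintegral_prod _ (hm.comp measurable_prodMk_left).aemeasurable).symm
      _ = _ := lintegral_congr fun p => ofReal_sub_eq_levels (by positivity)
  rw [h1, lintegral_lintegral_swap hA.aemeasurable]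
  refine lintegral_congr fun c => ?_
  refine (lintegral_prod _ ((hA.comp (by fun_prop :
    Measurable fun p : ℝ × ℝ × (Fin m → ℝ) => (p, c))).aemeasurable)).trans ?_
  dsimp only [Function.comp_def]
  refine lintegral_congr fun u => ?_
  by_cases hu : c < v * u
  · rw [indicator_of_mem (show u ∈ {u | c < v * u} from hu), tiltProb,
      ← lintegral_indicator_one (by
        have := measurable_sumSq (m := m)
        exact measurableSet_lt (by fun_prop) measurable_const)]
    refine lintegral_congr fun z => ?_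
    simp [A, Set.indicator_apply, hu]
  · rw [indicator_of_notMem (show u ∉ {u | c < v * u} from hu)]
    simp [A, hu]

/-- The orthogonal position dominates every tilt. -/
theorem excessModel_le_indep (m : ℕ) {v t a b : ℝ} (hv : 0 < v) (ht : 0 ≤ t)
    (hab : a ^ 2 + b ^ 2 = 1) : excessModel m v t a b ≤ excessModel m v t 0 1 := by
  rw [excessModel_levels m ht, excessModel_levels m ht]
  refine setLIntegral_mono' measurableSet_Ioi fun c (hc : 0 < c) => ?_
  have hset : {u | c < v * u} = Ioi (c / v) := by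
    ext u; simp [div_lt_iff₀' hv]
  rw [hset, lintegral_indicator measurableSet_Ioi, lintegral_indicator measurableSet_Ioi]
  have hconst : ∀ u, tiltProb m t 0 1 c u = tiltProb m t 0 1 c 0 := fun u => by simp [tiltProb]
  calc ∫⁻ u in Ioi (c / v), tiltProb m t a b c u ∂gauss
      ≤ gauss (Ioi (c / v)) * ∫⁻ u, tiltProb m t a b c u ∂gauss :=
        setLIntegral_Ioi_le (measurable_tiltProb m t a b c)
          (fun _ _ h => tiltProb_antitone m ht h) (by positivity)
    _ = ∫⁻ u in Ioi (c / v), tiltProb m t 0 1 c u ∂gauss := by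
        rw [lintegral_tiltProb m hab 0, lintegral_congr fun u => hconst u, setLIntegral_const,
          mul_comm]

end Vale.Agent.P226
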