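import Vale.Agent.P226.RadialCalc
import Vale.Agent.P226.RadialShift

/-!
# Closed forms of the model (P226)
-/

namespace Vale.Agent.P226

open MeasureTheory ProbabilityTheory Set Real Filter
open scoped ENNReal RealInnerProductSpace Topology

/-- A positive part as an integral over slopes. -/
theorem ofReal_sub_eq_slopes {v u r : ℝ} (hv : 0 ≤ v) (hr : 0 ≤ r) :
    ENNReal.ofReal (v * u - r)
      = ∫⁻ s in Ioo 0 v, {s | r < s * u}.indicator (fun _ => ENNReal.ofReal u) s := by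
  rcases le_or_gt u 0 with hu | hu
  · simp [ENNReal.ofReal_of_nonpos hu, ENNReal.ofReal_of_nonpos
      (by nlinarith : v * u - r ≤ 0)]
  · have hset : {s | r < s * u} = Ioi (r / u) := by ext s; simp [div_lt_iff₀ hu]
    have hru : 0 ≤ r / u := div_nonneg hr hu.le
    have hint : Ioi (r / u) ∩ Ioo 0 v = Ioo (r / u) v := by
      ext s
      simp only [mem_inter_iff, mem_Ioi, mem_Ioo]
      exact ⟨fun h => ⟨h.1, h.2.2⟩, fun h => ⟨h.1, hru.trans_lt h.1, h.2⟩⟩
    rw [hset, setLIntegral_indicator measurableSet_Ioi, hint, setLIntegral_const, Real.volume_Ioo,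
      ← ENNReal.ofReal_mul hu.le]
    congr 1
    field_simp

theorem lintegral_indicator_threshold {c : ℝ} (hc : 0 ≤ c) {S : Set ℝ}
    (hS : ∀ u, 0 < u → (u ∈ S ↔ c < u)) :
    ∫⁻ u, S.indicator (fun u => ENNReal.ofReal u) u ∂gauss
      = ENNReal.ofReal (exp (-c ^ 2 / 2) / √(2 * π)) := by
  rw [← lintegral_tail hc, ← lintegral_indicator measurableSet_Ioi]
  refine lintegral_congr fun u => ?_
  rcases le_or_gt u 0 with hu | hu
  · simp [Set.indicator_apply, ENNReal.ofReal_of_nonpos hu]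
  · by_cases h : c < u
    · simp [(hS u hu).2 h, h]
    · rw [indicator_of_notMem (fun h' => h ((hS u hu).1 h')),
        indicator_of_notMem (by simpa using h)]

/-- Exchanging the slope integral with the Gaussian one. -/
theorem lintegral_slopes {m : ℕ} {v : ℝ} (hv : 0 ≤ v) {r : ℝ → (Fin m → ℝ) → ℝ}
    (hr : Measurable (fun p : ℝ × (Fin m → ℝ) => r p.1 p.2)) (hr0 : ∀ u y, 0 ≤ r u y) :
    ∫⁻ u, ∫⁻ y, ENNReal.ofReal (v * u - r u y) ∂gaussPi m ∂gauss
      = ∫⁻ s in Ioo 0 v, ∫⁻ y, ∫⁻ u,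
          {u | r u y < s * u}.indicator (fun u => ENNReal.ofReal u) u ∂gauss ∂gaussPi m := by
  let A : (Fin m → ℝ) → ℝ → ℝ → ℝ≥0∞ := fun y u s =>
    {s | r u y < s * u}.indicator (fun _ => ENNReal.ofReal u) s
  have hm : MeasurableSet {p : ((Fin m → ℝ) × ℝ) × ℝ | r p.1.2 p.1.1 < p.2 * p.1.2} :=
    measurableSet_lt (hr.comp (by fun_prop : Measurable fun p : ((Fin m → ℝ) × ℝ) × ℝ =>
      (p.1.2, p.1.1))) (by fun_prop)
  have hA : Measurable fun p : ((Fin m → ℝ) × ℝ) × ℝ => A p.1.1 p.1.2 p.2 :=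
    (by fun_prop : Measurable fun p : ((Fin m → ℝ) × ℝ) × ℝ => ENNReal.ofReal p.1.2).indicator hm
  rw [lintegral_lintegral_swap (Measurable.aemeasurable (by fun_prop))]
  have h1 : ∀ y, ∫⁻ u, ENNReal.ofReal (v * u - r u y) ∂gauss
      = ∫⁻ s in Ioo 0 v, ∫⁻ u, A y u s ∂gauss := by
    intro y
    rw [lintegral_congr fun u => ofReal_sub_eq_slopes (u := u) hv (hr0 u y)]
    exact lintegral_lintegral_swap (hA.comp (by fun_prop :
      Measurable fun p : ℝ × ℝ => ((y, p.1), p.2))).aemeasurable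
  simp_rw [h1]
  rw [lintegral_lintegral_swap]
  · rfl
  · exact (Measurable.lintegral_prod_right' (f := fun p : ((Fin m → ℝ) × ℝ) × ℝ =>
      A p.1.1 p.2 p.1.2) (hA.comp (by fun_prop : Measurable fun p : ((Fin m → ℝ) × ℝ) × ℝ =>
      ((p.1.1, p.2), p.1.2)))).aemeasurable

theorem lintegral_exp_sumSq_div {m : ℕ} {α : ℝ} (hα : 0 ≤ α) :
    ∫⁻ y, ENNReal.ofReal (exp (-(α * sumSq y)) / √(2 * π)) ∂gaussPi m
      = ENNReal.ofReal (1 / √(2 * π)) * ENNReal.ofReal ((1 / √(1 + 2 * α)) ^ m) := by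
  rw [← lintegral_exp_sumSq hα, ← lintegral_const_mul' _ _ ENNReal.ofReal_ne_top]
  refine lintegral_congr fun y => ?_
  rw [← ENNReal.ofReal_mul (by positivity), one_div_mul_eq_div]

theorem excessModel_zero_one (m : ℕ) (v t : ℝ) :
    excessModel m v t 0 1
      = ∫⁻ u, ∫⁻ y, ENNReal.ofReal (v * u - t * √(sumSq y)) ∂gaussPi (m + 1) ∂gauss := by
  refine lintegral_congr fun u => ?_
  rw [lintegral_gaussPi_succ (by have := measurable_sumSq (m := m + 1); fun_prop)]
  simp [sumSq_cons]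

/-- The excess in orthogonal position. -/
theorem excessModel_indep (m : ℕ) {v t : ℝ} (hv : 0 ≤ v) (ht : 0 ≤ t) :
    excessModel m v t 0 1 = ENNReal.ofReal (1 / √(2 * π)) *
      ∫⁻ s in Ioo 0 v, ENNReal.ofReal ((s / √(s ^ 2 + t ^ 2)) ^ (m + 1)) := by
  have := measurable_sumSq (m := m + 1)
  rw [excessModel_zero_one, lintegral_slopes hv (r := fun _ y => t * √(sumSq y)) (by fun_prop)
    (fun _ y => by positivity), ← lintegral_const_mul' _ _ ENNReal.ofReal_ne_top]
  refine setLIntegral_congr_fun measurableSet_Ioo fun s hs => ?_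
  have hs0 : 0 < s := hs.1
  have h1 : ∀ y : Fin (m + 1) → ℝ,
      ∫⁻ u, {u | t * √(sumSq y) < s * u}.indicator (fun u => ENNReal.ofReal u) u ∂gauss
        = ENNReal.ofReal (exp (-(t ^ 2 / (2 * s ^ 2) * sumSq y)) / √(2 * π)) := by
    intro y
    rw [lintegral_indicator_threshold (c := t * √(sumSq y) / s) (by positivity)
      (fun u _ => by simp [div_lt_iff₀' hs0])]
    congr 3
    rw [div_pow, mul_pow, Real.sq_sqrt (sumSq_nonneg y)]
    field_simp
  simp only [h1]
  rw [lintegral_exp_sumSq_div (by positivity)]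
  congr 2
  congr 1
  have hp : 0 < s ^ 2 + t ^ 2 := by positivity
  rw [show 1 + 2 * (t ^ 2 / (2 * s ^ 2)) = (s ^ 2 + t ^ 2) / s ^ 2 by field_simp,
    Real.sqrt_div hp.le, Real.sqrt_sq hs0.le, one_div_div]

/-- The excess inside the subspace, in any dimension: only slopes above `t` contribute. -/
theorem excessModel_plane_Ioi (m : ℕ) {v t : ℝ} (hv : 0 ≤ v) (ht : 0 ≤ t) :
    excessModel m v t 1 0 = ENNReal.ofReal (1 / √(2 * π)) *
      ∫⁻ s in Ioo 0 v,
        (Ioi t).indicator (fun s => ENNReal.ofReal ((√(s ^ 2 - t ^ 2) / s) ^ m)) s := by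
  have := measurable_sumSq (m := m)
  have h0 : excessModel m v t 1 0
      = ∫⁻ u, ∫⁻ y, ENNReal.ofReal (v * u - t * √(u ^ 2 + sumSq y)) ∂gaussPi m ∂gauss := by
    refine lintegral_congr fun u => ?_
    simp
  rw [h0, lintegral_slopes hv (r := fun u y => t * √(u ^ 2 + sumSq y)) (by fun_prop)
    (fun _ _ => by positivity), ← lintegral_const_mul' _ _ ENNReal.ofReal_ne_top]
  refine setLIntegral_congr_fun measurableSet_Ioo fun s hs => ?_
  have hs0 : 0 < s := hs.1
  rcases le_or_gt s t with hst | hst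
  · rw [indicator_of_notMem (show s ∉ Ioi t from hst.not_gt), mul_zero]
    refine (lintegral_congr fun y => ?_).trans lintegral_zero
    refine (lintegral_congr fun u => ?_).trans lintegral_zero
    simp only [Set.indicator_apply]
    split_ifs with h
    · refine ENNReal.ofReal_of_nonpos (le_of_not_gt fun hu => ?_)
      have h2 : u ≤ √(u ^ 2 + sumSq y) :=
        (le_abs_self u).trans (by rw [← Real.sqrt_sq_eq_abs]
                                  exact Real.sqrt_le_sqrt (by linarith [sumSq_nonneg y]))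
      have : s * u ≤ t * √(u ^ 2 + sumSq y) := mul_le_mul hst h2 hu.le ht
      exact absurd h this.not_gt
    · rfl
  · have hd : 0 < s ^ 2 - t ^ 2 := by nlinarith
    have hq := Real.sqrt_pos.2 hd
    have h1 : ∀ y : Fin m → ℝ,
        ∫⁻ u, {u | t * √(u ^ 2 + sumSq y) < s * u}.indicator (fun u => ENNReal.ofReal u) u ∂gauss
          = ENNReal.ofReal (exp (-(t ^ 2 / (2 * (s ^ 2 - t ^ 2)) * sumSq y)) / √(2 * π)) := by
      intro y
      have hS := sumSq_nonneg y
      rw [lintegral_indicator_threshold (c := t * √(sumSq y) / √(s ^ 2 - t ^ 2)) (by positivity)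
        (fun u hu => ?_)]
      · congr 3
        rw [div_pow, mul_pow, Real.sq_sqrt hS, Real.sq_sqrt hd.le]
        field_simp
      · rw [mem_ofPred_eq, ← pow_lt_pow_iff_left₀ (by positivity) (by positivity) two_ne_zero,
          mul_pow, Real.sq_sqrt (by positivity), div_lt_iff₀ hq,
          ← pow_lt_pow_iff_left₀ (by positivity : (0:ℝ) ≤ t * √(sumSq y)) (by positivity)
            two_ne_zero, mul_pow, mul_pow, mul_pow, Real.sq_sqrt hS, Real.sq_sqrt hd.le]
        constructor <;> intro h <;> nlinarith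
    simp only [h1, indicator_of_mem (show s ∈ Ioi t from hst)]
    rw [lintegral_exp_sumSq_div (by positivity)]
    congr 2
    congr 1
    rw [show 1 + 2 * (t ^ 2 / (2 * (s ^ 2 - t ^ 2))) = s ^ 2 / (s ^ 2 - t ^ 2) by
        field_simp
        ring,
      Real.sqrt_div (sq_nonneg s), Real.sqrt_sq hs0.le, one_div_div]

/-- The excess inside the subspace. -/
theorem excessModel_plane {m : ℕ} (hm : m ≠ 0) {v t : ℝ} (hv : 0 ≤ v) (ht : 0 ≤ t) :
    excessModel m v t 1 0 = ENNReal.ofReal (1 / √(2 * π)) *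
      ∫⁻ s in Ioo 0 v, ENNReal.ofReal ((√(s ^ 2 - t ^ 2) / s) ^ m) := by
  rw [excessModel_plane_Ioi m hv ht]
  congr 1
  refine setLIntegral_congr_fun measurableSet_Ioo fun s hs => ?_
  rcases le_or_gt s t with hst | hst
  · rw [indicator_of_notMem (show s ∉ Ioi t from hst.not_gt), capInt_zero hm hs.1.le hst,
      ENNReal.ofReal_zero]
  · rw [indicator_of_mem (show s ∈ Ioi t from hst)]

theorem phi_nonneg {F : ℝ → ℝ → ℝ} (n : ℕ)
    (hd : ∀ t, 0 < t → ∀ x, HasDerivAt (fun v => F v t) ((x / √(x ^ 2 + t ^ 2)) ^ n) x)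
    (h0 : ∀ t, 0 < t → F 0 t = 0) (ht0 : ∀ v, 0 ≤ v → F v 0 = v)
    {v t : ℝ} (hv : 0 ≤ v) (ht : 0 ≤ t) : 0 ≤ F v t := by
  rcases ht.eq_or_lt with rfl | ht
  · rwa [ht0 v hv]
  · have hmono : MonotoneOn (fun v => F v t) (Icc 0 v) := monotoneOn_of_hasDerivWithinAt_nonneg
      (convex_Icc 0 v) (fun x _ => (hd t ht x).continuousAt.continuousWithinAt)
      (fun x _ => (hd t ht x).hasDerivWithinAt) (fun x hx => by
        rw [interior_Icc] at hx
        exact pow_nonneg (div_nonneg hx.1.le (Real.sqrt_nonneg _)) n)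
    have := hmono (left_mem_Icc.2 hv) (right_mem_Icc.2 hv) hv
    simp only [h0 t ht] at this
    exact this

theorem phi2_nonneg {v t : ℝ} (hv : 0 ≤ v) (ht : 0 ≤ t) : 0 ≤ phi2 v t :=
  phi_nonneg 2 (fun _ h => hasDerivAt_phi2 h) (fun t _ => phi2_zero_left t)
    (fun _ _ => phi2_zero_right) hv ht

theorem phi3_nonneg {v t : ℝ} (hv : 0 ≤ v) (ht : 0 ≤ t) : 0 ≤ phi3 v t :=
  phi_nonneg 3 (fun _ h => hasDerivAt_phi3 h) (fun _ h => phi3_zero_left h)
    (fun _ h => phi3_zero_right h) hv ht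

theorem phi4_nonneg {v t : ℝ} (hv : 0 ≤ v) (ht : 0 ≤ t) : 0 ≤ phi4 v t :=
  phi_nonneg 4 (fun _ h => hasDerivAt_phi4 h) (fun t _ => phi4_zero_left t)
    (fun _ _ => phi4_zero_right) hv ht

theorem phi5_nonneg {v t : ℝ} (hv : 0 ≤ v) (ht : 0 ≤ t) : 0 ≤ phi5 v t :=
  phi_nonneg 5 (fun _ h => hasDerivAt_phi5 h) (fun _ h => phi5_zero_left h)
    (fun _ h => phi5_zero_right h) hv ht

theorem cap3_nonneg {v t : ℝ} (ht : 0 ≤ t) : 0 ≤ cap3 v t := by
  unfold cap3
  split_ifs with h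
  · exact le_rfl
  · have : 0 ≤ v := ht.trans (not_le.1 h).le
    positivity

theorem cap4_nonneg {v t : ℝ} (ht : 0 ≤ t) : 0 ≤ cap4 v t := by
  unfold cap4
  split_ifs with h
  · exact le_rfl
  · have hv : 0 < v := ht.trans_lt (not_le.1 h)
    have h1 : 0 ≤ t / v := div_nonneg ht hv.le
    have h2 : 0 ≤ 4 / 15 * (2 + 17 / 10) - 4 / 35 * (1 - t / v) := by linarith
    positivity

theorem cap5_nonneg {v t : ℝ} (ht : 0 ≤ t) : 0 ≤ cap5 v t := by
  unfold cap5
  split_ifs with h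
  · exact le_rfl
  · have hv : 0 < v := ht.trans_lt (not_le.1 h)
    have : 0 ≤ v - t := by linarith [not_le.1 h]
    positivity

theorem gauss_Ioi_zero : gauss (Ioi 0) = 1 / 2 := by
  have : NullSingletonClass gauss := nullSingletonClass_gaussianReal one_ne_zero
  have hneg : gauss (Iio 0) = gauss (Ioi 0) := by
    conv_lhs => rw [← map_neg_gauss, Measure.map_apply measurable_neg measurableSet_Iio]
    congr 1
    ext x
    simp
  have h := prob_add_prob_compl (μ := gauss) (measurableSet_Ioi (a := (0:ℝ)))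
  rw [compl_Ioi, measure_congr Iio_ae_eq_Iic.symm, hneg, ← mul_two] at h
  rw [ENNReal.eq_div_iff two_ne_zero (by norm_num), mul_comm]
  exact h

/-- The first moment of the norm, read off from the excess in orthogonal position. -/
theorem lintegral_sqrt_sumSq (m : ℕ) {Φ : ℕ → ℝ} {ℓ : ℝ}
    (hΦ : ∀ n : ℕ, excessModel m n 1 0 1 = ENNReal.ofReal (Φ n / √(2 * π)))
    (hΦ0 : ∀ n, 0 ≤ Φ n) (hℓ : Tendsto (fun n : ℕ => (n : ℝ) - Φ n) atTop (𝓝 ℓ)) :
    ∫⁻ y, ENNReal.ofReal √(sumSq y) ∂gaussPi (m + 1) = ENNReal.ofReal (2 * ℓ / √(2 * π)) := by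
  have := measurable_sumSq (m := m + 1)
  set μ := gauss.prod (gaussPi (m + 1)) with hμ
  let h : ℕ → ℝ × (Fin (m + 1) → ℝ) → ℝ≥0∞ := fun n p =>
    ENNReal.ofReal (min ((n : ℝ) * p.1) (√(sumSq p.2)))
  have hL : ∀ n, ∫⁻ p, h n p ∂μ = ENNReal.ofReal ((n - Φ n) / √(2 * π)) := by
    intro n
    have htot : ∫⁻ p, ENNReal.ofReal ((n : ℝ) * p.1) ∂μ
        = ENNReal.ofReal (n / √(2 * π)) := by
      rw [lintegral_prod _ (Measurable.aemeasurable (by fun_prop))]
      simp only [lintegral_const, measure_univ, mul_one, ENNReal.ofReal_mul (Nat.cast_nonneg n)]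
      rw [lintegral_const_mul' _ _ ENNReal.ofReal_ne_top]
      have := lintegral_indicator_threshold (c := 0) le_rfl (S := univ) (fun u hu => by simp [hu])
      simp only [indicator_univ] at this
      rw [this, ← ENNReal.ofReal_mul (Nat.cast_nonneg n)]
      simp [div_eq_mul_inv]
    have hexc : ∫⁻ p, ENNReal.ofReal ((n : ℝ) * p.1 - √(sumSq p.2)) ∂μ
        = ENNReal.ofReal (Φ n / √(2 * π)) := by
      rw [← hΦ, excessModel_zero_one, lintegral_prod _ (Measurable.aemeasurable (by fun_prop))]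
      simp
    have hsplit : ∀ p : ℝ × (Fin (m + 1) → ℝ), ENNReal.ofReal ((n : ℝ) * p.1)
        = h n p + ENNReal.ofReal ((n : ℝ) * p.1 - √(sumSq p.2)) := by
      intro p
      rcases le_total ((n : ℝ) * p.1) (√(sumSq p.2)) with hle | hle
      · simp only [h, min_eq_left hle, ENNReal.ofReal_of_nonpos (sub_nonpos.2 hle), add_zero]
      · simp only [h, min_eq_right hle]
        rw [← ENNReal.ofReal_add (Real.sqrt_nonneg _) (sub_nonneg.2 hle)]
        ring_nf
    rw [lintegral_congr hsplit, lintegral_add_left (by fun_prop), hexc] at htot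
    rw [ENNReal.eq_sub_of_add_eq ENNReal.ofReal_ne_top htot,
      ← ENNReal.ofReal_sub _ (div_nonneg (hΦ0 n) (Real.sqrt_nonneg _)), sub_div]
  have hlim : Tendsto (fun n => ∫⁻ p, h n p ∂μ) atTop
      (𝓝 (∫⁻ p, (Prod.fst ⁻¹' Ioi 0).indicator (fun p => ENNReal.ofReal √(sumSq p.2)) p ∂μ)) := by
    apply lintegral_tendsto_of_tendsto_of_monotone (fun n => (by fun_prop))
    · refine ae_of_all _ fun p i j hij => ?_
      rcases le_or_gt p.1 0 with hp | hp
      · have hi : (i : ℝ) * p.1 ≤ 0 := mul_nonpos_of_nonneg_of_nonpos (Nat.cast_nonneg i) hp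
        simp only [h, ENNReal.ofReal_of_nonpos ((min_le_left _ _).trans hi), zero_le]
      · exact ENNReal.ofReal_le_ofReal (min_le_min_right _
          (mul_le_mul_of_nonneg_right (Nat.cast_le.2 hij) hp.le))
    · refine ae_of_all _ fun p => ?_
      rcases le_or_gt p.1 0 with hp | hp
      · rw [indicator_of_notMem (by simpa using hp)]
        refine tendsto_const_nhds.congr fun n => ?_
        have hn : (n : ℝ) * p.1 ≤ 0 := mul_nonpos_of_nonneg_of_nonpos (Nat.cast_nonneg n) hp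
        simp only [h, ENNReal.ofReal_of_nonpos ((min_le_left _ _).trans hn)]
      · rw [indicator_of_mem (by simpa using hp)]
        apply tendsto_const_nhds.congr'
        filter_upwards [eventually_ge_atTop ⌈√(sumSq p.2) / p.1⌉₊] with n hn
        have : √(sumSq p.2) ≤ n * p.1 := (div_le_iff₀ hp).1 (Nat.ceil_le.1 hn)
        simp only [h, min_eq_right this]
  have hR : ∫⁻ p, (Prod.fst ⁻¹' Ioi 0).indicator (fun p => ENNReal.ofReal √(sumSq p.2)) p ∂μ
      = 1 / 2 * ∫⁻ y, ENNReal.ofReal √(sumSq y) ∂gaussPi (m + 1) := by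
    rw [lintegral_indicator (measurable_fst measurableSet_Ioi), hμ,
      show (Prod.fst ⁻¹' Ioi 0 : Set (ℝ × (Fin (m + 1) → ℝ))) = Ioi 0 ×ˢ univ by
        ext p; simp,
      ← Measure.prod_restrict, Measure.restrict_univ,
      lintegral_prod _ (Measurable.aemeasurable (by fun_prop))]
    simp [gauss_Ioi_zero, mul_comm]
  have h2 : Tendsto (fun n => ∫⁻ p, h n p ∂μ) atTop (𝓝 (ENNReal.ofReal (ℓ / √(2 * π)))) := by
    simp only [hL]
    exact ENNReal.tendsto_ofReal (hℓ.div_const _)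
  have heq := tendsto_nhds_unique hlim h2
  rw [hR] at heq
  rw [show 2 * ℓ / √(2 * π) = 2 * (ℓ / √(2 * π)) by ring, ENNReal.ofReal_mul two_pos.le, ← heq,
    ← mul_assoc, ENNReal.ofReal_ofNat, one_div, ENNReal.mul_inv_cancel two_ne_zero (by norm_num),
    one_mul]

theorem tendsto_sqrt_sub : Tendsto (fun n : ℕ => √((n : ℝ) ^ 2 + 1) - n) atTop (𝓝 0) := by
  have h : Tendsto (fun n : ℕ => √((n : ℝ) ^ 2 + 1) + n) atTop atTop :=
    tendsto_atTop_mono (fun n => le_add_of_nonneg_left (Real.sqrt_nonneg _))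
      tendsto_natCast_atTop_atTop
  refine h.inv_tendsto_atTop.congr fun n => ?_
  have hs : 0 < √((n : ℝ) ^ 2 + 1) := by positivity
  have hsq : √((n : ℝ) ^ 2 + 1) ^ 2 = (n : ℝ) ^ 2 + 1 := Real.sq_sqrt (by positivity)
  have hn : (0:ℝ) ≤ n := Nat.cast_nonneg n
  simp only [Pi.inv_apply]
  field_simp
  linarith

theorem tendsto_inv_sqrt : Tendsto (fun n : ℕ => (√((n : ℝ) ^ 2 + 1))⁻¹) atTop (𝓝 0) :=
  (tendsto_atTop_mono (fun n : ℕ => by
    calc (n : ℝ) = √((n : ℝ) ^ 2) := (Real.sqrt_sq (Nat.cast_nonneg n)).symm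
      _ ≤ _ := Real.sqrt_le_sqrt (by linarith)) tendsto_natCast_atTop_atTop).inv_tendsto_atTop

theorem tendsto_arctan_nat : Tendsto (fun n : ℕ => arctan n) atTop (𝓝 (π / 2)) :=
  (tendsto_arctan_atTop.mono_right nhdsWithin_le_nhds).comp tendsto_natCast_atTop_atTop

theorem tendsto_phi2 : Tendsto (fun n : ℕ => (n : ℝ) - phi2 n 1) atTop (𝓝 (π / 2)) :=
  tendsto_arctan_nat.congr fun n => by simp [phi2]

theorem tendsto_phi3 : Tendsto (fun n : ℕ => (n : ℝ) - phi3 n 1) atTop (𝓝 2) := by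
  have h := ((tendsto_sqrt_sub.add tendsto_inv_sqrt).const_sub 2)
  rw [add_zero, sub_zero] at h
  exact h.congr fun n => by simp [phi3]; ring

theorem tendsto_phi4 : Tendsto (fun n : ℕ => (n : ℝ) - phi4 n 1) atTop (𝓝 (3 * π / 4)) := by
  have hg := tendsto_inv_sqrt
  have h1 : Tendsto (fun n : ℕ => (n : ℝ) / (2 * ((n : ℝ) ^ 2 + 1))) atTop (𝓝 0) := by
    refine squeeze_zero (fun n => by positivity) (fun n => ?_) hg
    have hs : 0 < √((n : ℝ) ^ 2 + 1) := by positivity
    have hsq : √((n : ℝ) ^ 2 + 1) ^ 2 = (n : ℝ) ^ 2 + 1 := Real.sq_sqrt (by positivity)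
    rw [inv_eq_one_div, div_le_div_iff₀ (by positivity) hs]
    nlinarith [Real.le_sqrt_of_sq_le (show (n : ℝ) ^ 2 ≤ (n : ℝ) ^ 2 + 1 by linarith)]
  have h := (tendsto_arctan_nat.const_mul (3 / 2)).sub h1
  rw [sub_zero, show 3 / 2 * (π / 2) = 3 * π / 4 by ring] at h
  exact h.congr fun n => by simp [phi4]; ring

theorem tendsto_phi5 : Tendsto (fun n : ℕ => (n : ℝ) - phi5 n 1) atTop (𝓝 (8 / 3)) := by
  have h := ((tendsto_sqrt_sub.add (tendsto_inv_sqrt.const_mul 2)).sub
    ((tendsto_inv_sqrt.pow 3).div_const 3)).const_sub (8 / 3)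
  simp only [mul_zero, add_zero, zero_pow three_ne_zero, zero_div, sub_zero] at h
  refine h.congr fun n => ?_
  simp [phi5]
  ring

end Vale.Agent.P226
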