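import Vale.Agent.P226.Defs
import Vale.Agent.P226.RadialEval

/-!
# Cap formulas and norm means over the basic definitions (P226)

The radial lemmas restated for `gs`, `nrm`, `fin` and `fperp`: the in-plane cap formula, the
worst-direction bound by the perpendicular cap, and the mean norm in dimensions `1, …, 7`.
-/

namespace Vale.Agent.P226

open MeasureTheory ProbabilityTheory Set Filter
open Real (sqrt)
open scoped ENNReal RealInnerProductSpace Topology

theorem nrm_eq {k : ℕ} (y : Fin k → ℝ) : nrm y = sqrt (sumSq y) := rfl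

theorem gs_eq (k : ℕ) : gs k = gaussPi k := rfl

theorem phi0_eq : phi0 = 1 / sqrt (2 * Real.pi) := by rw [phi0, one_div]

theorem phi0_nonneg' : 0 ≤ phi0 := by rw [phi0_eq]; positivity

/-- A nonnegative continuous integrand as a lower integral over the open interval. -/
theorem lintegral_Ioo_eq_interval {f : ℝ → ℝ} {a b : ℝ} (hab : a ≤ b)
    (hc : ContinuousOn f (Icc a b)) (hf : ∀ x ∈ Ioo a b, 0 ≤ f x) :
    ∫⁻ x in Ioo a b, ENNReal.ofReal (f x) = ENNReal.ofReal (∫ x in a..b, f x) := by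
  rw [intervalIntegral.integral_of_le hab, integral_Ioc_eq_integral_Ioo,
    ofReal_integral_eq_lintegral_ofReal (hc.integrableOn_Icc.mono_set Ioo_subset_Icc_self)
      ((ae_restrict_mem measurableSet_Ioo).mono hf)]

theorem continuous_perpIntegrand (r : ℕ) {t : ℝ} (ht : 0 < t) :
    Continuous fun s => (s / sqrt (s ^ 2 + t ^ 2)) ^ r :=
  (continuous_id.div (by fun_prop) fun s => (Real.sqrt_pos.2 (by positivity)).ne').pow r

theorem ofReal_fperp (r : ℕ) {h t : ℝ} (hh : 0 ≤ h) (ht : 0 < t) :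
    ∫⁻ s in Ioo 0 h, ENNReal.ofReal ((s / sqrt (s ^ 2 + t ^ 2)) ^ r)
      = ENNReal.ofReal (fperp r h t) :=
  lintegral_Ioo_eq_interval hh (continuous_perpIntegrand r ht).continuousOn
    fun _ hx => pow_nonneg (div_nonneg hx.1.le (Real.sqrt_nonneg _)) r

theorem fperp_nonneg' (r : ℕ) {h t : ℝ} (hh : 0 ≤ h) : 0 ≤ fperp r h t :=
  intervalIntegral.integral_nonneg hh fun _ hx =>
    pow_nonneg (div_nonneg hx.1 (Real.sqrt_nonneg _)) r

theorem integral_posPart_eq {α : Type*} [MeasurableSpace α] {μ : Measure α} {f : α → ℝ}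
    (hf : Measurable f) :
    ∫ x, max (f x) 0 ∂μ = (∫⁻ x, ENNReal.ofReal (f x) ∂μ).toReal := by
  rw [integral_eq_lintegral_of_nonneg_ae (f := fun x => max (f x) 0)
    (ae_of_all _ fun x => le_max_right _ _) (hf.max measurable_const).aestronglyMeasurable]
  simp

/-- The in-plane cap formula. -/
theorem inplane_formula (n : ℕ) {p t : ℝ} (hp : 0 ≤ p) (ht : 0 < t) :
    ∫ y, max (p * y 0 - t * nrm y) 0 ∂(gs (n + 1)) = phi0 * fin n p t := by
  have hms := measurable_sumSq (m := n + 1)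
  have hmodel : ∫⁻ y, ENNReal.ofReal (p * y 0 - t * nrm y) ∂gs (n + 1) = excessModel n p t 1 0 := by
    simp only [nrm_eq, gs_eq]
    rw [lintegral_gaussPi_succ (by fun_prop)]
    refine lintegral_congr fun u => ?_
    simp [sumSq_cons]
  rw [integral_posPart_eq (by simp only [nrm_eq]; fun_prop), hmodel,
    excessModel_plane_Ioi n hp ht.le, setLIntegral_indicator measurableSet_Ioi, ← phi0_eq,
    ENNReal.toReal_mul, ENNReal.toReal_ofReal phi0_nonneg']
  congr 1
  rcases le_or_gt p t with hpt | hpt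
  · have : Ioi t ∩ Ioo 0 p = ∅ :=
      eq_empty_of_forall_notMem fun s hs => lt_irrefl t (hs.1.trans (hs.2.2.trans_le hpt))
    simp [this, fin, hpt.not_gt]
  · have hint : Ioi t ∩ Ioo 0 p = Ioo t p := by
      ext s
      simp only [mem_inter_iff, mem_Ioi, mem_Ioo]
      exact ⟨fun h => ⟨h.1, h.2.2⟩, fun h => ⟨h.1, ht.trans h.1, h.2⟩⟩
    have heq : ∀ s ∈ Ioo t p, ENNReal.ofReal ((sqrt (s ^ 2 - t ^ 2) / s) ^ n)
        = ENNReal.ofReal (sqrt (1 - t ^ 2 / s ^ 2) ^ n) := by
      intro s hs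
      have hs0 : 0 < s := ht.trans hs.1
      rw [show 1 - t ^ 2 / s ^ 2 = (s ^ 2 - t ^ 2) / s ^ 2 by field_simp,
        Real.sqrt_div' _ (sq_nonneg s), Real.sqrt_sq hs0.le]
    rw [hint, setLIntegral_congr_fun measurableSet_Ioo heq, lintegral_Ioo_eq_interval hpt.le ?_
      (fun s _ => by positivity), ENNReal.toReal_ofReal
        (intervalIntegral.integral_nonneg hpt.le fun s _ => by positivity), fin, if_pos hpt]
    intro s hs
    have hs0 : s ≠ 0 := (ht.trans_le hs.1).ne'
    exact (((continuousAt_const.sub (continuousAt_const.div (continuousAt_id.pow 2)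
      (pow_ne_zero 2 hs0))).sqrt).pow n).continuousWithinAt

/-- Among all directions, the perpendicular one maximises the cap. -/
theorem perp_bound (n : ℕ) {h t c s : ℝ} (hh : 0 ≤ h) (ht : 0 < t) (hcs : c ^ 2 + s ^ 2 = 1) :
    ∫ z : ℝ × (Fin (n + 1) → ℝ), max (h * (c * z.2 0 + s * z.1) - t * nrm z.2) 0
        ∂((gaussianReal 0 1).prod (gs (n + 1))) ≤ phi0 * fperp (n + 1) h t := by
  have hms := measurable_sumSq (m := n + 1)
  have hrhs : 0 ≤ phi0 * fperp (n + 1) h t :=
    mul_nonneg phi0_nonneg' (fperp_nonneg' (n + 1) hh)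
  rw [integral_posPart_eq (by simp only [nrm_eq]; fun_prop)]
  rcases hh.eq_or_lt with rfl | hh'
  · have hzero : ∀ z : ℝ × (Fin (n + 1) → ℝ),
        ENNReal.ofReal (0 * (c * z.2 0 + s * z.1) - t * nrm z.2) = 0 := fun z => by
      refine ENNReal.ofReal_of_nonpos ?_
      rw [zero_mul, zero_sub, neg_nonpos]
      exact mul_nonneg ht.le (Real.sqrt_nonneg _)
    rw [lintegral_congr hzero, lintegral_zero, ENNReal.toReal_zero]
    exact hrhs
  let b : Fin (n + 2) → EuclideanSpace ℝ (Fin (n + 2)) := fun i => EuclideanSpace.single i 1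
  have hu : ‖c • b 1 + s • b 0‖ = 1 := by
    rw [norm_eq_sqrt_real_inner, inner_add_add_self, real_inner_self_eq_norm_sq,
      real_inner_self_eq_norm_sq]
    simp [b, norm_smul, real_inner_smul_left, real_inner_smul_right,
      EuclideanSpace.inner_single_left]
    linarith
  have hcoords := lintegral_coords (u := c • b 1 + s • b 0) (e := modelFrame n 0 1) hu
    (orthonormal_modelFrame (by norm_num)) (a := -c) (b := s) (by rw [neg_sq]; exact hcs)
    (by simp [b, modelFrame, inner_add_left, real_inner_smul_left,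
      EuclideanSpace.inner_single_left])
    (fun j => by simp [b, modelFrame, inner_add_left, real_inner_smul_left,
      EuclideanSpace.inner_single_left, Fin.ext_iff])
    (G := fun x r => ENNReal.ofReal (h * x - t * sqrt r)) (by fun_prop)
  have hmodel : ∫⁻ z : ℝ × (Fin (n + 1) → ℝ),
      ENNReal.ofReal (h * (c * z.2 0 + s * z.1) - t * nrm z.2)
        ∂((gaussianReal 0 1).prod (gs (n + 1))) = excessModel n h t (-c) s := by
    rw [excessModel, ← hcoords, ← map_pi_eq_stdGaussian, lintegral_map (by fun_prop) (by fun_prop),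
      lintegral_gaussPi_succ (by fun_prop)]
    simp only [nrm_eq, gs_eq]
    rw [lintegral_prod _ (Measurable.aemeasurable (by fun_prop))]
    refine lintegral_congr fun w => lintegral_congr fun y => ?_
    simp [b, modelFrame, sumSq, Fin.sum_univ_succ, inner_add_left, real_inner_smul_left,
      EuclideanSpace.inner_single_left]
  rw [hmodel]
  refine ENNReal.toReal_le_of_le_ofReal hrhs ?_
  refine (excessModel_le_indep n hh' ht.le (by rw [neg_sq]; exact hcs)).trans (le_of_eq ?_)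
  rw [excessModel_indep n hh ht.le, ofReal_fperp (n + 1) hh ht, ← phi0_eq,
    ← ENNReal.ofReal_mul phi0_nonneg']

theorem hasDerivAt_div_sqrt (x : ℝ) :
    HasDerivAt (fun v => v / sqrt (v ^ 2 + 1)) (1 / sqrt (x ^ 2 + 1) ^ 3) x := by
  have hp : 0 < x ^ 2 + 1 := by positivity
  have hq := hasDerivAt_q 1 x (by simpa using hp)
  simp only [one_pow] at hq
  refine ((hasDerivAt_id' x).div hq (Real.sqrt_pos.2 hp).ne').congr_deriv ?_
  have := Real.sqrt_pos.2 hp
  have hsq := Real.sq_sqrt hp.le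
  field_simp
  linear_combination hsq

/-- The reduction formula for the perpendicular cap. -/
theorem fperp_recurrence (k : ℕ) {v : ℝ} (hv : 0 ≤ v) :
    ((k : ℝ) + 1) * fperp (k + 3) v 1
      = ((k : ℝ) + 2) * fperp (k + 1) v 1 - v * (v / sqrt (v ^ 2 + 1)) ^ (k + 1) := by
  have hd : ∀ x ∈ uIcc 0 v, HasDerivAt (fun y => y * (y / sqrt (y ^ 2 + 1)) ^ (k + 1))
      (((k : ℝ) + 2) * (x / sqrt (x ^ 2 + 1)) ^ (k + 1)
        - ((k : ℝ) + 1) * (x / sqrt (x ^ 2 + 1)) ^ (k + 3)) x := by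
    intro x _
    refine ((hasDerivAt_id' x).mul ((hasDerivAt_div_sqrt x).pow (k + 1))).congr_deriv ?_
    have hp : 0 < x ^ 2 + 1 := by positivity
    have hq := Real.sqrt_pos.2 hp
    have hz : x * (1 / sqrt (x ^ 2 + 1) ^ 3)
        = x / sqrt (x ^ 2 + 1) * (1 - (x / sqrt (x ^ 2 + 1)) ^ 2) := by
      have hsq := Real.sq_sqrt hp.le
      field_simp
      linear_combination -x * hsq
    simp only [Pi.pow_apply]
    push_cast
    linear_combination ((k : ℝ) + 1) * (x / sqrt (x ^ 2 + 1)) ^ k * hz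
  have hI : ∀ r : ℕ, IntervalIntegrable (fun x => (x / sqrt (x ^ 2 + (1:ℝ) ^ 2)) ^ r) volume 0 v :=
    fun r => (continuous_perpIntegrand r one_pos).intervalIntegrable _ _
  simp only [one_pow] at hI
  have h := intervalIntegral.integral_eq_sub_of_hasDerivAt hd
    (((hI _).const_mul _).sub ((hI _).const_mul _))
  rw [intervalIntegral.integral_sub ((hI _).const_mul _) ((hI _).const_mul _),
    intervalIntegral.integral_const_mul, intervalIntegral.integral_const_mul] at h
  simp only [fperp, one_pow]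
  simp only [zero_mul, sub_zero] at h
  linarith

theorem tendsto_defect_gap (r : ℕ) :
    Tendsto (fun n : ℕ => (n : ℝ) * (1 - ((n : ℝ) / sqrt ((n : ℝ) ^ 2 + 1)) ^ r)) atTop (𝓝 0) := by
  have hle : ∀ n : ℕ, (n : ℝ) ≤ sqrt ((n : ℝ) ^ 2 + 1) := fun n =>
    Real.le_sqrt_of_sq_le (by linarith)
  have hu := tendsto_sqrt_sub.const_mul (r : ℝ)
  rw [mul_zero] at hu
  refine squeeze_zero (fun n => ?_) (fun n => ?_) hu
  · have hq : 0 < sqrt ((n : ℝ) ^ 2 + 1) := by positivity
    exact mul_nonneg n.cast_nonneg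
      (sub_nonneg.2 (pow_le_one₀ (by positivity) ((div_le_one hq).2 (hle n))))
  · have hq : 0 < sqrt ((n : ℝ) ^ 2 + 1) := by positivity
    set z := (n : ℝ) / sqrt ((n : ℝ) ^ 2 + 1) with hz
    have hz0 : 0 ≤ z := by positivity
    have hz1 : z ≤ 1 := (div_le_one hq).2 (hle n)
    have hb := one_add_mul_le_pow (show (-2:ℝ) ≤ z - 1 by linarith) r
    rw [add_sub_cancel] at hb
    have h1 : (n : ℝ) * (1 - z) = z * (sqrt ((n : ℝ) ^ 2 + 1) - n) := by
      rw [hz]; field_simp
    calc (n : ℝ) * (1 - z ^ r) ≤ (n : ℝ) * ((r : ℝ) * (1 - z)) :=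
          mul_le_mul_of_nonneg_left (by linarith) n.cast_nonneg
      _ = (r : ℝ) * (z * (sqrt ((n : ℝ) ^ 2 + 1) - n)) := by rw [← h1]; ring
      _ ≤ (r : ℝ) * (sqrt ((n : ℝ) ^ 2 + 1) - n) := by
          refine mul_le_mul_of_nonneg_left ?_ r.cast_nonneg
          exact mul_le_of_le_one_left (sub_nonneg.2 (hle n)) hz1

theorem fperp_one {v : ℝ} : fperp 1 v 1 = sqrt (v ^ 2 + 1) - 1 := by
  have h := intervalIntegral.integral_eq_sub_of_hasDerivAt
    (f := fun y => sqrt (y ^ 2 + 1 ^ 2)) (f' := fun x => (x / sqrt (x ^ 2 + 1 ^ 2)) ^ 1)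
    (a := 0) (b := v) (fun x _ => by simpa only [pow_one] using hasDerivAt_q 1 x (by positivity))
    ((continuous_perpIntegrand 1 one_pos).intervalIntegrable _ _)
  rw [fperp, h]
  simp

theorem fperp_two {v : ℝ} : fperp 2 v 1 = phi2 v 1 := by
  have h := intervalIntegral.integral_eq_sub_of_hasDerivAt
    (a := 0) (b := v) (fun x _ => hasDerivAt_phi2 one_pos x)
    ((continuous_perpIntegrand 2 one_pos).intervalIntegrable _ _)
  rw [fperp, h, phi2_zero_left, sub_zero]

theorem tendsto_fperp_one : Tendsto (fun n : ℕ => (n : ℝ) - fperp 1 n 1) atTop (𝓝 1) := by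
  have h := tendsto_sqrt_sub.const_sub 1
  rw [sub_zero] at h
  exact h.congr fun n => by rw [fperp_one]; ring

theorem tendsto_fperp_two : Tendsto (fun n : ℕ => (n : ℝ) - fperp 2 n 1) atTop (𝓝 (Real.pi / 2)) :=
  tendsto_phi2.congr fun n => by rw [fperp_two]

theorem tendsto_fperp_step (k : ℕ) {ℓ : ℝ}
    (h : Tendsto (fun n : ℕ => (n : ℝ) - fperp (k + 1) n 1) atTop (𝓝 ℓ)) :
    Tendsto (fun n : ℕ => (n : ℝ) - fperp (k + 3) n 1) atTop
      (𝓝 (((k : ℝ) + 2) / ((k : ℝ) + 1) * ℓ)) := by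
  have h' := ((h.const_mul ((k : ℝ) + 2)).sub (tendsto_defect_gap (k + 1))).div_const ((k : ℝ) + 1)
  rw [sub_zero, mul_div_right_comm] at h'
  refine h'.congr fun n => ?_
  have hk : (k : ℝ) + 1 ≠ 0 := by positivity
  rw [div_eq_iff hk]
  linear_combination fperp_recurrence k (Nat.cast_nonneg n)

theorem norm_mean_of_tendsto (m : ℕ) {ℓ : ℝ}
    (hℓ : Tendsto (fun n : ℕ => (n : ℝ) - fperp (m + 1) n 1) atTop (𝓝 ℓ)) (hℓ0 : 0 ≤ ℓ) :
    ∫ y, nrm y ∂gs (m + 1) = phi0 * (2 * ℓ) := by
  have hms := measurable_sumSq (m := m + 1)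
  simp only [nrm_eq, gs_eq]
  rw [integral_eq_lintegral_of_nonneg_ae (ae_of_all _ fun y => Real.sqrt_nonneg _)
      (Measurable.aestronglyMeasurable (by fun_prop)),
    lintegral_sqrt_sumSq m (Φ := fun n => fperp (m + 1) n 1) (fun n => by
      rw [excessModel_indep m (Nat.cast_nonneg n) zero_le_one,
        ofReal_fperp (m + 1) (Nat.cast_nonneg n) one_pos,
        ← ENNReal.ofReal_mul (by positivity), one_div_mul_eq_div])
      (fun n => fperp_nonneg' (m + 1) (Nat.cast_nonneg n)) hℓ,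
    ENNReal.toReal_ofReal (by positivity), phi0_eq, one_div_mul_eq_div]

/-- The mean Euclidean norm of a standard Gaussian vector in dimensions `1, …, 7`. -/
theorem norm_mean (r : ℕ) (hr : 1 ≤ r ∧ r ≤ 7) :
    ∫ y, nrm y ∂(gs r) =
      phi0 * (![2, Real.pi, 4, 3 * Real.pi / 2, 16 / 3, 15 * Real.pi / 8, 32 / 5]
        ⟨r - 1, by omega⟩) := by
  have h1 := tendsto_fperp_one
  have h2 := tendsto_fperp_two
  have h3 := tendsto_fperp_step 0 h1
  have h4 := tendsto_fperp_step 1 h2
  have h5 := tendsto_fperp_step 2 h3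
  have h6 := tendsto_fperp_step 3 h4
  have h7 := tendsto_fperp_step 4 h5
  have hpi := Real.pi_pos
  obtain ⟨hr1, hr7⟩ := hr
  interval_cases r
  · rw [norm_mean_of_tendsto 0 h1 zero_le_one]; congr 1; norm_num
  · rw [norm_mean_of_tendsto 1 h2 (by positivity)]; congr 1; norm_num; ring
  · rw [norm_mean_of_tendsto 2 h3 (by positivity)]; congr 1; norm_num
  · rw [norm_mean_of_tendsto 3 h4 (by positivity)]; congr 1; norm_num; ring
  · rw [norm_mean_of_tendsto 4 h5 (by positivity)]; congr 1; norm_num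
  · rw [norm_mean_of_tendsto 5 h6 (by positivity)]; congr 1; norm_num; ring
  · rw [norm_mean_of_tendsto 6 h7 (by positivity)]; congr 1; norm_num

end Vale.Agent.P226
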