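import Vale.Agent.P226.Offset

/-!
# The offset cap in a four-dimensional space (P226)

The closed upper bound `cap4` increases with slope at most `201 / 200`, which gives the norms-only
branch `width_le_T5n` for five vectors.
-/

namespace Vale.Agent.P226

open MeasureTheory ProbabilityTheory Set Real
open scoped ENNReal RealInnerProductSpace

/-- The slope of `cap4` in its first argument, as a polynomial estimate. -/
theorem cap4_slope_le {y : ℝ} (h0 : 0 ≤ y) (h1 : y ≤ 1) :
    3 / (2 * √(17 / 10)) * (√y * y *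
      (y * (4 / 15 * (2 + 17 / 10)) - 4 / 35 * y ^ 2
        + (1 - y) * (5 / 2 * (4 / 15 * (2 + 17 / 10)) - 7 / 2 * (4 / 35) * y))) ≤ 201 / 200 := by
  set P := y * (4 / 15 * (2 + 17 / 10)) - 4 / 35 * y ^ 2
    + (1 - y) * (5 / 2 * (4 / 15 * (2 + 17 / 10)) - 7 / 2 * (4 / 35) * y) with hP
  have hP0 : 0 ≤ P := by
    have h2 : 0 ≤ y * (4 / 15 * (2 + 17 / 10)) - 4 / 35 * y ^ 2 := by nlinarith
    have h3 : 0 ≤ 5 / 2 * (4 / 15 * (2 + 17 / 10)) - 7 / 2 * (4 / 35) * y := by nlinarith
    have := mul_nonneg (sub_nonneg.2 h1) h3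
    linarith
  have hs : √y ≤ (1 + y) / 2 := by
    nlinarith [sq_nonneg (√y - 1), Real.sq_sqrt h0]
  have hg : (1 + y) / 2 * y * P ≤ 873 / 1000 := by
    rw [hP]
    nlinarith [mul_nonneg h0 (sub_nonneg.2 h1), mul_nonneg (mul_nonneg h0 h0) (sub_nonneg.2 h1),
      mul_nonneg h0 (mul_nonneg (sub_nonneg.2 h1) (sub_nonneg.2 h1)),
      mul_nonneg (mul_nonneg h0 h0) (mul_nonneg h0 (sub_nonneg.2 h1)),
      mul_nonneg (mul_nonneg h0 h0) (mul_nonneg (sub_nonneg.2 h1) (sub_nonneg.2 h1))]
  have hc : (13038 / 10000 : ℝ) ≤ √(17 / 10) := Real.le_sqrt_of_sq_le (by norm_num)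
  have hk0 : 0 ≤ 3 / (2 * √(17 / 10 : ℝ)) := by positivity
  have hk : 3 / (2 * √(17 / 10 : ℝ)) ≤ 3 / (2 * (13038 / 10000)) :=
    div_le_div_of_nonneg_left (by norm_num) (by norm_num) (by linarith)
  calc 3 / (2 * √(17 / 10)) * (√y * y * P)
      ≤ 3 / (2 * √(17 / 10)) * ((1 + y) / 2 * y * P) := by gcongr
    _ ≤ 3 / (2 * √(17 / 10)) * (873 / 1000) := by gcongr
    _ ≤ 3 / (2 * (13038 / 10000)) * (873 / 1000) := by gcongr
    _ ≤ 201 / 200 := by norm_num

/-- `cap4` increases with slope at most `201 / 200`. -/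
theorem cap4_sub_le {v v' t : ℝ} (ht : 0 ≤ t) (h' : 0 < v') (h : v' ≤ v) :
    cap4 v t ≤ cap4 v' t + 201 / 200 * (v - v') := by
  have hn := cap4_nonneg (v := v') ht
  by_cases hv : v ≤ t
  · rw [cap4, if_pos hv]; linarith
  push Not at hv
  let f : ℝ → ℝ := fun w => 3 * w / (2 * √(17 / 10)) *
      ((1 - t / w) ^ 2 * √(1 - t / w) * (4 / 15 * (2 + 17 / 10) - 4 / 35 * (1 - t / w)))
  set w₀ := max v' t
  have hw0 : 0 < w₀ := h'.trans_le (le_max_left _ _)
  have hw0v : w₀ ≤ v := max_le h hv.le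
  have hanti : AntitoneOn (fun w => f w - 201 / 200 * w) (Icc w₀ v) := by
    apply antitoneOn_of_hasDerivWithinAt_nonpos (convex_Icc w₀ v)
      (f' := fun w => 3 / (2 * √(17 / 10)) * (√(1 - t / w) * (1 - t / w) *
        ((1 - t / w) * (4 / 15 * (2 + 17 / 10)) - 4 / 35 * (1 - t / w) ^ 2
          + (1 - (1 - t / w)) * (5 / 2 * (4 / 15 * (2 + 17 / 10))
            - 7 / 2 * (4 / 35) * (1 - t / w)))) - 201 / 200)
    · intro w hw
      have hw' : w ≠ 0 := (hw0.trans_le hw.1).ne'
      have hdiv : ContinuousAt (fun w => t / w) w := continuousAt_const.div continuousAt_id hw'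
      exact ((ContinuousAt.mul (by fun_prop) (((hdiv.const_sub 1).pow 2).mul
        (hdiv.const_sub 1).sqrt |>.mul (((hdiv.const_sub 1).const_mul _).const_sub _))).sub
          (by fun_prop)).continuousWithinAt
    · intro w hw
      rw [interior_Icc] at hw
      have hw' : 0 < w := hw0.trans hw.1
      have htw : t < w := (le_max_right v' t).trans_lt hw.1
      have hx : t / w < 1 := (div_lt_one hw').2 htw
      have hdiv : HasDerivAt (fun w => t / w) (-t / w ^ 2) w :=
        ((hasDerivAt_const w t).div (hasDerivAt_id' w) hw'.ne').congr_deriv (by ring)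
      refine HasDerivAt.hasDerivWithinAt ?_
      have hG := (((hasDerivAt_pow_mul_sqrt_one_sub 1 hx).comp w hdiv).const_mul
        (4 / 15 * (2 + 17 / 10) : ℝ)).sub
          (((hasDerivAt_pow_mul_sqrt_one_sub 2 hx).comp w hdiv).const_mul (4 / 35 : ℝ))
      have hF := (((hasDerivAt_id' w).const_mul (3 / (2 * √(17 / 10)))).mul hG).sub
        ((hasDerivAt_id' w).const_mul (201 / 200))
      refine (hF.congr_of_eventuallyEq (Filter.Eventually.of_forall fun u => ?_)).congr_deriv ?_
      · simp only [f, Pi.sub_apply, Pi.mul_apply, Function.comp_apply]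
        ring
      · simp only [Pi.sub_apply, Function.comp_apply]
        have hy : 1 - (1 - t / w) = t / w := by ring
        rw [hy]
        have hc : 0 < √(17 / 10 : ℝ) := by positivity
        push_cast
        field_simp
        ring
    · intro w hw
      rw [interior_Icc] at hw
      have hw' : 0 < w := hw0.trans hw.1
      have htw : t ≤ w := (le_max_right v' t).trans hw.1.le
      have h1 : 0 ≤ 1 - t / w := sub_nonneg.2 ((div_le_one hw').2 htw)
      have h2 : 1 - t / w ≤ 1 := by linarith [div_nonneg ht hw'.le]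
      linarith [cap4_slope_le h1 h2]
  have hmono := hanti (left_mem_Icc.2 hw0v) (right_mem_Icc.2 hw0v) hw0v
  have hfv : cap4 v t = f v := by rw [cap4, if_neg (not_le.2 hv)]
  have hfw : f w₀ = cap4 v' t := by
    by_cases hv' : v' ≤ t
    · have e : w₀ = t := max_eq_right hv'
      rw [cap4, if_pos hv', e]
      simp [f, div_self (h'.trans_le hv').ne']
    · push Not at hv'
      rw [cap4, if_neg (not_le.2 hv'), show w₀ = v' from max_eq_left hv'.le]
  simp only at hmono
  have : v' ≤ w₀ := le_max_left _ _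
  rw [hfv, ← hfw]
  linarith

section Space

variable {E : Type*} [NormedAddCommGroup E] [InnerProductSpace ℝ E] [FiniteDimensional ℝ E]
  [MeasurableSpace E] [BorelSpace E]

/-- The offset cap over a four-dimensional space. -/
theorem excess_projNorm_le_offset4 (V : Submodule ℝ E) (hV : Module.finrank ℝ V = 4) (z : E)
    {t : ℝ} (ht : 0 ≤ t) (hv : 0 < ‖V.starProjection z‖) :
    excess z (fun g => t * projNorm V g) ≤ cap4 ‖V.starProjection z‖ t
      + ‖z - V.starProjection z‖ ^ 2 / (2 * ‖V.starProjection z‖) := by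
  have hz : 0 < ‖z‖ := hv.trans_le (V.norm_starProjection_apply_le z)
  refine excess_le_of_lintegral z ((measurable_projNorm V).const_mul t)
    (add_nonneg (cap4_nonneg ht) (by positivity)) ?_
  have hu : ‖‖z‖⁻¹ • z‖ = 1 := by simp [norm_smul, hz.ne']
  have ha : ‖V.starProjection (‖z‖⁻¹ • z)‖ = ‖V.starProjection z‖ / ‖z‖ := by
    rw [map_smul, norm_smul, norm_inv, norm_norm, inv_mul_eq_div]
  have hab : (‖V.starProjection z‖ / ‖z‖) ^ 2 + (‖z - V.starProjection z‖ / ‖z‖) ^ 2 = 1 := by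
    rw [div_pow, div_pow, ← add_div, norm_proj_sq_add, div_self (by positivity)]
  have hcap : excessModel 3 ‖V.starProjection z‖ t 1 0
      ≤ ENNReal.ofReal (cap4 ‖V.starProjection z‖ t / √(2 * π)) := by
    rw [excessModel_plane three_ne_zero hv.le ht]
    refine (mul_le_mul_right (calc_cap4 hv.le ht) _).trans_eq ?_
    rw [← ENNReal.ofReal_mul (by positivity), one_div_mul_eq_div]
  have heq := lintegral_excess V (m := 3) hV hu ‖z‖ t ha hab
  calc ∫⁻ g, ENNReal.ofReal (⟪z, g⟫ - t * projNorm V g) ∂stdGaussian E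
      = excessModel 3 ‖z‖ t (‖V.starProjection z‖ / ‖z‖) (‖z - V.starProjection z‖ / ‖z‖) := by
        rw [← heq]
        refine lintegral_congr fun g => ?_
        rw [real_inner_smul_left, ← mul_assoc, mul_inv_cancel₀ hz.ne', one_mul]
    _ ≤ _ := excessModel_offset_of_slab 3 hv (norm_nonneg _) hab (mul_div_cancel₀ _ hz.ne')
        (mul_div_cancel₀ _ hz.ne') (cap4_nonneg ht) hcap
        (fun _ hs => lintegral_cone_slab_three hv hs t)

variable {ι : Type*} [Fintype ι] [Nonempty ι] [DecidableEq ι]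

/-- The norms-only branch for five vectors, with slope constant `201 / 200`. -/
theorem width_le_T5n (z : ι → E) (hE : 4 ≤ Module.finrank ℝ E) (hz : ∑ i, z i = 0)
    (hob : ∀ i j, i ≠ j → ⟪z i, z j⟫ ≤ 0) {s : Finset ι} (hs : s.card = 5)
    {x : ℝ} (hx : x = (∑ j ∈ sᶜ, ‖z j‖ ^ 2) / 25) (hxs : ∀ i ∈ s, x < ‖z i‖ ^ 2)
    {t : ℝ} (ht : 0 ≤ t) :
    width z ≤ 3 * π / 2 * t
      + ∑ i ∈ s, (cap4 √(‖z i‖ ^ 2 - x) t + 201 / 200 * (x / (2 * √(‖z i‖ ^ 2 - x))))
      + ∑ j ∈ sᶜ, phi4 ‖z j‖ t := by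
  obtain ⟨V, hV, hmem⟩ := exists_submodule_mem_centred z s (n := 4) hs hE
  norm_num at hmem
  set c := (1 / 5 : ℝ) • ∑ i ∈ s, z i with hc
  have hperp : ∀ i ∈ s, ‖z i - V.starProjection (z i)‖ ^ 2 ≤ x := by
    intro i hi
    have hfix : V.starProjection (z i - c) = z i - c :=
      Submodule.starProjection_eq_self_iff.2 (hmem i hi)
    have he : z i - V.starProjection (z i) = c - V.starProjection c := by
      rw [map_sub] at hfix
      rw [sub_eq_sub_iff_add_eq_add] at hfix ⊢
      rw [add_comm c, hfix]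
    rw [he]
    have h1 : ‖c - V.starProjection c‖ ^ 2 ≤ ‖c‖ ^ 2 := by
      nlinarith [norm_proj_sq_add V c, sq_nonneg ‖V.starProjection c‖]
    refine h1.trans ?_
    have h2 := obtuse_norm_sum_sq_le z hob sᶜ
    rw [hc, sum_eq_neg_sum_compl z hz s, norm_smul, norm_neg, mul_pow, hx]
    norm_num
    linarith
  have hK := integral_projNorm_four V hV
  have h := width_le_union z (a := fun g => t * projNorm V g) ((integrable_projNorm V).const_mul t)
  rw [integral_const_mul, mul_left_comm, hK, ← Finset.sum_add_sum_compl s] at h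
  have hin : ∀ i ∈ s, excess (z i) (fun g => t * projNorm V g)
      ≤ cap4 √(‖z i‖ ^ 2 - x) t + 201 / 200 * (x / (2 * √(‖z i‖ ^ 2 - x))) := by
    intro i hi
    set v := ‖V.starProjection (z i)‖ with hvdef
    set q := ‖z i - V.starProjection (z i)‖ ^ 2 with hq
    set v' := √(‖z i‖ ^ 2 - x) with hv'def
    have hv' : 0 < v' := Real.sqrt_pos.2 (sub_pos.2 (hxs i hi))
    have hsum : v ^ 2 + q = ‖z i‖ ^ 2 := norm_proj_sq_add V (z i)
    have hqx : q ≤ x := hperp i hi
    have hv'2 : v' ^ 2 = ‖z i‖ ^ 2 - x := Real.sq_sqrt (sub_pos.2 (hxs i hi)).le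
    have hle : v' ≤ v :=
      (pow_le_pow_iff_left₀ hv'.le (norm_nonneg _) two_ne_zero).1 (by linarith)
    have hq0 : 0 ≤ q := sq_nonneg _
    refine (excess_projNorm_le_offset4 V hV (z i) ht (hv'.trans_le hle)).trans ?_
    have h1 := cap4_sub_le ht hv' hle
    have h2 : q / (2 * v) ≤ q / (2 * v') :=
      div_le_div_of_nonneg_left hq0 (by positivity) (by linarith)
    have h3 : v - v' ≤ (x - q) / (2 * v') := by
      rw [le_div_iff₀ (by positivity)]
      nlinarith [sq_nonneg (v - v')]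
    have h4 : 0 ≤ q / (2 * v') := by positivity
    rw [← hvdef, ← hq]
    rw [sub_div] at h3
    linarith
  have hout : ∀ j ∈ sᶜ, excess (z j) (fun g => t * projNorm V g) ≤ phi4 ‖z j‖ t :=
    fun j _ => excess_projNorm_le_phi4 V hV (z j) ht
  linarith [Finset.sum_le_sum hin, Finset.sum_le_sum hout]

end Space

end Vale.Agent.P226
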