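import Vale.Agent.P226.ScalarT4n

/-!
# The region of the branch `width_le_T4n` (P226)

`a` is the smallest of the four largest squared norms, `d` the sum of the others. The width is at
most `3 / 2` on the staircase `T4nRegion a d`.
-/

namespace Vale.Agent.P226

open Real
open scoped RealInnerProductSpace

/-- The staircase covered by the boxes below. -/
def T4nRegion (a d : ℝ) : Prop :=
  (13 / 200 ≤ a ∧ d ≤ 1 / 10) ∨ (7 / 100 ≤ a ∧ d ≤ 3 / 25) ∨ (3 / 40 ≤ a ∧ d ≤ 7 / 50) ∨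
    (9 / 100 ≤ a ∧ d ≤ 4 / 25) ∨ (1 / 10 ≤ a ∧ a ≤ 3 / 20 ∧ d ≤ 9 / 50)

namespace RegionT4n

/-- The rational conditions of one box. -/
def BoxData (al ah dl dh t m ul uh p k qh κ : ℝ) : Prop :=
  0 < t ∧ 0 < m ∧ 0 < ul ∧ 0 ≤ uh ∧ ul ^ 2 + dh / 16 ≤ al ∧ ah - dl / 16 ≤ uh ^ 2 ∧
    2 * m * (t ^ 2 + dh / 32) ≤ (m ^ 2 - (t ^ 2 + dh / 32)) * ul ∧
    0 ≤ k ∧ 3 * k * uh ≤ 1 ∧ 0 ≤ p + k * ul ^ 2 ∧
    (ul - t) ^ 2 ≤ (p + k * ul ^ 2) * ul ∧ (uh - t) ^ 2 ≤ (p + k * uh ^ 2) * uh ∧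
    t ≤ qh ∧ min ah dh + t ^ 2 ≤ qh ^ 2 ∧ qh ^ 2 ≤ 2 * t * qh + t ^ 2 ∧
    qh - t ≤ κ * (qh * (qh + t)) ∧
    boxBound t m ul p k κ al dl ≤ 3 / 2 ∧ boxBound t m ul p k κ al dh ≤ 3 / 2 ∧
    boxBound t m ul p k κ ah dl ≤ 3 / 2 ∧ boxBound t m ul p k κ ah dh ≤ 3 / 2

variable {ι E : Type*} [Fintype ι] [Nonempty ι] [DecidableEq ι] [NormedAddCommGroup E]
  [InnerProductSpace ℝ E] [FiniteDimensional ℝ E] [MeasurableSpace E] [BorelSpace E]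
  {z : ι → E} {s : Finset ι} {i₀ : ι}

theorem box {al ah dl dh t m ul uh p k qh κ : ℝ} (hE : 3 ≤ Module.finrank ℝ E)
    (hz : ∑ i, z i = 0) (hob : ∀ i j, i ≠ j → ⟪z i, z j⟫ ≤ 0) (hn : ∑ i, ‖z i‖ ^ 2 = 1)
    (hs : s.card = 4) (hi₀ : i₀ ∈ s) (hmin : ∀ i ∈ s, ‖z i₀‖ ^ 2 ≤ ‖z i‖ ^ 2)
    (htop : ∀ j ∉ s, ‖z j‖ ^ 2 ≤ ‖z i₀‖ ^ 2) (ha : ‖z i₀‖ ^ 2 ∈ Set.Icc al ah)
    (hd : ∑ j ∈ sᶜ, ‖z j‖ ^ 2 ∈ Set.Icc dl dh) (h : BoxData al ah dl dh t m ul uh p k qh κ) :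
    width z ≤ 3 / 2 := by
  obtain ⟨ht, hm, hul, huh, hlo, hhi, hthr, hk, hk3, hp, hel, heh, hq, hσq, hmono, hκ,
    h11, h12, h21, h22⟩ := h
  have hsc := t4n_box (fun i => ‖z i‖ ^ 2) hs hi₀ (fun i => sq_nonneg _) hn hmin htop ha hd ht hm
    hul huh hlo hhi hthr hk hk3 hp hel heh hq hσq hmono hκ h11 h12 h21 h22
  simp only [Real.sqrt_sq (norm_nonneg _)] at hsc
  refine (width_le_T4n z hE hz hob hs rfl (fun i hi => ?_) ht.le).trans hsc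
  linarith [hd.2, ha.1, hmin i hi, pow_pos hul 2]

theorem full (hE : 3 ≤ Module.finrank ℝ E) (hz : ∑ i, z i = 0)
    (hob : ∀ i j, i ≠ j → ⟪z i, z j⟫ ≤ 0) (hn : ∑ i, ‖z i‖ ^ 2 = 1) (hs : s.card = 4)
    (ha : ∀ i ∈ s, 3 / 20 ≤ ‖z i‖ ^ 2) (hd : ∑ j ∈ sᶜ, ‖z j‖ ^ 2 ≤ 4 / 25) :
    width z ≤ 3 / 2 := by
  have hsc := t4n_full (fun i => ‖z i‖ ^ 2) hs (fun i => sq_nonneg _) hn (t := 1 / 4) (m := 1 / 2)
    (ul := 4677 / 12500) (qh := 4717 / 10000) (κ := 521 / 800) hd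
    (fun i hi => le_trans (by norm_num) (ha i hi)) (by norm_num) (by norm_num) (by norm_num)
    (by norm_num) (by norm_num) (by norm_num) (by norm_num) (by norm_num)
    (by norm_num [fullBound]) (by norm_num [fullBound])
  simp only [Real.sqrt_sq (norm_nonneg _)] at hsc
  refine (width_le_T4n z hE hz hob hs rfl (fun i hi => ?_) (by norm_num)).trans hsc
  linarith [ha i hi]

variable (hE : 3 ≤ Module.finrank ℝ E) (hz : ∑ i, z i = 0)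
  (hob : ∀ i j, i ≠ j → ⟪z i, z j⟫ ≤ 0) (hn : ∑ i, ‖z i‖ ^ 2 = 1) (hs : s.card = 4) (hi₀ : i₀ ∈ s)
  (hmin : ∀ i ∈ s, ‖z i₀‖ ^ 2 ≤ ‖z i‖ ^ 2) (htop : ∀ j ∉ s, ‖z j‖ ^ 2 ≤ ‖z i₀‖ ^ 2)
include hE hz hob hn hs hi₀ hmin htop

/-- Fourth norm in `[13/200, 7/100]`, tail at most `1/10`. -/
private theorem col0 (ha : ‖z i₀‖ ^ 2 ∈ Set.Icc ((13 / 200) : ℝ) (7 / 100))
    (hd : ∑ j ∈ sᶜ, ‖z j‖ ^ 2 ≤ (1 / 10)) : width z ≤ 3 / 2 := by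
  rcases le_total (∑ j ∈ sᶜ, ‖z j‖ ^ 2) (3 / 50) with h0 | h0
  · exact box (al := (13 / 200)) (ah := (7 / 100)) (dl := (0)) (dh := (3 / 50)) (t := (43 / 200)) (m := (279 / 500)) (ul := (6187 / 25000))
      (uh := (13229 / 50000)) (p := (-309 / 10000)) (k := (3589 / 6250)) (qh := (32593 / 100000))
      (κ := (1573 / 2500))
      hE hz hob hn hs hi₀ hmin htop ha ⟨Finset.sum_nonneg fun j _ => sq_nonneg _, h0⟩ (by norm_num [BoxData, boxBound])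
  rcases le_total (∑ j ∈ sᶜ, ‖z j‖ ^ 2) (2 / 25) with h1 | h1
  · exact box (al := (13 / 200)) (ah := (7 / 100)) (dl := (3 / 50)) (dh := (2 / 25)) (t := (223 / 1000)) (m := (537 / 1000)) (ul := (12247 / 50000))
      (uh := (1287 / 5000)) (p := (-1163 / 50000)) (k := (42053 / 100000)) (qh := (17301 / 50000))
      (κ := (62481 / 100000))
      hE hz hob hn hs hi₀ hmin htop ha ⟨h0, h1⟩ (by norm_num [BoxData, boxBound])
  exact box (al := (13 / 200)) (ah := (7 / 100)) (dl := (2 / 25)) (dh := (1 / 10)) (t := (111 / 500)) (m := (133 / 250)) (ul := (12119 / 50000))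
      (uh := (3187 / 12500)) (p := (-111 / 5000)) (k := (8143 / 20000)) (qh := (17269 / 50000))
      (κ := (31481 / 50000))
    hE hz hob hn hs hi₀ hmin htop ha ⟨h1, hd⟩ (by norm_num [BoxData, boxBound])

/-- Fourth norm in `[7/100, 3/40]`, tail at most `3/25`. -/
private theorem col1 (ha : ‖z i₀‖ ^ 2 ∈ Set.Icc ((7 / 100) : ℝ) (3 / 40))
    (hd : ∑ j ∈ sᶜ, ‖z j‖ ^ 2 ≤ (3 / 25)) : width z ≤ 3 / 2 := by
  exact box (al := (7 / 100)) (ah := (3 / 40)) (dl := (0)) (dh := (3 / 25)) (t := (28 / 125)) (m := (27 / 50)) (ul := (1 / 4))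
      (uh := (27387 / 100000)) (p := (-729 / 25000)) (k := (50997 / 100000)) (qh := (35381 / 100000))
      (κ := (63497 / 100000))
    hE hz hob hn hs hi₀ hmin htop ha ⟨Finset.sum_nonneg fun j _ => sq_nonneg _, hd⟩ (by norm_num [BoxData, boxBound])

/-- Fourth norm in `[3/40, 2/25]`, tail at most `7/50`. -/
private theorem col2 (ha : ‖z i₀‖ ^ 2 ∈ Set.Icc ((3 / 40) : ℝ) (2 / 25))
    (hd : ∑ j ∈ sᶜ, ‖z j‖ ^ 2 ≤ (7 / 50)) : width z ≤ 3 / 2 := by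
  exact box (al := (3 / 40)) (ah := (2 / 25)) (dl := (0)) (dh := (7 / 50)) (t := (113 / 500)) (m := (67 / 125)) (ul := (25739 / 100000))
      (uh := (5657 / 20000)) (p := (-819 / 25000)) (k := (55241 / 100000)) (qh := (7241 / 20000))
      (κ := (63903 / 100000))
    hE hz hob hn hs hi₀ hmin htop ha ⟨Finset.sum_nonneg fun j _ => sq_nonneg _, hd⟩ (by norm_num [BoxData, boxBound])

/-- Fourth norm in `[2/25, 9/100]`, tail at most `7/50`. -/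
private theorem col3 (ha : ‖z i₀‖ ^ 2 ∈ Set.Icc ((2 / 25) : ℝ) (9 / 100))
    (hd : ∑ j ∈ sᶜ, ‖z j‖ ^ 2 ≤ (7 / 50)) : width z ≤ 3 / 2 := by
  exact box (al := (2 / 25)) (ah := (9 / 100)) (dl := (0)) (dh := (7 / 50)) (t := (57 / 250)) (m := (529 / 1000)) (ul := (6673 / 25000))
      (uh := (3 / 10)) (p := (-3841 / 100000)) (k := (30941 / 50000)) (qh := (37681 / 100000))
      (κ := (65297 / 100000))
    hE hz hob hn hs hi₀ hmin htop ha ⟨Finset.sum_nonneg fun j _ => sq_nonneg _, hd⟩ (by norm_num [BoxData, boxBound])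

/-- Fourth norm in `[9/100, 1/10]`, tail at most `4/25`. -/
private theorem col4 (ha : ‖z i₀‖ ^ 2 ∈ Set.Icc ((9 / 100) : ℝ) (1 / 10))
    (hd : ∑ j ∈ sᶜ, ‖z j‖ ^ 2 ≤ (4 / 25)) : width z ≤ 3 / 2 := by
  exact box (al := (9 / 100)) (ah := (1 / 10)) (dl := (0)) (dh := (4 / 25)) (t := (29 / 125)) (m := (66 / 125)) (ul := (7071 / 25000))
      (uh := (31623 / 100000)) (p := (-1101 / 25000)) (k := (2659 / 4000)) (qh := (39221 / 100000))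
      (κ := (409 / 625))
    hE hz hob hn hs hi₀ hmin htop ha ⟨Finset.sum_nonneg fun j _ => sq_nonneg _, hd⟩ (by norm_num [BoxData, boxBound])

/-- Fourth norm in `[1/10, 11/100]`, tail at most `9/50`. -/
private theorem col5 (ha : ‖z i₀‖ ^ 2 ∈ Set.Icc ((1 / 10) : ℝ) (11 / 100))
    (hd : ∑ j ∈ sᶜ, ‖z j‖ ^ 2 ≤ (9 / 50)) : width z ≤ 3 / 2 := by
  exact box (al := (1 / 10)) (ah := (11 / 100)) (dl := (0)) (dh := (9 / 50)) (t := (47 / 200)) (m := (21 / 40)) (ul := (2979 / 10000))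
      (uh := (33167 / 100000)) (p := (-4889 / 100000)) (k := (70059 / 100000)) (qh := (5081 / 12500))
      (κ := (13153 / 20000))
    hE hz hob hn hs hi₀ hmin htop ha ⟨Finset.sum_nonneg fun j _ => sq_nonneg _, hd⟩ (by norm_num [BoxData, boxBound])

/-- Fourth norm in `[11/100, 3/25]`, tail at most `9/50`. -/
private theorem col6 (ha : ‖z i₀‖ ^ 2 ∈ Set.Icc ((11 / 100) : ℝ) (3 / 25))
    (hd : ∑ j ∈ sᶜ, ‖z j‖ ^ 2 ≤ (9 / 50)) : width z ≤ 3 / 2 := by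
  exact box (al := (11 / 100)) (ah := (3 / 25)) (dl := (0)) (dh := (9 / 50)) (t := (237 / 1000)) (m := (257 / 500)) (ul := (982 / 3125))
      (uh := (17321 / 50000)) (p := (-667 / 12500)) (k := (4579 / 6250)) (qh := (41973 / 100000))
      (κ := (66291 / 100000))
    hE hz hob hn hs hi₀ hmin htop ha ⟨Finset.sum_nonneg fun j _ => sq_nonneg _, hd⟩ (by norm_num [BoxData, boxBound])

/-- Fourth norm in `[3/25, 13/100]`, tail at most `9/50`. -/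
private theorem col7 (ha : ‖z i₀‖ ^ 2 ∈ Set.Icc ((3 / 25) : ℝ) (13 / 100))
    (hd : ∑ j ∈ sᶜ, ‖z j‖ ^ 2 ≤ (9 / 50)) : width z ≤ 3 / 2 := by
  exact box (al := (3 / 25)) (ah := (13 / 100)) (dl := (0)) (dh := (9 / 50)) (t := (121 / 500)) (m := (103 / 200)) (ul := (32977 / 100000))
      (uh := (4507 / 12500)) (p := (-2829 / 50000)) (k := (7351 / 10000)) (qh := (1357 / 3125))
      (κ := (32733 / 50000))
    hE hz hob hn hs hi₀ hmin htop ha ⟨Finset.sum_nonneg fun j _ => sq_nonneg _, hd⟩ (by norm_num [BoxData, boxBound])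

/-- Fourth norm in `[13/100, 3/20]`, tail at most `9/50`. -/
private theorem col8 (ha : ‖z i₀‖ ^ 2 ∈ Set.Icc ((13 / 100) : ℝ) (3 / 20))
    (hd : ∑ j ∈ sᶜ, ‖z j‖ ^ 2 ≤ (9 / 50)) : width z ≤ 3 / 2 := by
  exact box (al := (13 / 100)) (ah := (3 / 20)) (dl := (0)) (dh := (9 / 50)) (t := (49 / 200)) (m := (51 / 100)) (ul := (1723 / 5000))
      (uh := (3873 / 10000)) (p := (-6049 / 100000)) (k := (37591 / 50000)) (qh := (45829 / 100000))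
      (κ := (2068 / 3125))
    hE hz hob hn hs hi₀ hmin htop ha ⟨Finset.sum_nonneg fun j _ => sq_nonneg _, hd⟩ (by norm_num [BoxData, boxBound])

theorem main (h : T4nRegion (‖z i₀‖ ^ 2) (∑ j ∈ sᶜ, ‖z j‖ ^ 2)) : width z ≤ 3 / 2 := by
  unfold T4nRegion at h
  set a := ‖z i₀‖ ^ 2 with hadef
  set d := ∑ j ∈ sᶜ, ‖z j‖ ^ 2 with hddef
  rcases lt_or_ge (3 / 20) a with h15 | h15
  · refine full hE hz hob hn hs (fun i hi => by linarith [hmin i hi]) ?_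
    rw [← hddef]
    rcases h with ⟨_, hd⟩ | ⟨_, hd⟩ | ⟨_, hd⟩ | ⟨_, hd⟩ | ⟨_, ha, _⟩ <;> linarith
  rcases lt_or_ge a (7 / 100) with h1 | h1
  · refine col0 hE hz hob hn hs hi₀ hmin htop ⟨?_, ?_⟩ ?_ <;>
      rcases h with ⟨_, _⟩ | ⟨_, _⟩ | ⟨_, _⟩ | ⟨_, _⟩ | ⟨_, _, _⟩ <;> linarith
  rcases lt_or_ge a (3 / 40) with h2 | h2
  · refine col1 hE hz hob hn hs hi₀ hmin htop ⟨?_, ?_⟩ ?_ <;>
      rcases h with ⟨_, _⟩ | ⟨_, _⟩ | ⟨_, _⟩ | ⟨_, _⟩ | ⟨_, _, _⟩ <;> linarith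
  rcases lt_or_ge a (2 / 25) with h3 | h3
  · refine col2 hE hz hob hn hs hi₀ hmin htop ⟨?_, ?_⟩ ?_ <;>
      rcases h with ⟨_, _⟩ | ⟨_, _⟩ | ⟨_, _⟩ | ⟨_, _⟩ | ⟨_, _, _⟩ <;> linarith
  rcases lt_or_ge a (9 / 100) with h4 | h4
  · refine col3 hE hz hob hn hs hi₀ hmin htop ⟨?_, ?_⟩ ?_ <;>
      rcases h with ⟨_, _⟩ | ⟨_, _⟩ | ⟨_, _⟩ | ⟨_, _⟩ | ⟨_, _, _⟩ <;> linarith
  rcases lt_or_ge a (1 / 10) with h5 | h5
  · refine col4 hE hz hob hn hs hi₀ hmin htop ⟨?_, ?_⟩ ?_ <;>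
      rcases h with ⟨_, _⟩ | ⟨_, _⟩ | ⟨_, _⟩ | ⟨_, _⟩ | ⟨_, _, _⟩ <;> linarith
  rcases lt_or_ge a (11 / 100) with h6 | h6
  · refine col5 hE hz hob hn hs hi₀ hmin htop ⟨?_, ?_⟩ ?_ <;>
      rcases h with ⟨_, _⟩ | ⟨_, _⟩ | ⟨_, _⟩ | ⟨_, _⟩ | ⟨_, _, _⟩ <;> linarith
  rcases lt_or_ge a (3 / 25) with h7 | h7
  · refine col6 hE hz hob hn hs hi₀ hmin htop ⟨?_, ?_⟩ ?_ <;>
      rcases h with ⟨_, _⟩ | ⟨_, _⟩ | ⟨_, _⟩ | ⟨_, _⟩ | ⟨_, _, _⟩ <;> linarith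
  rcases lt_or_ge a (13 / 100) with h8 | h8
  · refine col7 hE hz hob hn hs hi₀ hmin htop ⟨?_, ?_⟩ ?_ <;>
      rcases h with ⟨_, _⟩ | ⟨_, _⟩ | ⟨_, _⟩ | ⟨_, _⟩ | ⟨_, _, _⟩ <;> linarith
  · refine col8 hE hz hob hn hs hi₀ hmin htop ⟨?_, ?_⟩ ?_ <;>
      rcases h with ⟨_, _⟩ | ⟨_, _⟩ | ⟨_, _⟩ | ⟨_, _⟩ | ⟨_, _, _⟩ <;> linarith

end RegionT4n

variable {ι E : Type*} [Fintype ι] [Nonempty ι] [DecidableEq ι] [NormedAddCommGroup E]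
  [InnerProductSpace ℝ E] [FiniteDimensional ℝ E] [MeasurableSpace E] [BorelSpace E]

/-- The width bound on the region of `width_le_T4n`: `s` holds four largest norms, `i₀` the
smallest of them. -/
theorem width_le_of_T4nRegion (z : ι → E) (hE : 3 ≤ Module.finrank ℝ E) (hz : ∑ i, z i = 0)
    (hob : ∀ i j, i ≠ j → ⟪z i, z j⟫ ≤ 0) (hn : ∑ i, ‖z i‖ ^ 2 = 1) {s : Finset ι}
    (hs : s.card = 4) {i₀ : ι} (hi₀ : i₀ ∈ s) (hmin : ∀ i ∈ s, ‖z i₀‖ ≤ ‖z i‖)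
    (htop : ∀ j ∉ s, ‖z j‖ ≤ ‖z i₀‖)
    (h : T4nRegion (‖z i₀‖ ^ 2) (∑ j ∈ sᶜ, ‖z j‖ ^ 2)) : width z ≤ 3 / 2 :=
  RegionT4n.main hE hz hob hn hs hi₀ (fun i hi => pow_le_pow_left₀ (norm_nonneg _) (hmin i hi) 2)
    (fun j hj => pow_le_pow_left₀ (norm_nonneg _) (htop j hj) 2) h

/-- The same for a family with decreasing norms. -/
theorem width_le_of_T4nRegion_sorted {k : ℕ} (hk : 3 ≤ k) (z : Fin (k + 1) → E)
    (hE : 3 ≤ Module.finrank ℝ E) (hz : ∑ i, z i = 0) (hob : ∀ i j, i ≠ j → ⟪z i, z j⟫ ≤ 0)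
    (hn : ∑ i, ‖z i‖ ^ 2 = 1) (hanti : Antitone fun i => ‖z i‖)
    (h : T4nRegion (‖z ⟨3, by omega⟩‖ ^ 2) (∑ j with 4 ≤ j.val, ‖z j‖ ^ 2)) :
    width z ≤ 3 / 2 := by
  classical
  have hc : ({j : Fin (k + 1) | j.val ≤ 3} : Finset _)ᶜ = ({j | 4 ≤ j.val} : Finset _) := by
    ext j; simp; omega
  have hs : ({j : Fin (k + 1) | j.val ≤ 3} : Finset _).card = 4 := by
    have : ({j : Fin (k + 1) | j.val ≤ 3} : Finset _) = Finset.Iic ⟨3, by omega⟩ := by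
      ext j; simp [Fin.le_def]
    rw [this, Fin.card_Iic]
  refine width_le_of_T4nRegion z hE hz hob hn hs (i₀ := ⟨3, by omega⟩) (by simp)
    (fun i hi => hanti (by simpa [Fin.le_def] using hi))
    (fun j hj => hanti (by simp [Fin.le_def] at hj ⊢; omega)) ?_
  rw [hc]; exact h

end Vale.Agent.P226
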