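import Vale.Agent.P226.TriangleBranch

/-!
# The triangle branch in scalar form (P226)

For a centred, pairwise obtuse family and three distinct indices, with `T` the sum of the three
squared norms, `ρ` the squared norm of the sum of the other vectors and `T' = T - ρ / 3`, the
triangle is described by `T'` and by its shape `a₂ = 4 G / (3 T'²)`, `G` the Gram determinant:
`a₂ = 1` exactly for equilateral triangles. The triangle branch becomes a bound in these numbers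
and the squared norms of the other vectors (`width_le_T3_scalar`).
-/

namespace Vale.Agent.P226

open MeasureTheory ProbabilityTheory
open scoped RealInnerProductSpace

section Shape

variable {ι E : Type*} [NormedAddCommGroup E] [InnerProductSpace ℝ E]

/-- Gram determinant of the triangle `z i, z j, z k`. -/
noncomputable def triG (z : ι → E) (i j k : ι) : ℝ :=
  ‖z j - z i‖ ^ 2 * ‖z k - z i‖ ^ 2 - ⟪z j - z i, z k - z i⟫ ^ 2

variable [Fintype ι] [DecidableEq ι]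

/-- Squared norm of the sum of the vectors outside the triangle. -/
noncomputable def triRho (z : ι → E) (i j k : ι) : ℝ :=
  ‖∑ m ∈ ({i, j, k} : Finset ι)ᶜ, z m‖ ^ 2

/-- One third of the sum of the squared sides, for a centred family. -/
noncomputable def triTp (z : ι → E) (i j k : ι) : ℝ :=
  ‖z i‖ ^ 2 + ‖z j‖ ^ 2 + ‖z k‖ ^ 2 - triRho z i j k / 3

/-- The shape `4 G / (3 T'²)` of the triangle. -/
noncomputable def triShape (z : ι → E) (i j k : ι) : ℝ :=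
  4 * triG z i j k / (3 * triTp z i j k ^ 2)

omit [Fintype ι] [DecidableEq ι] in
lemma four_mul_triG (z : ι → E) (i j k : ι) :
    4 * triG z i j k =
      2 * (‖z i - z j‖ ^ 2 * ‖z j - z k‖ ^ 2 + ‖z j - z k‖ ^ 2 * ‖z k - z i‖ ^ 2
          + ‖z k - z i‖ ^ 2 * ‖z i - z j‖ ^ 2)
        - ((‖z i - z j‖ ^ 2) ^ 2 + (‖z j - z k‖ ^ 2) ^ 2 + (‖z k - z i‖ ^ 2) ^ 2) := by
  have hc : ‖z j - z k‖ ^ 2
      = ‖z j - z i‖ ^ 2 + ‖z k - z i‖ ^ 2 - 2 * ⟪z j - z i, z k - z i⟫ := by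
    rw [show z j - z k = (z j - z i) - (z k - z i) by abel, norm_sub_sq_real]
    ring
  rw [triG, norm_sub_rev (z i) (z j), hc]
  ring

lemma sum_sides_sq_eq (z : ι → E) (hz : ∑ n, z n = 0) {i j k : ι} (hij : i ≠ j) (hjk : j ≠ k)
    (hki : k ≠ i) :
    ‖z i - z j‖ ^ 2 + ‖z j - z k‖ ^ 2 + ‖z k - z i‖ ^ 2 = 3 * triTp z i j k := by
  have hR : ∑ m ∈ ({i, j, k} : Finset ι)ᶜ, z m = -(z i + z j + z k) := by
    rw [← sum_triple z hij hjk hki, sum_eq_neg_sum_compl z hz ({i, j, k} : Finset ι)ᶜ, compl_compl]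
  rw [triTp, triRho, hR, norm_neg, norm_add_sq_real (z i + z j), norm_add_sq_real, inner_add_left,
    norm_sub_sq_real, norm_sub_sq_real, norm_sub_sq_real, real_inner_comm (z i) (z k)]
  ring

lemma sum_sides_dev_sq (z : ι → E) (hz : ∑ n, z n = 0) {i j k : ι} (hij : i ≠ j) (hjk : j ≠ k)
    (hki : k ≠ i) (hT : 0 < triTp z i j k) :
    (‖z i - z j‖ ^ 2 - triTp z i j k) ^ 2 + (‖z j - z k‖ ^ 2 - triTp z i j k) ^ 2
      + (‖z k - z i‖ ^ 2 - triTp z i j k) ^ 2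
      = 3 / 2 * triTp z i j k ^ 2 * (1 - triShape z i j k) := by
  have hS := sum_sides_sq_eq z hz hij hjk hki
  have hG := four_mul_triG z i j k
  have e : 3 / 2 * triTp z i j k ^ 2 * (1 - triShape z i j k)
      = 3 / 2 * triTp z i j k ^ 2 - 2 * triG z i j k := by
    rw [triShape]
    field_simp
    ring
  rw [e]
  linear_combination (1 / 2 : ℝ) * hG
    + ((‖z i - z j‖ ^ 2 + ‖z j - z k‖ ^ 2 + ‖z k - z i‖ ^ 2) / 2 - triTp z i j k / 2) * hS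

theorem triShape_le_one (z : ι → E) (hz : ∑ n, z n = 0) {i j k : ι} (hij : i ≠ j) (hjk : j ≠ k)
    (hki : k ≠ i) : triShape z i j k ≤ 1 := by
  rcases eq_or_ne (triTp z i j k) 0 with h0 | h0
  · rw [triShape, h0]; simp
  · have hS := sum_sides_sq_eq z hz hij hjk hki
    have hG := four_mul_triG z i j k
    rw [triShape, div_le_one (by positivity)]
    nlinarith [sq_nonneg (‖z i - z j‖ ^ 2 - ‖z j - z k‖ ^ 2),
      sq_nonneg (‖z j - z k‖ ^ 2 - ‖z k - z i‖ ^ 2), sq_nonneg (‖z k - z i‖ ^ 2 - ‖z i - z j‖ ^ 2),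
      congrArg (fun x : ℝ => x ^ 2) hS]

lemma le_add_sqrt_of_dev {x y w T a : ℝ} (hT : 0 ≤ T) (h0 : x + y + w = 0)
    (h2 : x ^ 2 + y ^ 2 + w ^ 2 = 3 / 2 * T ^ 2 * (1 - a)) : x ≤ T * Real.sqrt (1 - a) := by
  have h : x ^ 2 ≤ T ^ 2 * (1 - a) := by
    have hw : w = -(x + y) := by linarith
    subst hw
    nlinarith [sq_nonneg (x + 2 * y)]
  calc x ≤ Real.sqrt (T ^ 2 * (1 - a)) := Real.le_sqrt_of_sq_le h
    _ = T * Real.sqrt (1 - a) := by rw [Real.sqrt_mul (sq_nonneg T), Real.sqrt_sq hT]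

/-- Every squared side is at most `T' (1 + √(1 - a₂))`. -/
theorem sides_sq_le (z : ι → E) (hz : ∑ n, z n = 0) {i j k : ι} (hij : i ≠ j) (hjk : j ≠ k)
    (hki : k ≠ i) (hT : 0 < triTp z i j k) :
    ‖z i - z j‖ ^ 2 ≤ triTp z i j k * (1 + Real.sqrt (1 - triShape z i j k)) ∧
    ‖z j - z k‖ ^ 2 ≤ triTp z i j k * (1 + Real.sqrt (1 - triShape z i j k)) ∧
    ‖z k - z i‖ ^ 2 ≤ triTp z i j k * (1 + Real.sqrt (1 - triShape z i j k)) := by
  have hS := sum_sides_sq_eq z hz hij hjk hki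
  have hD := sum_sides_dev_sq z hz hij hjk hki hT
  have h1 := le_add_sqrt_of_dev (a := triShape z i j k) hT.le
    (x := ‖z i - z j‖ ^ 2 - triTp z i j k) (y := ‖z j - z k‖ ^ 2 - triTp z i j k)
    (w := ‖z k - z i‖ ^ 2 - triTp z i j k) (by linarith) hD
  have h2 := le_add_sqrt_of_dev (a := triShape z i j k) hT.le
    (x := ‖z j - z k‖ ^ 2 - triTp z i j k) (y := ‖z k - z i‖ ^ 2 - triTp z i j k)
    (w := ‖z i - z j‖ ^ 2 - triTp z i j k) (by linarith) (by linarith)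
  have h3 := le_add_sqrt_of_dev (a := triShape z i j k) hT.le
    (x := ‖z k - z i‖ ^ 2 - triTp z i j k) (y := ‖z i - z j‖ ^ 2 - triTp z i j k)
    (w := ‖z j - z k‖ ^ 2 - triTp z i j k) (by linarith) (by linarith)
  refine ⟨?_, ?_, ?_⟩ <;> linarith

lemma perimeter_poly {a b c : ℝ} (ha : 0 ≤ a) (hb : 0 ≤ b) (hc : 0 ≤ c) (h1 : a ≤ b + c)
    (h2 : b ≤ c + a) (h3 : c ≤ a + b) :
    3 * (a ^ 2 + b ^ 2 + c ^ 2) * (a + b + c) ^ 2 ≤ 8 * (a ^ 2 + b ^ 2 + c ^ 2) ^ 2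
      + 3 * (2 * (a ^ 2 * b ^ 2 + b ^ 2 * c ^ 2 + c ^ 2 * a ^ 2)
        - ((a ^ 2) ^ 2 + (b ^ 2) ^ 2 + (c ^ 2) ^ 2)) := by
  have key : ∀ x y w : ℝ, 0 ≤ w → w ≤ x → w ≤ y →
      0 ≤ (x - y) ^ 2 * (x ^ 2 + x * y + y ^ 2 - w * (x + y)) + w ^ 2 * ((x - w) * (y - w)) := by
    intro x y w hw hx hy
    have hxy : 0 ≤ x * y := mul_nonneg (hw.trans hx) (hw.trans hy)
    have e1 := mul_le_mul_of_nonneg_right hx (hw.trans hx)
    have e2 := mul_le_mul_of_nonneg_right hy (hw.trans hy)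
    refine add_nonneg (mul_nonneg (sq_nonneg _) ?_)
      (mul_nonneg (sq_nonneg _) (mul_nonneg (sub_nonneg.2 hx) (sub_nonneg.2 hy)))
    linarith
  obtain ⟨x, hx⟩ : ∃ x, x = (b + c - a) / 2 := ⟨_, rfl⟩
  obtain ⟨y, hy⟩ : ∃ y, y = (c + a - b) / 2 := ⟨_, rfl⟩
  obtain ⟨w, hw⟩ : ∃ w, w = (a + b - c) / 2 := ⟨_, rfl⟩
  have ea : a = y + w := by linarith
  have eb : b = w + x := by linarith
  have ec : c = x + y := by linarith
  subst ea eb ec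
  have x0 : 0 ≤ x := by linarith
  have y0 : 0 ≤ y := by linarith
  have w0 : 0 ≤ w := by linarith
  rcases le_total w x with p | p <;> rcases le_total w y with q | q <;>
    rcases le_total x y with r | r
  all_goals
    first
      | linarith [key x y w w0 p q]
      | linarith [key y w x x0 r p]
      | linarith [key w x y y0 q r]
      | linarith [key y w x x0 (by linarith) (by linarith)]

/-- Half the perimeter against `T'` and the shape. -/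
theorem half_perimeter_le_shape (z : ι → E) (hz : ∑ n, z n = 0) {i j k : ι} (hij : i ≠ j)
    (hjk : j ≠ k) (hki : k ≠ i) (hT : 0 < triTp z i j k) :
    (‖z i - z j‖ + ‖z j - z k‖ + ‖z k - z i‖) / 2 ≤
      3 / 2 * Real.sqrt (triTp z i j k * (8 + triShape z i j k) / 9) := by
  have hS := sum_sides_sq_eq z hz hij hjk hki
  have hG := four_mul_triG z i j k
  have t1 : ‖z i - z j‖ ≤ ‖z j - z k‖ + ‖z k - z i‖ := by
    have h := norm_sub_le_norm_sub_add_norm_sub (z i) (z k) (z j)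
    rw [norm_sub_rev (z i) (z k), norm_sub_rev (z k) (z j)] at h
    linarith
  have t2 : ‖z j - z k‖ ≤ ‖z k - z i‖ + ‖z i - z j‖ := by
    have h := norm_sub_le_norm_sub_add_norm_sub (z j) (z i) (z k)
    rw [norm_sub_rev (z j) (z i), norm_sub_rev (z i) (z k)] at h
    linarith
  have t3 : ‖z k - z i‖ ≤ ‖z i - z j‖ + ‖z j - z k‖ := by
    have h := norm_sub_le_norm_sub_add_norm_sub (z k) (z j) (z i)
    rw [norm_sub_rev (z k) (z j), norm_sub_rev (z j) (z i)] at h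
    linarith
  have hp := perimeter_poly (norm_nonneg (z i - z j)) (norm_nonneg _) (norm_nonneg _) t1 t2 t3
  rw [hS, ← hG] at hp
  have key : ((‖z i - z j‖ + ‖z j - z k‖ + ‖z k - z i‖) / 3) ^ 2 ≤
      triTp z i j k * (8 + triShape z i j k) / 9 := by
    have e : triTp z i j k * (8 + triShape z i j k) / 9
        = (8 * (3 * triTp z i j k) ^ 2 + 3 * (4 * triG z i j k))
          / (9 * (3 * (3 * triTp z i j k))) := by
      rw [triShape]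
      field_simp
    rw [e, le_div_iff₀ (by positivity)]
    linarith
  have h := Real.le_sqrt_of_sq_le key
  linarith

lemma sq_sub_le_of_add {P₀ P₁ P₂ Q₀ Q₁ Q₂ p q : ℝ} (hp : p ^ 2 = P₀ ^ 2 + P₁ ^ 2 + P₂ ^ 2)
    (hQ : Q₀ ^ 2 + Q₁ ^ 2 + Q₂ ^ 2 ≤ q ^ 2) (hq : 0 ≤ q) (hpq : q ≤ p) :
    (p - q) ^ 2 ≤ (P₀ + Q₀) ^ 2 + (P₁ + Q₁) ^ 2 + (P₂ + Q₂) ^ 2 := by
  obtain ⟨r, hr⟩ : ∃ r, r = Real.sqrt (Q₀ ^ 2 + Q₁ ^ 2 + Q₂ ^ 2) := ⟨_, rfl⟩
  have hr0 : 0 ≤ r := hr ▸ Real.sqrt_nonneg _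
  have hr2 : r ^ 2 = Q₀ ^ 2 + Q₁ ^ 2 + Q₂ ^ 2 := hr ▸ Real.sq_sqrt (by positivity)
  have hrq : r ≤ q := (pow_le_pow_iff_left₀ hr0 hq two_ne_zero).1 (hr2 ▸ hQ)
  have hcs : -(P₀ * Q₀ + P₁ * Q₁ + P₂ * Q₂) ≤ p * r := by
    have h : (P₀ * Q₀ + P₁ * Q₁ + P₂ * Q₂) ^ 2 ≤ (p * r) ^ 2 := by
      rw [mul_pow, hp, hr2]
      nlinarith [sq_nonneg (P₀ * Q₁ - P₁ * Q₀), sq_nonneg (P₁ * Q₂ - P₂ * Q₁),
        sq_nonneg (P₂ * Q₀ - P₀ * Q₂)]
    have := (abs_le_of_sq_le_sq' h (mul_nonneg (hq.trans hpq) hr0)).1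
    linarith
  have h1 : (p - q) ^ 2 ≤ (p - r) ^ 2 :=
    pow_le_pow_left₀ (by linarith) (by linarith) 2
  linarith

/-- The algebra of `spread_le`: `s` are the squared norms, `A` the squared opposite sides, `u`
the inner products with minus the outside sum. -/
lemma spread_alg {s₀ s₁ s₂ A₀ A₁ A₂ u₀ u₁ u₂ T ρ a m : ℝ} (ha : a ≤ 1)
    (hu0 : 0 ≤ u₀) (hu1 : 0 ≤ u₁) (hu2 : 0 ≤ u₂) (hu : u₀ + u₁ + u₂ = ρ)
    (hTd : T = s₀ + s₁ + s₂ - ρ / 3)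
    (hA : (A₀ - T) ^ 2 + (A₁ - T) ^ 2 + (A₂ - T) ^ 2 = 3 / 2 * T ^ 2 * (1 - a))
    (d₀ : 3 * s₀ - 2 * u₀ + ρ / 3 = 2 * T - A₀) (d₁ : 3 * s₁ - 2 * u₁ + ρ / 3 = 2 * T - A₁)
    (d₂ : 3 * s₂ - 2 * u₂ + ρ / 3 = 2 * T - A₂)
    (hsp : 0 ≤ Real.sqrt ((1 - a) / 6) * T - Real.sqrt (8 / 27) * ρ) :
    (Real.sqrt ((1 - a) / 6) * T - Real.sqrt (8 / 27) * ρ) ^ 2
      ≤ (s₀ - m) ^ 2 + (s₁ - m) ^ 2 + (s₂ - m) ^ 2 := by
  have hρ0 : 0 ≤ ρ := by linarith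
  have key := sq_sub_le_of_add (P₀ := (T - A₀) / 3) (P₁ := (T - A₁) / 3) (P₂ := (T - A₂) / 3)
    (Q₀ := 2 / 3 * (u₀ - ρ / 3)) (Q₁ := 2 / 3 * (u₁ - ρ / 3)) (Q₂ := 2 / 3 * (u₂ - ρ / 3))
    (p := Real.sqrt ((1 - a) / 6) * T) (q := Real.sqrt (8 / 27) * ρ)
    (by rw [mul_pow, Real.sq_sqrt (div_nonneg (sub_nonneg.2 ha) (by norm_num))]
        linarith)
    (by rw [mul_pow (Real.sqrt _), Real.sq_sqrt (by norm_num), ← hu]
        linarith [mul_nonneg hu0 hu1, mul_nonneg hu1 hu2, mul_nonneg hu2 hu0])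
    (mul_nonneg (Real.sqrt_nonneg _) hρ0) (by linarith)
  refine key.trans ?_
  have r₀ : (T - A₀) / 3 + 2 / 3 * (u₀ - ρ / 3) = s₀ - (s₀ + s₁ + s₂) / 3 := by linarith
  have r₁ : (T - A₁) / 3 + 2 / 3 * (u₁ - ρ / 3) = s₁ - (s₀ + s₁ + s₂) / 3 := by linarith
  have r₂ : (T - A₂) / 3 + 2 / 3 * (u₂ - ρ / 3) = s₂ - (s₀ + s₁ + s₂) / 3 := by linarith
  rw [r₀, r₁, r₂]
  linarith [sq_nonneg ((s₀ + s₁ + s₂) / 3 - m)]

/-- The spread of the three squared norms is at least that of the shape, less the offset. -/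
theorem spread_le (z : ι → E) (hz : ∑ n, z n = 0) (hob : ∀ a b, a ≠ b → ⟪z a, z b⟫ ≤ 0)
    {i j k : ι} (hij : i ≠ j) (hjk : j ≠ k) (hki : k ≠ i) (m : ℝ)
    (hsp : 0 ≤ Real.sqrt ((1 - triShape z i j k) / 6) * triTp z i j k
      - Real.sqrt (8 / 27) * triRho z i j k) :
    (Real.sqrt ((1 - triShape z i j k) / 6) * triTp z i j k
      - Real.sqrt (8 / 27) * triRho z i j k) ^ 2
      ≤ (‖z i‖ ^ 2 - m) ^ 2 + (‖z j‖ ^ 2 - m) ^ 2 + (‖z k‖ ^ 2 - m) ^ 2 := by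
  obtain ⟨R, hR⟩ : ∃ R, R = ∑ n ∈ ({i, j, k} : Finset ι)ᶜ, z n := ⟨_, rfl⟩
  have hR' : R = -(z i + z j + z k) := by
    rw [hR, ← sum_triple z hij hjk hki, sum_eq_neg_sum_compl z hz ({i, j, k} : Finset ι)ᶜ,
      compl_compl]
  have hρ : triRho z i j k = ‖R‖ ^ 2 := by rw [triRho, hR]
  have hρ0 : 0 ≤ triRho z i j k := hρ ▸ sq_nonneg _
  have hu : ∀ n ∈ ({i, j, k} : Finset ι), 0 ≤ -⟪z n, R⟫ := by
    intro n hn
    rw [hR, neg_nonneg]
    exact obtuse_inner_sum_nonpos z hob (fun h => Finset.mem_compl.1 h hn)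
  have hu0 := hu i (by simp)
  have hu1 := hu j (by simp)
  have hu2 := hu k (by simp)
  have husum : -⟪z i, R⟫ + -⟪z j, R⟫ + -⟪z k, R⟫ = triRho z i j k := by
    rw [hρ, ← neg_add, ← neg_add, ← inner_add_left, ← inner_add_left, ← inner_neg_left, ← hR',
      real_inner_self_eq_norm_sq]
  -- the three squared distances from the centroid, from the opposite sides
  have hdist : ∀ a b c : ι, R = -(z a + z b + z c) →
      3 * ‖z a‖ ^ 2 + 2 * ⟪z a, R⟫ + ‖R‖ ^ 2 / 3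
        = 2 * ((‖z a - z b‖ ^ 2 + ‖z b - z c‖ ^ 2 + ‖z c - z a‖ ^ 2) / 3) - ‖z b - z c‖ ^ 2 := by
    intro a b c he
    rw [he, norm_neg, inner_neg_right, norm_add_sq_real (z a + z b), norm_add_sq_real,
      inner_add_left, inner_add_right, inner_add_right, real_inner_self_eq_norm_sq,
      norm_sub_sq_real, norm_sub_sq_real, norm_sub_sq_real, real_inner_comm (z a) (z c)]
    ring
  rcases le_or_gt (triTp z i j k) 0 with hT | hT
  · have h1 : Real.sqrt ((1 - triShape z i j k) / 6) * triTp z i j k ≤ 0 :=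
      mul_nonpos_of_nonneg_of_nonpos (Real.sqrt_nonneg _) hT
    have h2 := mul_nonneg (Real.sqrt_nonneg (8 / 27 : ℝ)) hρ0
    have h3 : Real.sqrt ((1 - triShape z i j k) / 6) * triTp z i j k
        - Real.sqrt (8 / 27) * triRho z i j k = 0 := le_antisymm (by linarith) hsp
    rw [h3, zero_pow two_ne_zero]
    positivity
  have hS := sum_sides_sq_eq z hz hij hjk hki
  exact spread_alg (A₀ := ‖z j - z k‖ ^ 2) (A₁ := ‖z k - z i‖ ^ 2) (A₂ := ‖z i - z j‖ ^ 2)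
    (triShape_le_one z hz hij hjk hki) hu0 hu1 hu2 husum rfl
    (by linarith [sum_sides_dev_sq z hz hij hjk hki hT])
    (by rw [hρ]; linarith [hdist i j k hR'])
    (by rw [hρ]; linarith [hdist j k i (by rw [hR']; abel)])
    (by rw [hρ]; linarith [hdist k i j (by rw [hR']; abel)]) hsp

end Shape

section Branch

variable {ι E : Type*} [Fintype ι] [DecidableEq ι] [Nonempty ι] [NormedAddCommGroup E]
  [InnerProductSpace ℝ E] [FiniteDimensional ℝ E] [MeasurableSpace E] [BorelSpace E]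

/-- The scalar triangle branch with parameters chosen for each outside vector separately. -/
theorem width_le_T3_scalar_gen (z : ι → E) (hz : ∑ n, z n = 0)
    (hob : ∀ a b, a ≠ b → ⟪z a, z b⟫ ≤ 0) {i j k : ι} (hij : i ≠ j) (hjk : j ≠ k) (hki : k ≠ i)
    {A B tm l mg rmax D0 h0 K0 : ℝ} {S D h K : ι → ℝ}
    (hA : 0 < A) (hAa : A ≤ triShape z i j k) (hBa : triShape z i j k ≤ B)
    (htm : 0 < tm) (htT : tm ≤ triTp z i j k) (hl0 : 0 < l) (hl1 : l < 1)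
    (hmg : 1 + Real.sqrt (1 - A) ≤ mg * (3 / 4 * A * tm))
    (hρ : triRho z i j k ≤ rmax) (hD0 : mg * rmax / 3 ≤ D0) (hD0' : 3 * D0 < 1)
    (hS : ∀ m ∈ ({i, j, k} : Finset ι)ᶜ, ‖z m‖ ^ 2 ≤ S m)
    (hD : ∀ m ∈ ({i, j, k} : Finset ι)ᶜ, D0 + mg * S m / (1 - l) ≤ D m)
    (hD' : ∀ m ∈ ({i, j, k} : Finset ι)ᶜ, 3 * D m < 1)
    (hh0 : 0 ≤ h0)
    (hh0' : h0 ≤ l * Real.sqrt
      (2 * Real.pi * Real.sqrt (3 / 4 * A) * tm * (1 - 9 * D0 ^ 2) / 27))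
    (hh : ∀ m ∈ ({i, j, k} : Finset ι)ᶜ, 0 ≤ h m)
    (hh' : ∀ m ∈ ({i, j, k} : Finset ι)ᶜ, h m ≤ (1 - l) * Real.sqrt
      (2 * Real.pi * Real.sqrt (3 / 4 * A) * tm * (1 - 9 * D m ^ 2) / 27))
    (hK0 : ∀ v, 0 ≤ v → v ≤ Real.sqrt rmax / 3 → phi2 v h0 ≤ K0 * v ^ 2)
    (hK : ∀ m ∈ ({i, j, k} : Finset ι)ᶜ, ∀ v, 0 ≤ v → v ≤ Real.sqrt (S m) →
      phi2 v (h m) ≤ K m * v ^ 2) :
    width z ≤ 3 / 2 * Real.sqrt (triTp z i j k * (8 + B) / 9) + K0 * triRho z i j k / 9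
      + ∑ m ∈ ({i, j, k} : Finset ι)ᶜ, K m * ‖z m‖ ^ 2 := by
  obtain ⟨T, hTdef⟩ : ∃ T, T = triTp z i j k := ⟨_, rfl⟩
  obtain ⟨ρ, hρdef⟩ : ∃ ρ, ρ = triRho z i j k := ⟨_, rfl⟩
  have hT : 0 < T := hTdef ▸ htm.trans_le htT
  have hρ0 : 0 ≤ ρ := hρdef ▸ sq_nonneg _
  obtain ⟨G₀, hG₀⟩ : ∃ G, G = 3 / 4 * A * T * tm := ⟨_, rfl⟩
  obtain ⟨M, hM⟩ : ∃ M, M = T * (1 + Real.sqrt (1 - A)) := ⟨_, rfl⟩
  have hG0 : 0 < G₀ := hG₀ ▸ by positivity
  have hMpos : 0 ≤ M := hM ▸ by positivity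
  have hG : G₀ ≤ triG z i j k := by
    have e : triG z i j k = 3 / 4 * triShape z i j k * T * T := by
      rw [triShape, hTdef]
      have := (hTdef ▸ hT).ne'
      field_simp
    rw [e, hG₀]
    have ha : 0 ≤ triShape z i j k := hA.le.trans hAa
    exact mul_le_mul (mul_le_mul_of_nonneg_right (by linarith) hT.le) (hTdef ▸ htT) htm.le
      (mul_nonneg (mul_nonneg (by norm_num) ha) hT.le)
  have hside : T * (1 + Real.sqrt (1 - triShape z i j k)) ≤ M := by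
    rw [hM]
    have := Real.sqrt_le_sqrt (sub_le_sub_left hAa 1)
    gcongr
  obtain ⟨h₁, h₂, h₃⟩ := sides_sq_le z hz hij hjk hki (hTdef ▸ hT)
  rw [← hTdef] at h₁ h₂ h₃
  have hMG : M / G₀ ≤ mg := by
    rw [div_le_iff₀ hG0, hM, hG₀]
    calc T * (1 + Real.sqrt (1 - A)) ≤ T * (mg * (3 / 4 * A * tm)) :=
          mul_le_mul_of_nonneg_left hmg hT.le
      _ = mg * (3 / 4 * A * T * tm) := by ring
  have hmg0 : 0 ≤ mg := (div_nonneg hMpos hG0.le).trans hMG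
  have hρ' : ρ ≤ rmax := hρdef ▸ hρ
  have hDa : M * ρ / (3 * G₀) ≤ D0 := by
    refine le_trans ?_ hD0
    rw [show M * ρ / (3 * G₀) = M / G₀ * ρ / 3 by field_simp]
    gcongr
  have hDb : ∀ m ∈ ({i, j, k} : Finset ι)ᶜ,
      M * ρ / (3 * G₀) + M * ‖z m‖ ^ 2 / ((1 - l) * G₀) ≤ D m := by
    intro m hm
    refine le_trans (add_le_add hDa ?_) (hD m hm)
    rw [show M * ‖z m‖ ^ 2 / ((1 - l) * G₀) = M / G₀ * ‖z m‖ ^ 2 / (1 - l) by field_simp]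
    refine div_le_div_of_nonneg_right ?_ (by linarith)
    exact mul_le_mul hMG (hS m hm) (sq_nonneg _) hmg0
  have htri : ∀ d D', 0 ≤ d → d ≤ D' →
      Real.sqrt (2 * Real.pi * Real.sqrt (3 / 4 * A) * tm * (1 - 9 * D' ^ 2) / 27)
        ≤ triH G₀ d := by
    intro d D' hd hdD
    rcases le_total (1 - 9 * D' ^ 2) 0 with hneg | hpos
    · rw [Real.sqrt_eq_zero_of_nonpos]
      · exact triH_nonneg _ _
      · exact div_nonpos_of_nonpos_of_nonneg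
          (mul_nonpos_of_nonneg_of_nonpos (by positivity) hneg) (by norm_num)
    refine Real.sqrt_le_sqrt ?_
    have hs : Real.sqrt (3 / 4 * A) * tm ≤ Real.sqrt G₀ := by
      refine Real.le_sqrt_of_sq_le ?_
      rw [mul_pow, Real.sq_sqrt (by positivity), hG₀, sq, ← mul_assoc]
      exact mul_le_mul_of_nonneg_right (mul_le_mul_of_nonneg_left (hTdef ▸ htT) (by positivity))
        htm.le
    have hd2 : 1 - 9 * D' ^ 2 ≤ 1 - 9 * d ^ 2 := by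
      have := pow_le_pow_left₀ hd hdD 2
      linarith
    have h1 := mul_le_mul_of_nonneg_left (mul_le_mul hs hd2 hpos (Real.sqrt_nonneg _))
      (by positivity : (0 : ℝ) ≤ 2 * Real.pi / 27)
    linarith
  have hd0 : 0 ≤ M * ρ / (3 * G₀) := by positivity
  have hmain := width_le_T3 z hz hob hij hjk hki (G₀ := G₀) (M := M) hl0 hl1 hG0 hG
    (h₁.trans hside) (h₂.trans hside) (h₃.trans hside)
    (by rw [← triRho, ← hρdef]; linarith)
    (fun m hm => by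
      rw [← triRho, ← hρdef]
      linarith [hDb m hm, hD' m hm])
  rw [← triRho, ← hρdef] at hmain
  have hper : (‖z i - z j‖ + ‖z j - z k‖ + ‖z k - z i‖) / 2
      ≤ 3 / 2 * Real.sqrt (triTp z i j k * (8 + B) / 9) :=
    (half_perimeter_le_shape z hz hij hjk hki (hTdef ▸ hT)).trans
      (mul_le_mul_of_nonneg_left (Real.sqrt_le_sqrt (div_le_div_of_nonneg_right
        (mul_le_mul_of_nonneg_left (by linarith) (hTdef ▸ hT.le)) (by norm_num))) (by norm_num))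
  have hY : phi2 (Real.sqrt ρ / 3) (l * triH G₀ (M * ρ / (3 * G₀))) ≤ K0 * ρ / 9 := by
    have hv : 0 ≤ Real.sqrt ρ / 3 := by positivity
    refine (phi2_mono hv le_rfl hh0 (hh0'.trans (mul_le_mul_of_nonneg_left
      (htri _ _ hd0 hDa) hl0.le))).trans ?_
    refine (hK0 _ hv (div_le_div_of_nonneg_right (Real.sqrt_le_sqrt hρ') (by norm_num))).trans
      (le_of_eq ?_)
    rw [div_pow, Real.sq_sqrt hρ0]
    ring
  have hX : ∀ m ∈ ({i, j, k} : Finset ι)ᶜ, phi2 ‖z m‖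
      ((1 - l) * triH G₀ (M * ρ / (3 * G₀) + M * ‖z m‖ ^ 2 / ((1 - l) * G₀)))
      ≤ K m * ‖z m‖ ^ 2 := by
    intro m hm
    have hκ : 0 < 1 - l := by linarith
    refine (phi2_mono (norm_nonneg _) le_rfl (hh m hm) ((hh' m hm).trans
      (mul_le_mul_of_nonneg_left (htri _ _ (by positivity) (hDb m hm)) hκ.le))).trans ?_
    exact hK m hm _ (norm_nonneg _) (Real.le_sqrt_of_sq_le (hS m hm))
  have hsum := Finset.sum_le_sum hX
  rw [← hρdef]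
  linarith

/-- The scalar triangle branch with one fourth vector and a common bound for the rest. -/
theorem width_le_T3_scalar (z : ι → E) (hz : ∑ n, z n = 0)
    (hob : ∀ a b, a ≠ b → ⟪z a, z b⟫ ≤ 0) {i j k : ι} (hij : i ≠ j) (hjk : j ≠ k) (hki : k ≠ i)
    {m₄ : ι} (hm₄ : m₄ ∈ ({i, j, k} : Finset ι)ᶜ)
    {A B tm l mg rmax D0 h0 K0 S4 D h K S5 D5 h5 K5 : ℝ}
    (hA : 0 < A) (hAa : A ≤ triShape z i j k) (hBa : triShape z i j k ≤ B)
    (htm : 0 < tm) (htT : tm ≤ triTp z i j k) (hl0 : 0 < l) (hl1 : l < 1)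
    (hmg : 1 + Real.sqrt (1 - A) ≤ mg * (3 / 4 * A * tm))
    (hρ : triRho z i j k ≤ rmax) (hD0 : mg * rmax / 3 ≤ D0) (hD0' : 3 * D0 < 1)
    (hS4 : ‖z m₄‖ ^ 2 ≤ S4)
    (hS5 : ∀ m ∈ ({i, j, k} : Finset ι)ᶜ, m ≠ m₄ → ‖z m‖ ^ 2 ≤ S5)
    (hD : D0 + mg * S4 / (1 - l) ≤ D) (hD' : 3 * D < 1)
    (hD5 : D0 + mg * S5 / (1 - l) ≤ D5) (hD5' : 3 * D5 < 1)
    (hh0 : 0 ≤ h0)
    (hh0' : h0 ≤ l * Real.sqrt
      (2 * Real.pi * Real.sqrt (3 / 4 * A) * tm * (1 - 9 * D0 ^ 2) / 27))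
    (hh : 0 ≤ h)
    (hh' : h ≤ (1 - l) * Real.sqrt
      (2 * Real.pi * Real.sqrt (3 / 4 * A) * tm * (1 - 9 * D ^ 2) / 27))
    (hh5 : 0 ≤ h5)
    (hh5' : h5 ≤ (1 - l) * Real.sqrt
      (2 * Real.pi * Real.sqrt (3 / 4 * A) * tm * (1 - 9 * D5 ^ 2) / 27))
    (hK0 : ∀ v, 0 ≤ v → v ≤ Real.sqrt rmax / 3 → phi2 v h0 ≤ K0 * v ^ 2)
    (hK : ∀ v, 0 ≤ v → v ≤ Real.sqrt S4 → phi2 v h ≤ K * v ^ 2)
    (hK5 : ∀ v, 0 ≤ v → v ≤ Real.sqrt S5 → phi2 v h5 ≤ K5 * v ^ 2) :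
    width z ≤ 3 / 2 * Real.sqrt (triTp z i j k * (8 + B) / 9) + K0 * triRho z i j k / 9
      + K * ‖z m₄‖ ^ 2 + K5 * ∑ m ∈ (({i, j, k} : Finset ι)ᶜ).erase m₄, ‖z m‖ ^ 2 := by
  have hmain := width_le_T3_scalar_gen z hz hob hij hjk hki
    (S := fun m => if m = m₄ then S4 else S5) (D := fun m => if m = m₄ then D else D5)
    (h := fun m => if m = m₄ then h else h5) (K := fun m => if m = m₄ then K else K5)
    hA hAa hBa htm htT hl0 hl1 hmg hρ hD0 hD0'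
    (fun m hm => by
      by_cases e : m = m₄
      · simp [e, hS4]
      · simp [e, hS5 m hm e])
    (fun m _ => by by_cases e : m = m₄ <;> simp [e, hD, hD5])
    (fun m _ => by by_cases e : m = m₄ <;> simp [e, hD', hD5'])
    hh0 hh0'
    (fun m _ => by by_cases e : m = m₄ <;> simp [e, hh, hh5])
    (fun m _ => by
      by_cases e : m = m₄
      · simp only [e, if_true]; exact hh'
      · simp only [e, if_false]; exact hh5')
    hK0
    (fun m _ v hv hv' => by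
      by_cases e : m = m₄
      · simp only [e, if_true] at hv' ⊢
        exact hK v hv hv'
      · simp only [e, if_false] at hv' ⊢
        exact hK5 v hv hv')
  rw [← Finset.add_sum_erase _ _ hm₄, if_pos rfl, Finset.sum_congr rfl fun m hm => by
    rw [if_neg (Finset.ne_of_mem_erase hm)], ← Finset.mul_sum] at hmain
  linarith

/-- The scalar triangle branch with a common bound for all outside vectors. -/
theorem width_le_T3_scalar_one (z : ι → E) (hz : ∑ n, z n = 0)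
    (hob : ∀ a b, a ≠ b → ⟪z a, z b⟫ ≤ 0) {i j k : ι} (hij : i ≠ j) (hjk : j ≠ k) (hki : k ≠ i)
    {A B tm l mg rmax D0 h0 K0 S D h K : ℝ}
    (hA : 0 < A) (hAa : A ≤ triShape z i j k) (hBa : triShape z i j k ≤ B)
    (htm : 0 < tm) (htT : tm ≤ triTp z i j k) (hl0 : 0 < l) (hl1 : l < 1)
    (hmg : 1 + Real.sqrt (1 - A) ≤ mg * (3 / 4 * A * tm))
    (hρ : triRho z i j k ≤ rmax) (hD0 : mg * rmax / 3 ≤ D0) (hD0' : 3 * D0 < 1)
    (hS : ∀ m ∈ ({i, j, k} : Finset ι)ᶜ, ‖z m‖ ^ 2 ≤ S)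
    (hD : D0 + mg * S / (1 - l) ≤ D) (hD' : 3 * D < 1)
    (hh0 : 0 ≤ h0)
    (hh0' : h0 ≤ l * Real.sqrt
      (2 * Real.pi * Real.sqrt (3 / 4 * A) * tm * (1 - 9 * D0 ^ 2) / 27))
    (hh : 0 ≤ h)
    (hh' : h ≤ (1 - l) * Real.sqrt
      (2 * Real.pi * Real.sqrt (3 / 4 * A) * tm * (1 - 9 * D ^ 2) / 27))
    (hK0 : ∀ v, 0 ≤ v → v ≤ Real.sqrt rmax / 3 → phi2 v h0 ≤ K0 * v ^ 2)
    (hK : ∀ v, 0 ≤ v → v ≤ Real.sqrt S → phi2 v h ≤ K * v ^ 2) :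
    width z ≤ 3 / 2 * Real.sqrt (triTp z i j k * (8 + B) / 9) + K0 * triRho z i j k / 9
      + K * ∑ m ∈ ({i, j, k} : Finset ι)ᶜ, ‖z m‖ ^ 2 := by
  rw [Finset.mul_sum]
  exact width_le_T3_scalar_gen z hz hob hij hjk hki (S := fun _ => S) (D := fun _ => D)
    (h := fun _ => h) (K := fun _ => K) hA hAa hBa htm htT hl0 hl1 hmg hρ hD0 hD0' hS
    (fun _ _ => hD) (fun _ _ => hD') hh0 hh0' (fun _ _ => hh) (fun _ _ => hh') hK0
    (fun _ _ => hK)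

end Branch

end Vale.Agent.P226
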