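import Vale.Agent.P226.CertLeaf
import Vale.Agent.P226.TriangleScalar
import Vale.Agent.P226.Offset5
import Vale.Agent.P226.RegionT4n
import Vale.Agent.P226.Assembly

/-!
# Soundness of the certificate checker for the scalar cover (P226)

A leaf accepted by `Tree.check` gives `width z ≤ 3 / 2` for every normalised, sorted, obtuse family
whose point `(u, w, d, a)` lies in its box; hence a checked cover of the root gives `WidthBound`.
-/

namespace Vale.Agent.P226.Cert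

open MeasureTheory ProbabilityTheory Real
open scoped RealInnerProductSpace

variable {ι E : Type*} [Fintype ι] [DecidableEq ι] [NormedAddCommGroup E] [InnerProductSpace ℝ E]

/-- A normalised, centred, obtuse family with five largest members marked in decreasing order. -/
structure Fam (ι E : Type*) [Fintype ι] [NormedAddCommGroup E] [InnerProductSpace ℝ E] where
  z : ι → E
  hz : ∑ i, z i = 0
  hob : ∀ i j, i ≠ j → ⟪z i, z j⟫ ≤ 0
  hn : ∑ i, ‖z i‖ ^ 2 = 1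
  i : Fin 5 → ι
  inj : Function.Injective i
  anti : ∀ a b, a ≤ b → ‖z (i b)‖ ≤ ‖z (i a)‖
  rest : ∀ j, (∀ a, i a ≠ j) → ‖z j‖ ≤ ‖z (i 4)‖

namespace Fam

variable (f : Fam ι E)

/-- Squared norm of a marked member. -/
noncomputable def s (n : Fin 5) : ℝ := ‖f.z (f.i n)‖ ^ 2

/-- The three largest members. -/
def S3 : Finset ι := {f.i 0, f.i 1, f.i 2}

/-- The four largest members. -/
def S4 : Finset ι := insert (f.i 3) f.S3

/-- The five largest members. -/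
def S5 : Finset ι := insert (f.i 4) f.S4

/-- The mass beyond the four largest. -/
noncomputable def dd : ℝ := ∑ j ∈ f.S4ᶜ, ‖f.z j‖ ^ 2

theorem ne (a b : Fin 5) (h : a ≠ b) : f.i a ≠ f.i b := fun e => h (f.inj e)

theorem i3_notMem : f.i 3 ∉ f.S3 := by
  simp [S3, f.inj.eq_iff]

theorem i4_notMem : f.i 4 ∉ f.S4 := by
  simp [S4, S3, f.inj.eq_iff]

theorem sum_S3 (F : ι → ℝ) : ∑ j ∈ f.S3, F j = F (f.i 0) + F (f.i 1) + F (f.i 2) :=
  sum_triple F (f.ne 0 1 (by decide)) (f.ne 1 2 (by decide)) (f.ne 2 0 (by decide))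

theorem sum_S4 (F : ι → ℝ) :
    ∑ j ∈ f.S4, F j = F (f.i 0) + F (f.i 1) + F (f.i 2) + F (f.i 3) := by
  rw [S4, Finset.sum_insert f.i3_notMem, sum_S3]; ring

theorem sum_S5 (F : ι → ℝ) :
    ∑ j ∈ f.S5, F j = F (f.i 0) + F (f.i 1) + F (f.i 2) + F (f.i 3) + F (f.i 4) := by
  rw [S5, Finset.sum_insert f.i4_notMem, sum_S4]; ring

theorem sum_S3c (F : ι → ℝ) : ∑ j ∈ f.S3ᶜ, F j = F (f.i 3) + ∑ j ∈ f.S4ᶜ, F j := by
  rw [S4, Finset.compl_insert, Finset.add_sum_erase _ _ (Finset.mem_compl.2 f.i3_notMem)]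

theorem sum_S4c (F : ι → ℝ) : ∑ j ∈ f.S4ᶜ, F j = F (f.i 4) + ∑ j ∈ f.S5ᶜ, F j := by
  rw [S5, Finset.compl_insert, Finset.add_sum_erase _ _ (Finset.mem_compl.2 f.i4_notMem)]

theorem card_S3 : f.S3.card = 3 := by
  rw [S3, Finset.card_eq_three]
  exact ⟨_, _, _, f.ne 0 1 (by decide), f.ne 0 2 (by decide), f.ne 1 2 (by decide), rfl⟩

theorem card_S4 : f.S4.card = 4 := by
  rw [S4, Finset.card_insert_of_notMem f.i3_notMem, card_S3]

theorem card_S5 : f.S5.card = 5 := by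
  rw [S5, Finset.card_insert_of_notMem f.i4_notMem, card_S4]

theorem s_nonneg (n : Fin 5) : 0 ≤ f.s n := sq_nonneg _

theorem s_anti {a b : Fin 5} (h : a ≤ b) : f.s b ≤ f.s a :=
  pow_le_pow_left₀ (norm_nonneg _) (f.anti a b h) 2

theorem total : f.s 0 + f.s 1 + f.s 2 + f.s 3 + f.dd = 1 := by
  have h := Finset.sum_add_sum_compl f.S4 fun j => ‖f.z j‖ ^ 2
  rw [f.hn, sum_S4] at h
  exact h

theorem dd_eq : f.dd = f.s 4 + ∑ j ∈ f.S5ᶜ, ‖f.z j‖ ^ 2 := f.sum_S4c _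

theorem w_le_dd : f.s 4 ≤ f.dd := by
  rw [dd_eq]
  linarith [Finset.sum_nonneg fun j (_ : j ∈ f.S5ᶜ) => sq_nonneg ‖f.z j‖]

theorem dd_nonneg : 0 ≤ f.dd := (f.s_nonneg 4).trans f.w_le_dd

theorem sq_le_of_S4c {j : ι} (hj : j ∈ f.S4ᶜ) : ‖f.z j‖ ^ 2 ≤ f.s 4 := by
  by_cases h : ∀ a, f.i a ≠ j
  · exact pow_le_pow_left₀ (norm_nonneg _) (f.rest j h) 2
  · push Not at h
    obtain ⟨a, ha⟩ := h
    subst ha
    have ha4 : a = 4 := by
      fin_cases a <;> simp_all [S4, S3]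
    subst ha4
    exact le_rfl

theorem mem_S4c_of_S5c {j : ι} (hj : j ∈ f.S5ᶜ) : j ∈ f.S4ᶜ := by
  rw [Finset.mem_compl, S5, Finset.mem_insert, not_or] at hj
  exact Finset.mem_compl.2 hj.2

theorem sq_le_of_S5c {j : ι} (hj : j ∈ f.S5ᶜ) : ‖f.z j‖ ^ 2 ≤ f.dd - f.s 4 := by
  rw [dd_eq, add_sub_cancel_left]
  exact Finset.single_le_sum (fun i _ => sq_nonneg ‖f.z i‖) hj

theorem sq_le_of_S3c {j : ι} (hj : j ∈ f.S3ᶜ) : ‖f.z j‖ ^ 2 ≤ f.s 3 := by
  by_cases h : j = f.i 3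
  · subst h; exact le_rfl
  · refine (f.sq_le_of_S4c ?_).trans (f.s_anti (by decide))
    rw [Finset.mem_compl] at hj ⊢
    simp [S4, h, hj]

theorem four_u : 4 * f.s 3 + f.dd ≤ 1 := by
  linarith [f.total, f.s_anti (show (0 : Fin 5) ≤ 3 by decide),
    f.s_anti (show (1 : Fin 5) ≤ 3 by decide), f.s_anti (show (2 : Fin 5) ≤ 3 by decide)]

theorem five_w : 5 * f.s 4 ≤ 1 := by
  linarith [f.four_u, f.w_le_dd, f.s_anti (show (3 : Fin 5) ≤ 4 by decide)]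

theorem s_le_half (n : Fin 5) : f.s n ≤ 1 / 2 := by
  have h := sum_eq_neg_sum_compl f.z f.hz {f.i n}
  rw [Finset.sum_singleton] at h
  have h2 := obtuse_norm_sum_sq_le f.z f.hob ({f.i n} : Finset ι)ᶜ
  rw [← norm_neg, ← h] at h2
  have h3 := Finset.sum_add_sum_compl {f.i n} fun j => ‖f.z j‖ ^ 2
  rw [f.hn, Finset.sum_singleton] at h3
  have h4 : f.s n = ‖f.z (f.i n)‖ ^ 2 := rfl
  linarith

theorem s_top_le (n : Fin 5) (hn : n ≤ 2) : f.s n ≤ 1 - f.dd - 3 * f.s 3 := by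
  have h := f.total
  have h0 := f.s_anti (show (0 : Fin 5) ≤ 3 by decide)
  have h1 := f.s_anti (show (1 : Fin 5) ≤ 3 by decide)
  have h2 := f.s_anti (show (2 : Fin 5) ≤ 3 by decide)
  fin_cases n <;> simp_all <;> linarith

/-- The shape of the triangle of the three largest. -/
noncomputable def shape : ℝ := triShape f.z (f.i 0) (f.i 1) (f.i 2)

theorem rho_bounds :
    0 ≤ triRho f.z (f.i 0) (f.i 1) (f.i 2) ∧ triRho f.z (f.i 0) (f.i 1) (f.i 2) ≤ f.s 3 + f.dd := by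
  refine ⟨sq_nonneg _, ?_⟩
  refine (obtuse_norm_sum_sq_le f.z f.hob _).trans (le_of_eq ?_)
  exact f.sum_S3c _

theorem tp_eq : triTp f.z (f.i 0) (f.i 1) (f.i 2)
    = 1 - f.s 3 - f.dd - triRho f.z (f.i 0) (f.i 1) (f.i 2) / 3 := by
  rw [triTp]
  have := f.total
  simp only [s] at *
  linarith

theorem shape_mem : 0 ≤ f.shape ∧ f.shape ≤ 1 := by
  refine ⟨?_, triShape_le_one f.z f.hz (f.ne 0 1 (by decide)) (f.ne 1 2 (by decide))
    (f.ne 2 0 (by decide))⟩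
  refine div_nonneg (mul_nonneg (by norm_num) ?_) (by positivity)
  rw [triG, sub_nonneg, ← mul_pow]
  exact sq_le_sq' (by linarith [neg_abs_le ⟪f.z (f.i 1) - f.z (f.i 0), f.z (f.i 2) - f.z (f.i 0)⟫,
      abs_real_inner_le_norm (f.z (f.i 1) - f.z (f.i 0)) (f.z (f.i 2) - f.z (f.i 0))])
    (real_inner_le_norm _ _)

/-- The point of the family lies in the box. -/
def In (b : Box) : Prop :=
  ((b.ul : ℝ) ≤ f.s 3 ∧ f.s 3 ≤ b.uh) ∧ ((b.wl : ℝ) ≤ f.s 4 ∧ f.s 4 ≤ b.wh) ∧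
    ((b.dl : ℝ) ≤ f.dd ∧ f.dd ≤ b.dh) ∧ ((b.al : ℝ) ≤ f.shape ∧ f.shape ≤ b.ah)

theorem in_clip {b : Box} (h : f.In b) : f.In b.clip := by
  obtain ⟨⟨h1, h2⟩, ⟨h3, h4⟩, ⟨h5, h6⟩, h7⟩ := h
  have e1 := f.s_anti (show (3 : Fin 5) ≤ 4 by decide)
  have e2 := f.w_le_dd
  have e3 := f.four_u
  have hul : ((max b.ul b.wl : ℚ) : ℝ) ≤ f.s 3 := by push_cast; exact max_le h1 (h3.trans e1)
  have hdl : ((max b.dl b.wl : ℚ) : ℝ) ≤ f.dd := by push_cast; exact max_le h5 (h3.trans e2)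
  have huh : f.s 3 ≤ ((min b.uh ((1 - max b.dl b.wl) / 4) : ℚ) : ℝ) := by
    push_cast at hdl ⊢; exact le_min h2 (by linarith)
  have hdh : f.dd ≤ ((min b.dh (1 - 4 * max b.ul b.wl) : ℚ) : ℝ) := by
    push_cast at hul ⊢; exact le_min h6 (by linarith)
  refine ⟨⟨hul, huh⟩, ⟨h3, ?_⟩, ⟨hdl, hdh⟩, h7⟩
  rw [show b.clip.wh = min b.wh (min (min b.uh ((1 - max b.dl b.wl) / 4))
    (min b.dh (1 - 4 * max b.ul b.wl))) from rfl, Rat.cast_min, Rat.cast_min]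
  exact le_min h4 (le_min (e1.trans huh) (e2.trans hdh))

theorem not_empty {b : Box} (h : f.In b) : b.isEmpty = false := by
  obtain ⟨⟨h1, h2⟩, ⟨h3, h4⟩, ⟨h5, h6⟩, -⟩ := h
  have e1 : b.ul ≤ b.uh := by exact_mod_cast h1.trans h2
  have e2 : b.wl ≤ b.wh := by exact_mod_cast h3.trans h4
  have e3 : b.dl ≤ b.dh := by exact_mod_cast h5.trans h6
  simp [Box.isEmpty, e1, e2, e3, not_lt]

end Fam

theorem le_lmax {a lo hi : ℚ} {x : ℝ} (h1 : (lo : ℝ) ≤ x) (h2 : x ≤ hi) :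
    (a : ℝ) * x ≤ (lmax a lo hi : ℚ) := by
  rw [lmax, Rat.cast_max, Rat.cast_mul, Rat.cast_mul]
  rcases le_total (0 : ℝ) a with ha | ha
  · exact le_max_of_le_right (mul_le_mul_of_nonneg_left h2 ha)
  · exact le_max_of_le_left (mul_le_mul_of_nonpos_left h1 ha)

theorem piLo_le : (piLo : ℝ) ≤ π := by
  have := Real.pi_gt_d6
  norm_num [piLo]; linarith

theorem le_piHi : π ≤ (piHi : ℝ) := by
  have := Real.pi_lt_d6
  norm_num [piHi]; linarith

/-- A rational lower bound of a threshold. -/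
theorem thr_le {h l sA A tm D : ℝ} (hl : 0 ≤ l) (hsA : 0 ≤ sA) (hA : sA * sA ≤ 3 / 4 * A)
    (htm : 0 ≤ tm) (hD : 0 ≤ D) (hD3 : 3 * D < 1)
    (hh : h * h ≤ l * l * (2 * (piLo : ℝ) * sA * tm * (1 - 9 * D * D) / 27)) :
    h ≤ l * Real.sqrt (2 * π * Real.sqrt (3 / 4 * A) * tm * (1 - 9 * D ^ 2) / 27) := by
  have hpos : 0 ≤ 1 - 9 * D ^ 2 := by nlinarith
  have hs : sA ≤ Real.sqrt (3 / 4 * A) := Real.le_sqrt_of_sq_le (by rwa [sq])
  have hX : h * h ≤ l ^ 2 * (2 * π * Real.sqrt (3 / 4 * A) * tm * (1 - 9 * D ^ 2) / 27) := by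
    refine hh.trans ?_
    rw [← sq, show 1 - 9 * D * D = 1 - 9 * D ^ 2 by ring]
    gcongr
    exact piLo_le
  calc h ≤ |h| := le_abs_self h
    _ = Real.sqrt (h * h) := (Real.sqrt_mul_self_eq_abs h).symm
    _ ≤ _ := Real.sqrt_le_sqrt hX
    _ = _ := by rw [Real.sqrt_mul (sq_nonneg l), Real.sqrt_sq hl]

variable [FiniteDimensional ℝ E] [MeasurableSpace E] [BorelSpace E] [Nonempty ι]

theorem tri_width (f : Fam ι E) (b : Box) (p : TriP) (h : triOK b p = true) (hin : f.In b) :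
    width f.z ≤ 3 / 2 * Real.sqrt (triTp f.z (f.i 0) (f.i 1) (f.i 2) * (8 + (b.ah : ℝ)) / 9)
      + (p.K0 : ℝ) * triRho f.z (f.i 0) (f.i 1) (f.i 2) / 9 + (p.K : ℝ) * f.s 3
      + (p.K5 : ℝ) * f.dd := by
  obtain ⟨⟨hu1, hu2⟩, ⟨hw1, hw2⟩, ⟨hd1, hd2⟩, ⟨ha1, ha2⟩⟩ := hin
  simp only [triOK, Bool.and_eq_true, decide_eq_true_eq, triSide] at h
  obtain ⟨⟨⟨⟨hside, hk0⟩, hk⟩, hk5⟩, -⟩ := h
  obtain ⟨⟨⟨⟨⟨⟨⟨⟨⟨⟨⟨⟨⟨⟨⟨⟨⟨⟨⟨⟨⟨⟨⟨⟨⟨⟨⟨⟨⟨⟨⟨⟨⟨hal, hl0⟩, hl1⟩, htm⟩, hsq⟩, hsq2⟩, hmg⟩, hmg2⟩, hD0a⟩, hD03⟩, hD00⟩,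
    hDa⟩, hD3⟩, hD00'⟩, hD5a⟩, hD53⟩, hD50⟩, hsA⟩, hsA2⟩, hh00⟩, hh0b⟩, hh1⟩, hhb⟩, hh5⟩, hh5b⟩,
    hs00⟩, hs0⟩, hs40⟩, hs4⟩, hs50⟩, hs5⟩, hq⟩, hP⟩, hP2⟩ := hside
  replace hal : (0 : ℝ) < b.al := by exact_mod_cast hal
  replace hl0 : (0 : ℝ) < p.l := by exact_mod_cast hl0
  replace hl1 : (p.l : ℝ) < 1 := by exact_mod_cast hl1
  replace htm : (0 : ℝ) < 1 - 4 / 3 * (b.uh + b.dh) := by
    have h := (Rat.cast_lt (K := ℝ)).2 htm; push_cast at h; exact h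
  replace hsq : (0 : ℝ) ≤ p.sq := by exact_mod_cast hsq
  replace hsq2 : 1 - (b.al : ℝ) ≤ p.sq * p.sq := by exact_mod_cast hsq2
  replace hmg2 : 1 + (p.sq : ℝ) ≤ p.mg * (3 / 4 * b.al * (1 - 4 / 3 * (b.uh + b.dh))) := by
    have h := (Rat.cast_le (K := ℝ)).2 hmg2; push_cast at h; exact h
  replace hD0a : (p.mg : ℝ) * (b.uh + b.dh) / 3 ≤ p.D0 := by
    have h := (Rat.cast_le (K := ℝ)).2 hD0a; push_cast at h; exact h
  replace hD03 : 3 * (p.D0 : ℝ) < 1 := by exact_mod_cast hD03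
  replace hD00 : (0 : ℝ) ≤ p.D0 := by exact_mod_cast hD00
  replace hDa : (p.D0 : ℝ) + p.mg * b.uh / (1 - p.l) ≤ p.D := by
    have h := (Rat.cast_le (K := ℝ)).2 hDa; push_cast at h; exact h
  replace hD3 : 3 * (p.D : ℝ) < 1 := by exact_mod_cast hD3
  replace hD00' : (0 : ℝ) ≤ p.D := by exact_mod_cast hD00'
  replace hD5a : (p.D0 : ℝ) + p.mg * b.wh / (1 - p.l) ≤ p.D5 := by
    have h := (Rat.cast_le (K := ℝ)).2 hD5a; push_cast at h; exact h
  replace hD53 : 3 * (p.D5 : ℝ) < 1 := by exact_mod_cast hD53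
  replace hD50 : (0 : ℝ) ≤ p.D5 := by exact_mod_cast hD50
  replace hsA : (0 : ℝ) ≤ p.sA := by exact_mod_cast hsA
  replace hsA2 : (p.sA : ℝ) * p.sA ≤ 3 / 4 * b.al := by
    have h := (Rat.cast_le (K := ℝ)).2 hsA2; push_cast at h; exact h
  replace hh00 : (0 : ℝ) ≤ p.h0 := by exact_mod_cast hh00
  replace hh1 : (0 : ℝ) ≤ p.h := by exact_mod_cast hh1
  replace hh5 : (0 : ℝ) ≤ p.h5 := by exact_mod_cast hh5
  replace hh0b : (p.h0 : ℝ) * p.h0
      ≤ p.l * p.l * (2 * (piLo : ℝ) * p.sA * (1 - 4 / 3 * (b.uh + b.dh)) * (1 - 9 * p.D0 * p.D0) / 27) := by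
    have h := (Rat.cast_le (K := ℝ)).2 hh0b; push_cast at h; exact h
  replace hhb : (p.h : ℝ) * p.h ≤ (1 - p.l) * (1 - p.l)
      * (2 * (piLo : ℝ) * p.sA * (1 - 4 / 3 * (b.uh + b.dh)) * (1 - 9 * p.D * p.D) / 27) := by
    have h := (Rat.cast_le (K := ℝ)).2 hhb; push_cast at h; exact h
  replace hh5b : (p.h5 : ℝ) * p.h5 ≤ (1 - p.l) * (1 - p.l)
      * (2 * (piLo : ℝ) * p.sA * (1 - 4 / 3 * (b.uh + b.dh)) * (1 - 9 * p.D5 * p.D5) / 27) := by
    have h := (Rat.cast_le (K := ℝ)).2 hh5b; push_cast at h; exact h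
  replace hs00 : (0 : ℝ) ≤ p.s0 := by exact_mod_cast hs00
  replace hs0 : (b.uh : ℝ) + b.dh ≤ 9 * p.s0 * p.s0 := by exact_mod_cast hs0
  replace hs40 : (0 : ℝ) ≤ p.s4 := by exact_mod_cast hs40
  replace hs4 : (b.uh : ℝ) ≤ p.s4 * p.s4 := by exact_mod_cast hs4
  replace hs50 : (0 : ℝ) ≤ p.s5 := by exact_mod_cast hs50
  replace hs5 : (b.wh : ℝ) ≤ p.s5 * p.s5 := by exact_mod_cast hs5
  replace hq : (0 : ℝ) < p.q := by exact_mod_cast hq
  replace hP : (0 : ℝ) ≤ p.P := by exact_mod_cast hP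
  replace hP2 : 8 + (b.ah : ℝ) ≤ 4 * p.P * p.P := by exact_mod_cast hP2
  obtain ⟨hρ0, hρ⟩ := f.rho_bounds
  have hTp := f.tp_eq
  have hm : f.i 3 ∈ ({f.i 0, f.i 1, f.i 2} : Finset ι)ᶜ := Finset.mem_compl.2 f.i3_notMem
  have hmain := width_le_T3_scalar f.z f.hz f.hob (f.ne 0 1 (by decide)) (f.ne 1 2 (by decide))
    (f.ne 2 0 (by decide)) hm (A := (b.al : ℝ)) (B := (b.ah : ℝ))
    (tm := 1 - 4 / 3 * ((b.uh : ℝ) + b.dh)) (l := (p.l : ℝ)) (mg := (p.mg : ℝ))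
    (rmax := (b.uh : ℝ) + b.dh) (D0 := (p.D0 : ℝ)) (h0 := (p.h0 : ℝ)) (K0 := (p.K0 : ℝ))
    (S4 := (b.uh : ℝ)) (D := (p.D : ℝ)) (h := (p.h : ℝ)) (K := (p.K : ℝ))
    (S5 := (b.wh : ℝ)) (D5 := (p.D5 : ℝ)) (h5 := (p.h5 : ℝ)) (K5 := (p.K5 : ℝ))
    hal ha1 ha2 htm (by linarith) hl0 hl1
    (by
      have h := Real.sqrt_le_iff.2 ⟨hsq, show 1 - (b.al : ℝ) ≤ (p.sq : ℝ) ^ 2 by rwa [sq]⟩
      linarith)
    (by linarith) hD0a hD03 hu2
    (fun m hm hne => by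
      refine (f.sq_le_of_S4c ?_).trans hw2
      rw [Fam.S4, Finset.compl_insert]
      exact Finset.mem_erase.2 ⟨hne, hm⟩)
    hDa hD3 hD5a hD53 hh00 (thr_le hl0.le hsA hsA2 htm.le hD00 hD03 hh0b)
    hh1 (thr_le (by linarith) hsA hsA2 htm.le hD00' hD3 hhb)
    hh5 (thr_le (by linarith) hsA hsA2 htm.le hD50 hD53 hh5b)
    (fun v hv hv' => kOK_two hk0 hv (by
      have : Real.sqrt ((b.uh : ℝ) + b.dh) ≤ 3 * p.s0 :=
        Real.sqrt_le_iff.2 ⟨by linarith, by linarith⟩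
      linarith))
    (fun v hv hv' => kOK_two hk hv (hv'.trans (Real.sqrt_le_iff.2 ⟨hs40, by rwa [sq]⟩)))
    (fun v hv hv' => kOK_two hk5 hv (hv'.trans (Real.sqrt_le_iff.2 ⟨hs50, by rwa [sq]⟩)))
  have hsum : ∑ m ∈ (({f.i 0, f.i 1, f.i 2} : Finset ι)ᶜ).erase (f.i 3), ‖f.z m‖ ^ 2 = f.dd := by
    show ∑ m ∈ f.S3ᶜ.erase (f.i 3), _ = _
    rw [Fam.dd, Fam.S4, Finset.compl_insert]
  rw [hsum] at hmain
  exact hmain

/-- The arithmetic of the triangle leaf. -/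
theorem tri_arith {W T ρ u d q P B K0 K K5 e sl c ku kd : ℝ} (hq : 0 < q) (hP : 0 ≤ P)
    (hP2 : 8 + B ≤ 4 * P * P) (hT0 : 0 ≤ T) (hT : T = 1 - u - d - ρ / 3) (hρ0 : 0 ≤ ρ)
    (hρ : ρ ≤ u + d) (hW : W ≤ 3 / 2 * Real.sqrt (T * (8 + B) / 9) + K0 * ρ / 9 + K * u + K5 * d)
    (hsl : sl = P / (2 * q)) (he0 : 0 ≤ e) (he1 : K0 / 9 - sl / 3 ≤ e)
    (hku : (-sl + e + K) * u ≤ ku) (hkd : (-sl + e + K5) * d ≤ kd)
    (hc : sl * (1 + q * q) + ku + kd ≤ c) : W ≤ c := by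
  have h1 : Real.sqrt (T * (8 + B) / 9) ≤ 2 * P / 3 * Real.sqrt T := by
    refine Real.sqrt_le_iff.2 ⟨by positivity, ?_⟩
    rw [mul_pow, Real.sq_sqrt hT0]
    nlinarith [mul_le_mul_of_nonneg_left hP2 hT0]
  have h2 : Real.sqrt T ≤ (T + q ^ 2) / (2 * q) := by
    rw [le_div_iff₀ (by positivity)]
    nlinarith [sq_nonneg (Real.sqrt T - q), Real.sq_sqrt hT0]
  have h3 : P * Real.sqrt T ≤ sl * (T + q ^ 2) := by
    refine (mul_le_mul_of_nonneg_left h2 hP).trans (le_of_eq ?_)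
    rw [hsl]; ring
  have h4 := mul_le_mul_of_nonneg_right he1 hρ0
  have h5 := mul_le_mul_of_nonneg_left hρ he0
  subst hT
  linarith

theorem tri_sound (f : Fam ι E) (b : Box) (p : TriP) (h : triOK b p = true) (hin : f.In b) :
    width f.z ≤ 3 / 2 := by
  have hmain := tri_width f b p h hin
  obtain ⟨⟨hu1, hu2⟩, -, ⟨hd1, hd2⟩, -⟩ := hin
  simp only [triOK, Bool.and_eq_true, decide_eq_true_eq, triSide] at h
  obtain ⟨⟨⟨⟨hside, -⟩, -⟩, -⟩, hval⟩ := h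
  obtain ⟨⟨⟨hq, hP⟩, hP2⟩, htm⟩ :
      (((0 : ℝ) < p.q ∧ (0 : ℝ) ≤ p.P) ∧ 8 + (b.ah : ℝ) ≤ 4 * p.P * p.P) ∧
        (0 : ℝ) < 1 - 4 / 3 * (b.uh + b.dh) := by
    refine ⟨⟨⟨?_, ?_⟩, ?_⟩, ?_⟩
    · exact_mod_cast hside.1.1.2
    · exact_mod_cast hside.1.2
    · exact_mod_cast hside.2
    · have h : 0 < 1 - 4 / 3 * (b.uh + b.dh) := by tauto
      have h' := (Rat.cast_lt (K := ℝ)).2 h
      push_cast at h'; exact h'
  obtain ⟨hρ0, hρ⟩ := f.rho_bounds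
  have hT0 : 0 ≤ triTp f.z (f.i 0) (f.i 1) (f.i 2) := by linarith [f.tp_eq]
  have hval' : ((triVal b p : ℚ) : ℝ) ≤ 3 / 2 := by
    have := (Rat.cast_le (K := ℝ)).2 hval; push_cast at this; exact this
  simp only [triVal, lmax] at hval'
  have hl_u := le_lmax (a := -(p.P / (2 * p.q)) + max 0 (p.K0 / 9 - p.P / (2 * p.q) / 3) + p.K)
    hu1 hu2
  have hl_d := le_lmax (a := -(p.P / (2 * p.q)) + max 0 (p.K0 / 9 - p.P / (2 * p.q) / 3) + p.K5)
    hd1 hd2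
  simp only [lmax] at hl_u hl_d
  push_cast at hval' hl_u hl_d
  exact tri_arith hq hP hP2 hT0 f.tp_eq hρ0 hρ hmain rfl (le_max_left _ _) (le_max_right _ _)
    hl_u hl_d hval'

/-- The bound for four vectors, allowing a larger offset. -/
theorem width_le_T4n_off (f : Fam ι E) (hE : 3 ≤ Module.finrank ℝ E) {t X : ℝ} (ht : 0 < t)
    (hX : f.dd / 16 ≤ X) (h : X < f.s 3 ∨ X = 0) :
    width f.z ≤ 4 * t
      + ∑ i ∈ f.S4, (cap3 √(‖f.z i‖ ^ 2 - X) t + X / (2 * √(‖f.z i‖ ^ 2 - X)))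
      + ∑ j ∈ f.S4ᶜ, phi3 ‖f.z j‖ t := by
  by_cases hu : X < f.s 3
  · have hS : ∀ i ∈ f.S4, f.s 3 ≤ ‖f.z i‖ ^ 2 := by
      intro i hi
      simp only [Fam.S4, Fam.S3, Finset.mem_insert, Finset.mem_singleton] at hi
      rcases hi with rfl | rfl | rfl | rfl
      · exact le_rfl
      · exact f.s_anti (a := 0) (by decide)
      · exact f.s_anti (a := 1) (by decide)
      · exact f.s_anti (a := 2) (by decide)
    refine (width_le_T4n f.z hE f.hz f.hob f.card_S4 (x := f.dd / 16) rfl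
      (fun i hi => (hX.trans_lt hu).trans_le (hS i hi)) ht.le).trans ?_
    refine add_le_add (add_le_add le_rfl (Finset.sum_le_sum fun i hi => ?_)) le_rfl
    set x := f.dd / 16
    have hx0 : 0 ≤ x := div_nonneg f.dd_nonneg (by norm_num)
    have hv' : 0 < √(‖f.z i‖ ^ 2 - X) := Real.sqrt_pos.2 (by linarith [hS i hi])
    have hvv : √(‖f.z i‖ ^ 2 - X) ≤ √(‖f.z i‖ ^ 2 - x) := Real.sqrt_le_sqrt (by linarith)
    have hc := cap3_sub_le ht.le hv' hvv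
    set v := √(‖f.z i‖ ^ 2 - x) with hvdef
    set v' := √(‖f.z i‖ ^ 2 - X) with hv'def
    have e : v ^ 2 - v' ^ 2 = X - x := by
      rw [hvdef, hv'def, Real.sq_sqrt (by linarith [hS i hi]), Real.sq_sqrt (by linarith [hS i hi])]
      ring
    have hv : 0 < v := hv'.trans_le hvv
    have h1 : v - v' ≤ (X - x) / (2 * v') := by
      rw [le_div_iff₀ (by positivity), ← e]
      nlinarith
    have h2 : x / (2 * v) ≤ x / (2 * v') := by gcongr
    have h3 : (X - x) / (2 * v') + x / (2 * v') = X / (2 * v') := by rw [← add_div, sub_add_cancel]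
    linarith
  · obtain rfl : X = 0 := h.resolve_left hu
    have hd : f.dd = 0 := le_antisymm (by linarith) f.dd_nonneg
    have hu0 : f.s 3 = 0 := le_antisymm (not_lt.1 hu) (f.s_nonneg 3)
    have hz3 : ‖f.z (f.i 3)‖ = 0 := (pow_eq_zero_iff two_ne_zero).1 hu0
    have h3 := width_le_U3 f.z hE f.card_S3.le ht.le
    rw [f.sum_S3c, hz3, phi3_zero_left ht, zero_add, f.sum_S3] at h3
    rw [f.sum_S4]
    simp only [sub_zero, zero_div, add_zero, Real.sqrt_sq (norm_nonneg _), hz3, ne_eq, OfNat.ofNat_ne_zero, not_false_eq_true, zero_pow, Real.sqrt_zero]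
    rw [show cap3 0 t = 0 from if_pos ht.le, add_zero]
    linarith

/-- The bound for five vectors, allowing a larger offset. -/
theorem width_le_T5n_off (f : Fam ι E) (hE : 4 ≤ Module.finrank ℝ E) {t X : ℝ} (ht : 0 < t)
    (hX : (f.dd - f.s 4) / 25 ≤ X) (h : X < f.s 4 ∨ X = 0) :
    width f.z ≤ 3 * π / 2 * t
      + ∑ i ∈ f.S5, (cap4 √(‖f.z i‖ ^ 2 - X) t + 201 / 200 * (X / (2 * √(‖f.z i‖ ^ 2 - X))))
      + ∑ j ∈ f.S5ᶜ, phi4 ‖f.z j‖ t := by
  by_cases hw : X < f.s 4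
  · have hS : ∀ i ∈ f.S5, f.s 4 ≤ ‖f.z i‖ ^ 2 := by
      intro i hi
      simp only [Fam.S5, Fam.S4, Fam.S3, Finset.mem_insert, Finset.mem_singleton] at hi
      rcases hi with rfl | rfl | rfl | rfl | rfl
      · exact le_rfl
      · exact f.s_anti (a := 3) (by decide)
      · exact f.s_anti (a := 0) (by decide)
      · exact f.s_anti (a := 1) (by decide)
      · exact f.s_anti (a := 2) (by decide)
    refine (width_le_T5n f.z hE f.hz f.hob f.card_S5 (x := (f.dd - f.s 4) / 25)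
      (by rw [f.dd_eq, add_sub_cancel_left]) (fun i hi => (hX.trans_lt hw).trans_le (hS i hi))
      ht.le).trans ?_
    refine add_le_add (add_le_add le_rfl (Finset.sum_le_sum fun i hi => ?_)) le_rfl
    set x := (f.dd - f.s 4) / 25
    have hx0 : 0 ≤ x := div_nonneg (sub_nonneg.2 f.w_le_dd) (by norm_num)
    have hv' : 0 < √(‖f.z i‖ ^ 2 - X) := Real.sqrt_pos.2 (by linarith [hS i hi])
    have hvv : √(‖f.z i‖ ^ 2 - X) ≤ √(‖f.z i‖ ^ 2 - x) := Real.sqrt_le_sqrt (by linarith)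
    have hc := cap4_sub_le ht.le hv' hvv
    set v := √(‖f.z i‖ ^ 2 - x) with hvdef
    set v' := √(‖f.z i‖ ^ 2 - X) with hv'def
    have e : v ^ 2 - v' ^ 2 = X - x := by
      rw [hvdef, hv'def, Real.sq_sqrt (by linarith [hS i hi]), Real.sq_sqrt (by linarith [hS i hi])]
      ring
    have hv : 0 < v := hv'.trans_le hvv
    have h1 : v - v' ≤ (X - x) / (2 * v') := by
      rw [le_div_iff₀ (by positivity), ← e]
      nlinarith
    have h2 : x / (2 * v) ≤ x / (2 * v') := by gcongr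
    have h3 : (X - x) / (2 * v') + x / (2 * v') = X / (2 * v') := by rw [← add_div, sub_add_cancel]
    linarith
  · obtain rfl : X = 0 := h.resolve_left hw
    have hw0 : f.s 4 = 0 := le_antisymm (not_lt.1 hw) (f.s_nonneg 4)
    have hz4 : ‖f.z (f.i 4)‖ = 0 := (pow_eq_zero_iff two_ne_zero).1 hw0
    have h4 := width_le_U4 f.z hE f.card_S4.le ht.le
    rw [f.sum_S4c, hz4, phi4_zero_left, zero_add, f.sum_S4] at h4
    rw [f.sum_S5]
    simp only [sub_zero, zero_div, mul_zero, add_zero, Real.sqrt_sq (norm_nonneg _), hz4, ne_eq, OfNat.ofNat_ne_zero, not_false_eq_true, zero_pow, Real.sqrt_zero]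
    rw [show cap4 0 t = 0 from if_pos ht.le, add_zero]
    linarith

/-- A squared norm in range gives its square root in range. -/
theorem sqrt_mem {lo hi x sL sH : ℚ} {y : ℝ} (_hlo : 0 ≤ lo) (hhi : 0 ≤ hi)
    (h1 : lo * lo + x ≤ sL) (h2 : sH ≤ hi * hi + x) (hy1 : (sL : ℝ) ≤ y) (hy2 : y ≤ sH) :
    (lo : ℝ) ≤ √(y - x) ∧ √(y - x) ≤ hi ∧ √(y - x) ^ 2 + x = y := by
  have e1 : (lo : ℝ) * lo + x ≤ sL := by exact_mod_cast h1
  have e2 : (sH : ℝ) ≤ hi * hi + x := by exact_mod_cast h2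
  have h0 : (0 : ℝ) ≤ y - x := by nlinarith [mul_self_nonneg (lo : ℝ)]
  refine ⟨Real.le_sqrt_of_sq_le (by rw [sq]; linarith),
    Real.sqrt_le_iff.2 ⟨by exact_mod_cast hhi, by rw [sq]; linarith⟩, ?_⟩
  rw [Real.sq_sqrt h0]; ring

omit [FiniteDimensional ℝ E] [MeasurableSpace E] [BorelSpace E] [Nonempty ι] in
theorem spread_sound (f : Fam ι E) (b : Box) (hin : f.In b) {c1 : ℚ} (hc : 0 ≤ c1)
    (hc2 : c1 * c1 ≤ (1 - b.ah) / 6 ∨ c1 = 0) (m : ℝ) :
    (spLo b c1 : ℝ) * (spLo b c1 : ℝ) ≤ (f.s 0 - m) ^ 2 + (f.s 1 - m) ^ 2 + (f.s 2 - m) ^ 2 := by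
  obtain ⟨⟨hu1, hu2⟩, -, ⟨hd1, hd2⟩, ⟨ha1, ha2⟩⟩ := hin
  rcases le_or_gt (c1 * (1 - 4 / 3 * (b.uh + b.dh)) - c2 * (b.uh + b.dh)) 0 with h | h
  · rw [spLo, max_eq_left h]; push_cast; nlinarith [sq_nonneg (f.s 0 - m), sq_nonneg (f.s 1 - m),
      sq_nonneg (f.s 2 - m)]
  rw [spLo, max_eq_right h.le]
  replace h := (Rat.cast_lt (K := ℝ)).2 h
  push_cast at h ⊢
  obtain ⟨hρ0, hρ⟩ := f.rho_bounds
  have hTp := f.tp_eq
  have hr : (0 : ℝ) ≤ b.uh + b.dh := by linarith [f.s_nonneg 3, f.dd_nonneg]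
  have hc2n : (c2 : ℝ) = 544332 / 1000000 := by norm_num [c2]
  have hcR : (0 : ℝ) ≤ c1 := by exact_mod_cast hc
  have hc1 : (c1 : ℝ) ≤ √((1 - f.shape) / 6) := by
    rcases hc2 with h' | h'
    · have e : (c1 : ℝ) * c1 ≤ (1 - b.ah) / 6 := by
        have := (Rat.cast_le (K := ℝ)).2 h'; push_cast at this; exact this
      exact Real.le_sqrt_of_sq_le (by rw [sq]; linarith)
    · rw [h', Rat.cast_zero]; exact Real.sqrt_nonneg _
  have hc2' : √(8 / 27) ≤ (c2 : ℝ) := by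
    rw [hc2n]; exact Real.sqrt_le_iff.2 ⟨by norm_num, by norm_num⟩
  set T := triTp f.z (f.i 0) (f.i 1) (f.i 2)
  set ρ := triRho f.z (f.i 0) (f.i 1) (f.i 2)
  have htm : 1 - 4 / 3 * ((b.uh : ℝ) + b.dh) ≤ T := by linarith
  have hcr : 0 ≤ (c2 : ℝ) * (b.uh + b.dh) := mul_nonneg (by rw [hc2n]; norm_num) hr
  have htm0 : 0 ≤ 1 - 4 / 3 * ((b.uh : ℝ) + b.dh) := by
    by_contra hneg; push Not at hneg
    nlinarith [mul_nonpos_of_nonneg_of_nonpos hcR hneg.le]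
  have h1 : (c1 : ℝ) * (1 - 4 / 3 * ((b.uh : ℝ) + b.dh)) ≤ √((1 - f.shape) / 6) * T :=
    mul_le_mul hc1 htm htm0 (Real.sqrt_nonneg _)
  have h2 : √(8 / 27) * ρ ≤ (c2 : ℝ) * (b.uh + b.dh) :=
    mul_le_mul hc2' (by linarith) hρ0 (by rw [hc2n]; norm_num)
  have hsp := spread_le f.z f.hz f.hob (f.ne 0 1 (by decide)) (f.ne 1 2 (by decide))
    (f.ne 2 0 (by decide)) m
    (show 0 ≤ √((1 - f.shape) / 6) * T - √(8 / 27) * ρ by linarith)
  refine le_trans ?_ hsp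
  rw [← sq]
  exact pow_le_pow_left₀ h.le (show _ ≤ √((1 - f.shape) / 6) * T - √(8 / 27) * ρ by linarith) 2

/-- The common part of the radial leaves. -/
structure RadHyp (f : Fam ι E) (b : Box) (p : RadP) (g : ℝ → ℝ) (ph : ℝ → ℝ) : Prop where
  top : ∀ n : Fin 5, n ≤ 2 → g (f.s n) ≤ p.be + p.al * f.s n - p.gam * (f.s n - p.M) ^ 2
  tl : ∀ r : ℝ, 0 ≤ r → r ^ 2 ≤ (p.kind.tail b : ℚ) → ph r ≤ p.K * r ^ 2
  four : p.kind.hasU = true → g (f.s 3) ≤ p.be4 + p.al4 * f.s 3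
  five : p.kind.hasW = true → g (f.s 4) ≤ p.be5 + p.al5 * f.s 4

omit [FiniteDimensional ℝ E] [MeasurableSpace E] [BorelSpace E] [Nonempty ι] in
theorem radHyp_of (f : Fam ι E) (b : Box) (p : RadP) (g : ℝ → ℝ) (ph : ℝ → ℝ)
    (hin : f.In b) (hside : radSide b p = true)
    (hg : ∀ al gam M be lo hi : ℚ, lineOK p.kind.dim p.t al gam M (p.kind.off b) be lo hi = true →
      ∀ y : ℝ, (lo : ℝ) ≤ √(y - (p.kind.off b : ℚ)) → √(y - (p.kind.off b : ℚ)) ≤ hi →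
        √(y - (p.kind.off b : ℚ)) ^ 2 + (p.kind.off b : ℚ) = y →
          g y ≤ be + al * y - gam * (y - M) ^ 2)
    (hph : ∀ s K : ℚ, kOK p.kind.dim p.t s K = true →
      ∀ r : ℝ, 0 ≤ r → r ≤ s → ph r ≤ K * r ^ 2)
    (hlines : radLines b p = true) : RadHyp f b p g ph := by
  obtain ⟨⟨hu1, hu2⟩, ⟨hw1, hw2⟩, ⟨hd1, hd2⟩, -⟩ := hin
  simp only [radSide, Bool.and_eq_true, Bool.or_eq_true, decide_eq_true_eq, Bool.not_eq_true'] at hside
  obtain ⟨⟨⟨⟨⟨⟨⟨⟨⟨⟨⟨⟨⟨-, -⟩, -⟩, -⟩, -⟩, hlo⟩, hlox⟩, hhi⟩, hhix⟩, -⟩, hU⟩, hW⟩, hst⟩, hstx⟩ := hside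
  simp only [radLines, Bool.and_eq_true, Bool.or_eq_true, Bool.not_eq_true'] at hlines
  obtain ⟨⟨⟨hl, hlU⟩, hlW⟩, hk⟩ := hlines
  refine ⟨fun n hn => ?_, fun r hr hr2 => ?_, fun hk' => ?_, fun hk' => ?_⟩
  · have hy2 : f.s n ≤ ((topHi b : ℚ) : ℝ) := by
      rw [topHi, Rat.cast_min]; push_cast
      exact le_min (f.s_le_half n) (by linarith [f.s_top_le n hn])
    obtain ⟨h1, h2, h3⟩ := sqrt_mem hlo hhi hlox hhix
      (hu1.trans (f.s_anti (hn.trans (by decide)))) hy2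
    exact hg _ _ _ _ _ _ hl _ h1 h2 h3
  · refine hph _ _ hk r hr ?_
    have e : ((p.kind.tail b : ℚ) : ℝ) ≤ (p.st : ℝ) ^ 2 := by
      rw [sq]; exact_mod_cast hstx
    exact (pow_le_pow_iff_left₀ hr (by exact_mod_cast hst) two_ne_zero).1 (hr2.trans e)
  · rw [hk'] at hU hlU
    simp only [Bool.true_eq_false, false_or] at hU hlU
    obtain ⟨⟨⟨⟨hlo4, hlox4⟩, hhi4⟩, hhix4⟩, -⟩ := hU
    obtain ⟨h1, h2, h3⟩ := sqrt_mem hlo4 hhi4 hlox4 hhix4 hu1 hu2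
    simpa using hg _ _ _ _ _ _ hlU _ h1 h2 h3
  · rw [hk'] at hW hlW
    simp only [Bool.true_eq_false, false_or] at hW hlW
    obtain ⟨⟨⟨⟨hlo5, hlox5⟩, hhi5⟩, hhix5⟩, -⟩ := hW
    obtain ⟨h1, h2, h3⟩ := sqrt_mem hlo5 hhi5 hlox5 hhix5 hw1 hw2
    simpa using hg _ _ _ _ _ _ hlW _ h1 h2 h3

theorem rad_top {f : Fam ι E} {b : Box} {p : RadP} {g ph : ℝ → ℝ} (h : RadHyp f b p g ph)
    (hin : f.In b) (hgam : 0 ≤ p.gam) (hc : 0 ≤ p.c1)
    (hc2 : p.c1 * p.c1 ≤ (1 - b.ah) / 6 ∨ p.c1 = 0) :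
    g (f.s 0) + g (f.s 1) + g (f.s 2) ≤ 3 * p.be + p.al * (1 - f.s 3 - f.dd)
      - p.gam * ((spLo b p.c1 : ℝ) * (spLo b p.c1 : ℝ)) := by
  have hgR : (0 : ℝ) ≤ p.gam := by exact_mod_cast hgam
  have := mul_le_mul_of_nonneg_left (spread_sound f b hin hc hc2 p.M) hgR
  have ht : f.s 0 + f.s 1 + f.s 2 = 1 - f.s 3 - f.dd := by linarith [f.total]
  linear_combination h.top 0 (by decide) + h.top 1 (by decide) + h.top 2 (by decide) + this
    + (p.al : ℝ) * ht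

omit [DecidableEq ι] [FiniteDimensional ℝ E] [MeasurableSpace E] [BorelSpace E] [Nonempty ι] in
theorem phi_sum_le (f : Fam ι E) {ph : ℝ → ℝ} {K : ℝ} (S : Finset ι)
    (h : ∀ j ∈ S, ph ‖f.z j‖ ≤ K * ‖f.z j‖ ^ 2) :
    ∑ j ∈ S, ph ‖f.z j‖ ≤ K * ∑ j ∈ S, ‖f.z j‖ ^ 2 := by
  rw [Finset.mul_sum]; exact Finset.sum_le_sum h

theorem rad_sound (f : Fam ι E) (hE : 5 ≤ Module.finrank ℝ E) (b : Box) (p : RadP)
    (h : radOK b p = true) (hin : f.In b) : width f.z ≤ 3 / 2 := by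
  simp only [radOK, Bool.and_eq_true, decide_eq_true_eq] at h
  obtain ⟨⟨hside, hval⟩, hlines⟩ := h
  obtain ⟨⟨hu1, hu2⟩, ⟨hw1, hw2⟩, ⟨hd1, hd2⟩, ⟨ha1, ha2⟩⟩ := id hin
  have hside' := hside
  simp only [radSide, Bool.and_eq_true, Bool.or_eq_true, decide_eq_true_eq, Bool.not_eq_true'] at hside'
  obtain ⟨⟨⟨⟨⟨⟨⟨⟨⟨⟨⟨⟨⟨htq, hx⟩, hgam⟩, hc⟩, hc2⟩, -⟩, hlox⟩, -⟩, -⟩, hxlo⟩, hU⟩, hW⟩, -⟩, -⟩ := hside'
  have ht : (0 : ℝ) < p.t := by exact_mod_cast htq
  have hval' : ((radVal b p : ℚ) : ℝ) ≤ 3 / 2 := by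
    have := (Rat.cast_le (K := ℝ)).2 hval; push_cast at this; exact this
  have htot := f.total
  obtain hk | hk | hk | hk | hk : p.kind = .u3 ∨ p.kind = .u4 ∨ p.kind = .u5 ∨ p.kind = .t4n ∨
      p.kind = .t5n := by cases p.kind <;> simp
  · have hoff : p.kind.off b = 0 := by rw [hk]; rfl
    have H := radHyp_of f b p (fun y => cap3 √y p.t) (fun r => phi3 r p.t) hin hside
      (fun al gam M be lo hi hl y h1 h2 h3 => by
        rw [hk] at hl
        simp only [Kind.off, Kind.dim] at hl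
        have := lineOK_three hl (v := √y) (by simpa [hoff] using h1) (by simpa [hoff] using h2)
        simp only [hoff, Rat.cast_zero, sub_zero, add_zero] at h3
        simp only [Rat.cast_zero, zero_div, add_zero] at this
        rw [h3] at this
        linarith)
      (fun s K hk' r hr0 hr => by rw [hk] at hk'; exact kOK_three hk' hr0 hr) hlines
    have hw := width_le_U3 f.z (by omega) f.card_S3.le ht.le
    rw [f.sum_S3] at hw
    have h1 := rad_top H hin hgam hc hc2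
    simp only [Fam.s, Real.sqrt_sq (norm_nonneg _)] at h1
    have h2 := phi_sum_le f (K := (p.K : ℝ)) (ph := fun r => phi3 r p.t) f.S3ᶜ fun j hj =>
      H.tl _ (norm_nonneg _) (by rw [hk]; exact (f.sq_le_of_S3c hj).trans hu2)
    rw [f.sum_S3c (fun j => ‖f.z j‖ ^ 2)] at h2
    have e1 := le_lmax (a := -p.al + p.K) hu1 hu2
    have e2 := le_lmax (a := -p.al + p.K) hd1 hd2
    simp only [radVal, hk, Kind.hasW, Kind.hasU, Kind.cn, Bool.false_eq_true, if_false] at hval'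
    push_cast at hval' e1 e2
    simp only [Fam.s, Fam.dd] at *
    linarith
  · have hoff : p.kind.off b = 0 := by rw [hk]; rfl
    have H := radHyp_of f b p (fun y => cap4 √y p.t) (fun r => phi4 r p.t) hin hside
      (fun al gam M be lo hi hl y h1 h2 h3 => by
        rw [hk] at hl
        simp only [Kind.off, Kind.dim] at hl
        have := lineOK_four hl (v := √y) (by simpa [hoff] using h1) (by simpa [hoff] using h2)
        simp only [hoff, Rat.cast_zero, sub_zero, add_zero] at h3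
        simp only [Rat.cast_zero, zero_div, mul_zero, add_zero] at this
        rw [h3] at this
        linarith)
      (fun s K hk' r hr0 hr => by rw [hk] at hk'; exact kOK_four hk' hr0 hr) hlines
    have hw := width_le_U4 f.z (by omega) f.card_S4.le ht.le
    rw [f.sum_S4] at hw
    have h1 := rad_top H hin hgam hc hc2
    have h3 := H.four (by rw [hk]; rfl)
    simp only [Fam.s, Real.sqrt_sq (norm_nonneg _)] at h1 h3
    have h2 := phi_sum_le f (K := (p.K : ℝ)) (ph := fun r => phi4 r p.t) f.S4ᶜ fun j hj =>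
      H.tl _ (norm_nonneg _) (by rw [hk]; exact (f.sq_le_of_S4c hj).trans hw2)
    have hpi : 3 * π / 2 * (p.t : ℝ) ≤ 3 / 2 * (piHi : ℝ) * p.t := by
      have := mul_le_mul_of_nonneg_right le_piHi ht.le; linarith
    have e1 := le_lmax (a := -p.al + p.al4) hu1 hu2
    have e2 := le_lmax (a := -p.al + p.K) hd1 hd2
    simp only [radVal, hk, Kind.hasW, Kind.hasU, Kind.cn, Bool.false_eq_true, if_false, if_true] at hval'
    push_cast at hval' e1 e2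
    simp only [Fam.s, Fam.dd] at *
    linarith
  · have hoff : p.kind.off b = 0 := by rw [hk]; rfl
    have H := radHyp_of f b p (fun y => cap5 √y p.t) (fun r => phi5 r p.t) hin hside
      (fun al gam M be lo hi hl y h1 h2 h3 => by
        rw [hk] at hl
        simp only [Kind.off, Kind.dim] at hl
        have := lineOK_five hl (v := √y) (by simpa [hoff] using h1) (by simpa [hoff] using h2)
        simp only [hoff, Rat.cast_zero, sub_zero, add_zero] at h3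
        simp only [Rat.cast_zero, zero_div, add_zero] at this
        rw [h3] at this
        linarith)
      (fun s K hk' r hr0 hr => by rw [hk] at hk'; exact kOK_five hk' hr0 hr) hlines
    have hw := width_le_U5 f.z hE f.card_S5.le ht.le
    rw [f.sum_S5] at hw
    have h1 := rad_top H hin hgam hc hc2
    have h3 := H.four (by rw [hk]; rfl)
    have h4 := H.five (by rw [hk]; rfl)
    simp only [Fam.s, Real.sqrt_sq (norm_nonneg _)] at h1 h3 h4
    have h2 := phi_sum_le f (K := (p.K : ℝ)) (ph := fun r => phi5 r p.t) f.S5ᶜ fun j hj =>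
      H.tl _ (norm_nonneg _) (by
        rw [hk]; simp only [Kind.tail]; push_cast
        exact le_min ((f.sq_le_of_S4c (f.mem_S4c_of_S5c hj)).trans hw2)
          ((f.sq_le_of_S5c hj).trans (by linarith)))
    have e1 := le_lmax (a := -p.al + p.al4) hu1 hu2
    have e2 := le_lmax (a := -p.al + p.K) hd1 hd2
    have e3 := le_lmax (a := p.al5 - p.K) hw1 hw2
    simp only [radVal, hk, Kind.hasW, Kind.cn, if_true] at hval'
    push_cast at hval' e1 e2 e3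
    have hdd := f.dd_eq
    simp only [Fam.s] at *
    rw [show ∑ j ∈ f.S5ᶜ, ‖f.z j‖ ^ 2 = f.dd - ‖f.z (f.i 4)‖ ^ 2 by linarith] at h2
    linarith
  · have H := radHyp_of f b p
      (fun y => cap3 √(y - (p.kind.off b : ℚ)) p.t
        + (p.kind.off b : ℚ) / (2 * √(y - (p.kind.off b : ℚ))))
      (fun r => phi3 r p.t) hin hside
      (fun al gam M be lo hi hl y h1 h2 h3 => by
        rw [show p.kind.dim = 3 by rw [hk]; rfl] at hl
        have := lineOK_three hl h1 h2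
        rw [h3] at this
        linarith)
      (fun s K hk' r hr0 hr => by rw [hk] at hk'; exact kOK_three hk' hr0 hr) hlines
    rw [hk] at hU
    simp only [Kind.hasU, Bool.true_eq_false, false_or] at hU
    obtain ⟨⟨⟨⟨hlo4, hlox4⟩, -⟩, -⟩, hx4⟩ := hU
    have hX : f.dd / 16 ≤ ((p.kind.off b : ℚ) : ℝ) := by
      rw [hk]; simp only [Kind.off]; push_cast; linarith
    have hcase : ((p.kind.off b : ℚ) : ℝ) < f.s 3 ∨ ((p.kind.off b : ℚ) : ℝ) = 0 := by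
      rw [hk]
      rcases hx4 with e | e
      · exact Or.inr (by rw [e]; simp)
      · left
        have e1 : (p.lo4 : ℝ) * p.lo4 + ((Kind.t4n.off b : ℚ) : ℝ) ≤ b.ul := by exact_mod_cast hlox4
        have e2 : (0 : ℝ) < p.lo4 := by exact_mod_cast e
        nlinarith
    have hw := width_le_T4n_off f (by omega) ht hX hcase
    rw [f.sum_S4] at hw
    have h1 := rad_top H hin hgam hc hc2
    have h3 := H.four (by rw [hk]; rfl)
    simp only [Fam.s] at h1 h3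
    have h2 := phi_sum_le f (K := (p.K : ℝ)) (ph := fun r => phi3 r p.t) f.S4ᶜ fun j hj =>
      H.tl _ (norm_nonneg _) (by rw [hk]; exact (f.sq_le_of_S4c hj).trans hw2)
    have e1 := le_lmax (a := -p.al + p.al4) hu1 hu2
    have e2 := le_lmax (a := -p.al + p.K) hd1 hd2
    simp only [radVal, hk, Kind.hasW, Kind.hasU, Kind.cn, Bool.false_eq_true, if_false, if_true] at hval'
    push_cast at hval' e1 e2
    simp only [Fam.s, Fam.dd] at *
    linarith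
  · have H := radHyp_of f b p
      (fun y => cap4 √(y - (p.kind.off b : ℚ)) p.t
        + 201 / 200 * ((p.kind.off b : ℚ) / (2 * √(y - (p.kind.off b : ℚ)))))
      (fun r => phi4 r p.t) hin hside
      (fun al gam M be lo hi hl y h1 h2 h3 => by
        rw [show p.kind.dim = 4 by rw [hk]; rfl] at hl
        have := lineOK_four hl h1 h2
        rw [h3] at this
        linarith)
      (fun s K hk' r hr0 hr => by rw [hk] at hk'; exact kOK_four hk' hr0 hr) hlines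
    rw [hk] at hW
    simp only [Kind.hasW, Bool.true_eq_false, false_or] at hW
    obtain ⟨⟨⟨⟨hlo5, hlox5⟩, -⟩, -⟩, hx5⟩ := hW
    have hX : (f.dd - f.s 4) / 25 ≤ ((p.kind.off b : ℚ) : ℝ) := by
      rw [hk]; simp only [Kind.off]; push_cast; linarith
    have hcase : ((p.kind.off b : ℚ) : ℝ) < f.s 4 ∨ ((p.kind.off b : ℚ) : ℝ) = 0 := by
      rw [hk]
      rcases hx5 with e | e
      · exact Or.inr (by rw [e]; simp)
      · left
        have e1 : (p.lo5 : ℝ) * p.lo5 + ((Kind.t5n.off b : ℚ) : ℝ) ≤ b.wl := by exact_mod_cast hlox5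
        have e2 : (0 : ℝ) < p.lo5 := by exact_mod_cast e
        nlinarith
    have hw := width_le_T5n_off f (by omega) ht hX hcase
    rw [f.sum_S5] at hw
    have h1 := rad_top H hin hgam hc hc2
    have h3 := H.four (by rw [hk]; rfl)
    have h4 := H.five (by rw [hk]; rfl)
    simp only [Fam.s] at h1 h3 h4
    have h2 := phi_sum_le f (K := (p.K : ℝ)) (ph := fun r => phi4 r p.t) f.S5ᶜ fun j hj =>
      H.tl _ (norm_nonneg _) (by
        rw [hk]; simp only [Kind.tail]; push_cast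
        exact le_min ((f.sq_le_of_S4c (f.mem_S4c_of_S5c hj)).trans hw2)
          ((f.sq_le_of_S5c hj).trans (by linarith)))
    have hpi : 3 * π / 2 * (p.t : ℝ) ≤ 3 / 2 * (piHi : ℝ) * p.t := by
      have := mul_le_mul_of_nonneg_right le_piHi ht.le; linarith
    have e1 := le_lmax (a := -p.al + p.al4) hu1 hu2
    have e2 := le_lmax (a := -p.al + p.K) hd1 hd2
    have e3 := le_lmax (a := p.al5 - p.K) hw1 hw2
    simp only [radVal, hk, Kind.hasW, Kind.cn, if_true] at hval'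
    push_cast at hval' e1 e2 e3
    have hdd := f.dd_eq
    simp only [Fam.s] at *
    rw [show ∑ j ∈ f.S5ᶜ, ‖f.z j‖ ^ 2 = f.dd - ‖f.z (f.i 4)‖ ^ 2 by linarith] at h2
    linarith

theorem full_sound (f : Fam ι E) (hE : 5 ≤ Module.finrank ℝ E) (b : Box)
    (h1 : 3 / 20 ≤ b.ul) (h2 : b.dh ≤ 4 / 25) (hin : f.In b) : width f.z ≤ 3 / 2 := by
  obtain ⟨⟨hu1, -⟩, -, ⟨-, hd2⟩, -⟩ := hin
  have e1 : (3 / 20 : ℝ) ≤ b.ul := by
    have := (Rat.cast_le (K := ℝ)).2 h1; push_cast at this; exact this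
  have e2 : (b.dh : ℝ) ≤ 4 / 25 := by
    have := (Rat.cast_le (K := ℝ)).2 h2; push_cast at this; exact this
  refine width_le_of_T4nRegion f.z (by omega) f.hz f.hob f.hn f.card_S4
    (i₀ := f.i 3) (Finset.mem_insert_self _ _) (fun i hi => ?_) (fun j hj => ?_)
    (Or.inr (Or.inr (Or.inr (Or.inl ⟨?_, ?_⟩))))
  · simp only [Fam.S4, Fam.S3, Finset.mem_insert, Finset.mem_singleton] at hi
    rcases hi with rfl | rfl | rfl | rfl
    · exact le_rfl
    all_goals exact f.anti _ _ (by decide)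
  · exact (pow_le_pow_iff_left₀ (norm_nonneg _) (norm_nonneg _) two_ne_zero).1
      ((f.sq_le_of_S4c (Finset.mem_compl.2 hj)).trans (f.s_anti (by decide)))
  · show 9 / 100 ≤ f.s 3
    linarith
  · show f.dd ≤ 4 / 25
    linarith

theorem check_sound (f : Fam ι E) (hE : 5 ≤ Module.finrank ℝ E) :
    ∀ (T : Tree) (b : Box), T.check b = true → f.In b → width f.z ≤ 3 / 2 := by
  intro T
  induction T with
  | empty =>
    intro b h hin
    simp only [Tree.check, f.not_empty (f.in_clip hin)] at h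
    exact absurd h (by decide)
  | full =>
    intro b h hin
    simp only [Tree.check, Bool.and_eq_true, decide_eq_true_eq] at h
    exact full_sound f hE b.clip h.1 h.2 (f.in_clip hin)
  | tri p => exact fun b h hin => tri_sound f b.clip p h (f.in_clip hin)
  | rad p => exact fun b h hin => rad_sound f hE b.clip p h (f.in_clip hin)
  | splitU m l r ihl ihr =>
    intro b h hin
    simp only [Tree.check, Bool.and_eq_true] at h
    rcases le_total (f.s 3) (m : ℝ) with hm | hm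
    · exact ihl _ h.1 ⟨⟨hin.1.1, hm⟩, hin.2⟩
    · exact ihr _ h.2 ⟨⟨hm, hin.1.2⟩, hin.2⟩
  | splitW m l r ihl ihr =>
    intro b h hin
    simp only [Tree.check, Bool.and_eq_true] at h
    rcases le_total (f.s 4) (m : ℝ) with hm | hm
    · exact ihl _ h.1 ⟨hin.1, ⟨hin.2.1.1, hm⟩, hin.2.2⟩
    · exact ihr _ h.2 ⟨hin.1, ⟨hm, hin.2.1.2⟩, hin.2.2⟩
  | splitD m l r ihl ihr =>
    intro b h hin
    simp only [Tree.check, Bool.and_eq_true] at h
    rcases le_total f.dd (m : ℝ) with hm | hm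
    · exact ihl _ h.1 ⟨hin.1, hin.2.1, ⟨hin.2.2.1.1, hm⟩, hin.2.2.2⟩
    · exact ihr _ h.2 ⟨hin.1, hin.2.1, ⟨hm, hin.2.2.1.2⟩, hin.2.2.2⟩
  | splitA m l r ihl ihr =>
    intro b h hin
    simp only [Tree.check, Bool.and_eq_true] at h
    rcases le_total f.shape (m : ℝ) with hm | hm
    · exact ihl _ h.1 ⟨hin.1, hin.2.1, hin.2.2.1, hin.2.2.2.1, hm⟩
    · exact ihr _ h.2 ⟨hin.1, hin.2.1, hin.2.2.1, hm, hin.2.2.2.2⟩

/-- The family of the statement `WidthBound`. -/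
def famOf {d k : ℕ} (hk : 5 ≤ k) (z : Fin (k + 1) → EuclideanSpace ℝ (Fin d)) (hz : ∑ i, z i = 0)
    (hob : ∀ i j, i ≠ j → ⟪z i, z j⟫ ≤ 0) (ha : Antitone fun i => ‖z i‖)
    (hn : ∑ i, ‖z i‖ ^ 2 = 1) : Fam (Fin (k + 1)) (EuclideanSpace ℝ (Fin d)) where
  z := z
  hz := hz
  hob := hob
  hn := hn
  i n := ⟨n.val, by omega⟩
  inj a b h := Fin.ext (by simpa using h)
  anti a b h := ha (Fin.mk_le_mk.2 (Fin.le_def.1 h))
  rest j hj := ha (Fin.le_def.2 (by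
    by_contra hlt
    push Not at hlt
    exact hj ⟨j.val, by simp at hlt ⊢; omega⟩ (Fin.ext rfl)))

/-- All families whose point is in the box satisfy the width bound. -/
def BoxGood (b : Box) : Prop :=
  ∀ (d k : ℕ) (z : Fin (k + 1) → EuclideanSpace ℝ (Fin d)) (_ : 5 ≤ d) (hk : 5 ≤ k)
    (hz : ∑ i, z i = 0) (hob : ∀ i j, i ≠ j → ⟪z i, z j⟫ ≤ 0) (ha : Antitone fun i => ‖z i‖)
    (hn : ∑ i, ‖z i‖ ^ 2 = 1), (famOf hk z hz hob ha hn).In b → width z ≤ 3 / 2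

theorem good_of_check (T : Tree) (b : Box) (h : T.check b = true) : BoxGood b :=
  fun d _k z hd hk hz hob ha hn hin =>
    check_sound (famOf hk z hz hob ha hn) (by simpa using hd) T b h hin

theorem good_splitU {b : Box} (m : ℚ) (hl : BoxGood { b with uh := m })
    (hr : BoxGood { b with ul := m }) : BoxGood b := fun d k z hd hk hz hob ha hn hin =>
  (le_total ((famOf hk z hz hob ha hn).s 3) (m : ℝ)).elim
    (fun hm => hl d k z hd hk hz hob ha hn ⟨⟨hin.1.1, hm⟩, hin.2⟩)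
    (fun hm => hr d k z hd hk hz hob ha hn ⟨⟨hm, hin.1.2⟩, hin.2⟩)

theorem good_splitW {b : Box} (m : ℚ) (hl : BoxGood { b with wh := m })
    (hr : BoxGood { b with wl := m }) : BoxGood b := fun d k z hd hk hz hob ha hn hin =>
  (le_total ((famOf hk z hz hob ha hn).s 4) (m : ℝ)).elim
    (fun hm => hl d k z hd hk hz hob ha hn ⟨hin.1, ⟨hin.2.1.1, hm⟩, hin.2.2⟩)
    (fun hm => hr d k z hd hk hz hob ha hn ⟨hin.1, ⟨hm, hin.2.1.2⟩, hin.2.2⟩)

theorem good_splitD {b : Box} (m : ℚ) (hl : BoxGood { b with dh := m })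
    (hr : BoxGood { b with dl := m }) : BoxGood b := fun d k z hd hk hz hob ha hn hin =>
  (le_total (famOf hk z hz hob ha hn).dd (m : ℝ)).elim
    (fun hm => hl d k z hd hk hz hob ha hn ⟨hin.1, hin.2.1, ⟨hin.2.2.1.1, hm⟩, hin.2.2.2⟩)
    (fun hm => hr d k z hd hk hz hob ha hn ⟨hin.1, hin.2.1, ⟨hm, hin.2.2.1.2⟩, hin.2.2.2⟩)

theorem good_splitA {b : Box} (m : ℚ) (hl : BoxGood { b with ah := m })
    (hr : BoxGood { b with al := m }) : BoxGood b := fun d k z hd hk hz hob ha hn hin =>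
  (le_total (famOf hk z hz hob ha hn).shape (m : ℝ)).elim
    (fun hm => hl d k z hd hk hz hob ha hn ⟨hin.1, hin.2.1, hin.2.2.1, hin.2.2.2.1, hm⟩)
    (fun hm => hr d k z hd hk hz hob ha hn ⟨hin.1, hin.2.1, hin.2.2.1, hm, hin.2.2.2.2⟩)

theorem widthBound_of_good (h : BoxGood root) : WidthBound := by
  intro d k z hd hk hz hob ha hn
  refine h d k z hd hk hz hob ha hn ?_
  set g := famOf hk z hz hob ha hn
  obtain ⟨hs0, hs1⟩ := g.shape_mem
  have h4 := g.four_u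
  have h5 := g.five_w
  have hd0 := g.dd_nonneg
  have hs3 := g.s_nonneg 3
  refine ⟨⟨?_, ?_⟩, ⟨?_, ?_⟩, ⟨?_, ?_⟩, ⟨?_, ?_⟩⟩ <;> simp only [root] <;> push_cast <;>
    linarith [g.s_nonneg 4]

theorem widthBound_of_check (T : Tree) (h : T.check root = true) : WidthBound :=
  widthBound_of_good (good_of_check T root h)

end Vale.Agent.P226.Cert
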