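import Vale.Agent.P226.CertLeaf

/-! Boxes of the certificate tree and the composition of checked subtrees (P226). -/

namespace Vale.Agent.P226.Cert

/-- A split point, in units of `2⁻¹²`. -/
def qm (n : ℤ) : ℚ := mkRat n 4096

/-- The lower half in `u`. -/
def Box.setHiU (b : Box) (m : ℚ) : Box := { b with uh := m }
/-- The upper half in `u`. -/
def Box.setLoU (b : Box) (m : ℚ) : Box := { b with ul := m }
/-- The lower half in `w`. -/
def Box.setHiW (b : Box) (m : ℚ) : Box := { b with wh := m }
/-- The upper half in `w`. -/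
def Box.setLoW (b : Box) (m : ℚ) : Box := { b with wl := m }
/-- The lower half in `d`. -/
def Box.setHiD (b : Box) (m : ℚ) : Box := { b with dh := m }
/-- The upper half in `d`. -/
def Box.setLoD (b : Box) (m : ℚ) : Box := { b with dl := m }
/-- The lower half in `a`. -/
def Box.setHiA (b : Box) (m : ℚ) : Box := { b with ah := m }
/-- The upper half in `a`. -/
def Box.setLoA (b : Box) (m : ℚ) : Box := { b with al := m }

theorem check_splitU {l r : Tree} {b : Box} {m : ℚ} (h1 : l.check (b.setHiU m) = true)
    (h2 : r.check (b.setLoU m) = true) : (Tree.splitU m l r).check b = true :=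
  Bool.and_eq_true_iff.2 ⟨h1, h2⟩

theorem check_splitW {l r : Tree} {b : Box} {m : ℚ} (h1 : l.check (b.setHiW m) = true)
    (h2 : r.check (b.setLoW m) = true) : (Tree.splitW m l r).check b = true :=
  Bool.and_eq_true_iff.2 ⟨h1, h2⟩

theorem check_splitD {l r : Tree} {b : Box} {m : ℚ} (h1 : l.check (b.setHiD m) = true)
    (h2 : r.check (b.setLoD m) = true) : (Tree.splitD m l r).check b = true :=
  Bool.and_eq_true_iff.2 ⟨h1, h2⟩

theorem check_splitA {l r : Tree} {b : Box} {m : ℚ} (h1 : l.check (b.setHiA m) = true)
    (h2 : r.check (b.setLoA m) = true) : (Tree.splitA m l r).check b = true :=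
  Bool.and_eq_true_iff.2 ⟨h1, h2⟩

end Vale.Agent.P226.Cert
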