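import Vale.Agent.P226.Cert.Part00
import Vale.Agent.P226.Cert.Part01
import Vale.Agent.P226.Cert.Part02
import Vale.Agent.P226.Cert.Part03
import Vale.Agent.P226.Cert.Part04
import Vale.Agent.P226.Cert.Part05
import Vale.Agent.P226.Cert.Part06
import Vale.Agent.P226.Cert.Part07
import Vale.Agent.P226.Cert.Part08
import Vale.Agent.P226.Cert.Part09
import Vale.Agent.P226.Cert.Part10
import Vale.Agent.P226.Cert.Part11
import Vale.Agent.P226.Cert.Part12
import Vale.Agent.P226.Cert.Part13
import Vale.Agent.P226.Cert.Part14
import Vale.Agent.P226.Cert.Part15
import Vale.Agent.P226.Cert.Part16
import Vale.Agent.P226.Cert.Part17
import Vale.Agent.P226.Cert.Part18
import Vale.Agent.P226.Cert.Part19
import Vale.Agent.P226.Cert.Part20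
import Vale.Agent.P226.Cert.Part21
import Vale.Agent.P226.Cert.Part22
import Vale.Agent.P226.Cert.Part23
import Vale.Agent.P226.Cert.Part24
import Vale.Agent.P226.Cert.Part25
import Vale.Agent.P226.Cert.Part26
import Vale.Agent.P226.Cert.Part27

/-!
# The whole cover (P226)

The checked parts of the certificate together cover the root box, hence `WidthBound`.
-/

namespace Vale.Agent.P226.Cert

/-- Every box of the domain is good. -/
theorem good_root : BoxGood root :=
  (good_splitD (qm 2048)
   (good_splitD (qm 1024)
    (good_splitU (qm 512)
     (good_splitA (qm 2048)
      (good_splitD (qm 512)
       (good_splitU (qm 256)
        (good_splitA (qm 1024)
         sub00_good
         (good_splitD (qm 256)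
          (good_splitU (qm 128)
           (good_splitW (qm 64)
            sub01_good
            sub02_good)
           sub03_good)
          sub04_good))
        sub05_good)
       sub06_good)
      (good_splitD (qm 512)
       (good_splitU (qm 256)
        (good_splitA (qm 3072)
         (good_splitD (qm 256)
          (good_splitU (qm 128)
           (good_splitU (qm 64)
            sub07_good
            (good_splitD (qm 128)
             sub08_good
             (good_splitU (qm 96)
              sub09_good
              (good_splitW (qm 64)
               sub10_good
               (good_splitD (qm 192)
                sub11_good
                sub12_good)))))
           (good_splitW (qm 128)
            (good_splitD (qm 128)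
             sub13_good
             (good_splitU (qm 192)
              (good_splitW (qm 64)
               sub14_good
               (good_splitD (qm 192)
                sub15_good
                (good_splitW (qm 96)
                 sub16_good
                 (good_splitA (qm 2560)
                  sub17_good
                  sub18_good))))
              sub19_good))
            sub20_good))
          (good_splitU (qm 128)
           (good_splitU (qm 64)
            sub21_good
            (good_splitW (qm 64)
             sub22_good
             sub23_good))
           sub24_good))
         (good_splitD (qm 256)
          (good_splitU (qm 128)
           sub25_good
           (good_splitW (qm 128)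
            (good_splitD (qm 128)
             sub26_good
             (good_splitU (qm 192)
              (good_splitA (qm 3584)
               (good_splitU (qm 160)
                sub27_good
                (good_splitD (qm 192)
                 sub28_good
                 (good_splitW (qm 64)
                  sub29_good
                  (good_splitW (qm 96)
                   sub30_good
                   (good_splitD (qm 224)
                    sub31_good
                    sub32_good)))))
               sub33_good)
              sub34_good))
            sub35_good))
          (good_splitU (qm 128)
           sub36_good
           (good_splitW (qm 128)
            (good_splitW (qm 64)
             sub37_good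
             (good_splitD (qm 384)
              (good_splitW (qm 96)
               sub38_good
               sub39_good)
              sub40_good))
            (good_splitW (qm 192)
             (good_splitD (qm 384)
              (good_splitW (qm 160)
               (good_splitU (qm 192)
                (good_splitD (qm 320)
                 (good_splitW (qm 144)
                  (good_splitU (qm 160)
                   (good_splitD (qm 288)
                    sub41_good
                    sub42_good)
                   sub43_good)
                  sub44_good)
                 sub45_good)
                sub46_good)
               sub47_good)
              sub48_good)
             sub49_good)))))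
        sub50_good)
       sub51_good))
     sub52_good)
    sub53_good)
   sub54_good)

/-- The scalar hypothesis of the assembly. -/
theorem widthBound : Vale.Agent.P226.WidthBound := widthBound_of_good good_root

end Vale.Agent.P226.Cert
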