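import Vale.Agent.P226.BranchScalar

/-!
# The certificate checker for the scalar cover (P226)

The cover lives on boxes in `(u, w, d, a)`: `u` and `w` are the fourth and fifth largest squared
norms, `d` the total beyond the fourth, `a` the shape of the triangle of the three largest
vectors. A leaf names a branch with rational parameters and is accepted when the resulting bound,
affine in `(u, w, d)`, is at most `3 / 2` at every corner.
-/

namespace Vale.Agent.P226.Cert

/-- The branches with a radial threshold. -/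
inductive Kind
  | u3 | u4 | u5 | t4n | t5n
  deriving DecidableEq

/-- A box in `(u, w, d, a)`. -/
structure Box where
  ul : ℚ
  uh : ℚ
  wl : ℚ
  wh : ℚ
  dl : ℚ
  dh : ℚ
  al : ℚ
  ah : ℚ

/-- The box cut down by `w ≤ u`, `w ≤ d` and `4 u + d ≤ 1`. -/
def Box.clip (b : Box) : Box :=
  let ul := max b.ul b.wl
  let dl := max b.dl b.wl
  let uh := min b.uh ((1 - dl) / 4)
  let dh := min b.dh (1 - 4 * ul)
  { b with ul := ul, dl := dl, uh := uh, dh := dh, wh := min b.wh (min uh dh) }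

/-- No point of the domain in the box. -/
def Box.isEmpty (b : Box) : Bool :=
  decide (b.uh < b.ul) || decide (b.wh < b.wl) || decide (b.dh < b.dl)

/-- Parameters of the triangle branch. -/
structure TriP where
  l : ℚ
  mg : ℚ
  sq : ℚ
  sA : ℚ
  D0 : ℚ
  D : ℚ
  D5 : ℚ
  h0 : ℚ
  h : ℚ
  h5 : ℚ
  s0 : ℚ
  s4 : ℚ
  s5 : ℚ
  K0 : ℚ
  K : ℚ
  K5 : ℚ
  P : ℚ
  q : ℚ

/-- Parameters of a radial branch. -/
structure RadP where
  kind : Kind
  t : ℚ
  gam : ℚ
  c1 : ℚ
  M : ℚ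
  al : ℚ
  be : ℚ
  lo : ℚ
  hi : ℚ
  al4 : ℚ
  be4 : ℚ
  lo4 : ℚ
  hi4 : ℚ
  al5 : ℚ
  be5 : ℚ
  lo5 : ℚ
  hi5 : ℚ
  st : ℚ
  K : ℚ

/-- A cover by boxes. -/
inductive Tree
  | empty
  | full
  | tri (p : TriP)
  | rad (p : RadP)
  | splitU (m : ℚ) (l r : Tree)
  | splitW (m : ℚ) (l r : Tree)
  | splitD (m : ℚ) (l r : Tree)
  | splitA (m : ℚ) (l r : Tree)

/-- The larger value of a linear form at the two ends. -/
def lmax (a lo hi : ℚ) : ℚ := max (a * lo) (a * hi)

/-- A lower bound of `π`. -/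
def piLo : ℚ := 3141592 / 1000000

/-- An upper bound of `π`. -/
def piHi : ℚ := 3141593 / 1000000

/-- The upper bound of `√(8/27)` used in the spread. -/
def c2 : ℚ := 544332 / 1000000

/-- Triangle branch: the side conditions. -/
def triSide (b : Box) (p : TriP) : Bool :=
  let r := b.uh + b.dh
  let tm := 1 - 4 / 3 * r
  decide (0 < b.al) && decide (0 < p.l) && decide (p.l < 1) && decide (0 < tm) &&
  decide (0 ≤ p.sq) && decide (1 - b.al ≤ p.sq * p.sq) && decide (0 ≤ p.mg) &&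
  decide (1 + p.sq ≤ p.mg * (3 / 4 * b.al * tm)) &&
  decide (p.mg * r / 3 ≤ p.D0) && decide (3 * p.D0 < 1) && decide (0 ≤ p.D0) &&
  decide (p.D0 + p.mg * b.uh / (1 - p.l) ≤ p.D) && decide (3 * p.D < 1) && decide (0 ≤ p.D) &&
  decide (p.D0 + p.mg * b.wh / (1 - p.l) ≤ p.D5) && decide (3 * p.D5 < 1) && decide (0 ≤ p.D5) &&
  decide (0 ≤ p.sA) && decide (p.sA * p.sA ≤ 3 / 4 * b.al) &&
  decide (0 ≤ p.h0) &&
  decide (p.h0 * p.h0 ≤ p.l * p.l * (2 * piLo * p.sA * tm * (1 - 9 * p.D0 * p.D0) / 27)) &&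
  decide (0 ≤ p.h) &&
  decide (p.h * p.h ≤
    (1 - p.l) * (1 - p.l) * (2 * piLo * p.sA * tm * (1 - 9 * p.D * p.D) / 27)) &&
  decide (0 ≤ p.h5) &&
  decide (p.h5 * p.h5 ≤
    (1 - p.l) * (1 - p.l) * (2 * piLo * p.sA * tm * (1 - 9 * p.D5 * p.D5) / 27)) &&
  decide (0 ≤ p.s0) && decide (r ≤ 9 * p.s0 * p.s0) &&
  decide (0 ≤ p.s4) && decide (b.uh ≤ p.s4 * p.s4) &&
  decide (0 ≤ p.s5) && decide (b.wh ≤ p.s5 * p.s5) &&
  decide (0 < p.q) && decide (0 ≤ p.P) && decide (8 + b.ah ≤ 4 * p.P * p.P)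

/-- Triangle branch: the largest value of the bound. -/
def triVal (b : Box) (p : TriP) : ℚ :=
  let s := p.P / (2 * p.q)
  let e := max 0 (p.K0 / 9 - s / 3)
  s * (1 + p.q * p.q) + lmax (-s + e + p.K) b.ul b.uh + lmax (-s + e + p.K5) b.dl b.dh

/-- The triangle leaf. -/
def triOK (b : Box) (p : TriP) : Bool :=
  triSide b p && kOK 2 p.h0 p.s0 p.K0 && kOK 2 p.h p.s4 p.K && kOK 2 p.h5 p.s5 p.K5 &&
  decide (triVal b p ≤ 3 / 2)

/-- The dimension of the threshold subspace. -/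
def Kind.dim : Kind → ℕ
  | .u3 | .t4n => 3
  | .u4 | .t5n => 4
  | .u5 => 5

/-- The constant in front of the threshold. -/
def Kind.cn : Kind → ℚ
  | .u3 | .t4n => 4
  | .u4 | .t5n => 3 / 2 * piHi
  | .u5 => 16 / 3

/-- The squared offset. -/
def Kind.off : Kind → Box → ℚ
  | .t4n, b => b.dh / 16
  | .t5n, b => (b.dh - b.wl) / 25
  | _, _ => 0

/-- Whether the fourth vector is treated apart from the tail. -/
def Kind.hasU : Kind → Bool
  | .u3 => false
  | _ => true

/-- Whether the fifth vector is treated apart from the tail. -/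
def Kind.hasW : Kind → Bool
  | .u5 | .t5n => true
  | _ => false

/-- An upper bound of the squared norms in the tail. -/
def Kind.tail : Kind → Box → ℚ
  | .u3, b => b.uh
  | .u4, b => b.wh
  | .t4n, b => b.wh
  | _, b => min b.wh (b.dh - b.wl)

/-- An upper bound of the three largest squared norms. -/
def topHi (b : Box) : ℚ := min (1 / 2) (1 - b.dl - 3 * b.ul)

/-- A lower bound of the spread of the three largest squared norms. -/
def spLo (b : Box) (c1 : ℚ) : ℚ :=
  max 0 (c1 * (1 - 4 / 3 * (b.uh + b.dh)) - c2 * (b.uh + b.dh))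

/-- Radial branch: the side conditions. -/
def radSide (b : Box) (p : RadP) : Bool :=
  let x := p.kind.off b
  decide (0 < p.t) && decide (0 ≤ x) && decide (0 ≤ p.gam) && decide (0 ≤ p.c1) &&
  decide (p.c1 * p.c1 ≤ (1 - b.ah) / 6 || p.c1 = 0) &&
  decide (0 ≤ p.lo) && decide (p.lo * p.lo + x ≤ b.ul) &&
  decide (0 ≤ p.hi) && decide (topHi b ≤ p.hi * p.hi + x) &&
  (decide (x = 0) || decide (0 < p.lo)) &&
  (!p.kind.hasU || (decide (0 ≤ p.lo4) && decide (p.lo4 * p.lo4 + x ≤ b.ul) &&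
    decide (0 ≤ p.hi4) && decide (b.uh ≤ p.hi4 * p.hi4 + x) &&
    (decide (x = 0) || decide (0 < p.lo4)))) &&
  (!p.kind.hasW || (decide (0 ≤ p.lo5) && decide (p.lo5 * p.lo5 + x ≤ b.wl) &&
    decide (0 ≤ p.hi5) && decide (b.wh ≤ p.hi5 * p.hi5 + x) &&
    (decide (x = 0) || decide (0 < p.lo5)))) &&
  decide (0 ≤ p.st) && decide (p.kind.tail b ≤ p.st * p.st)

/-- Radial branch: the largest value of the bound. -/
def radVal (b : Box) (p : RadP) : ℚ :=
  let base := p.kind.cn * p.t + 3 * p.be + p.al - p.gam * (spLo b p.c1 * spLo b p.c1)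
  if p.kind.hasW then
    base + p.be4 + p.be5 + lmax (-p.al + p.al4) b.ul b.uh + lmax (p.al5 - p.K) b.wl b.wh
      + lmax (-p.al + p.K) b.dl b.dh
  else if p.kind.hasU then
    base + p.be4 + lmax (-p.al + p.al4) b.ul b.uh + lmax (-p.al + p.K) b.dl b.dh
  else
    base + lmax (-p.al + p.K) b.ul b.uh + lmax (-p.al + p.K) b.dl b.dh

/-- Radial branch: the line majorants. -/
def radLines (b : Box) (p : RadP) : Bool :=
  let n := p.kind.dim
  let x := p.kind.off b
  lineOK n p.t p.al p.gam p.M x p.be p.lo p.hi &&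
  (!p.kind.hasU || lineOK n p.t p.al4 0 0 x p.be4 p.lo4 p.hi4) &&
  (!p.kind.hasW || lineOK n p.t p.al5 0 0 x p.be5 p.lo5 p.hi5) &&
  kOK n p.t p.st p.K

/-- The radial leaf. -/
def radOK (b : Box) (p : RadP) : Bool :=
  radSide b p && decide (radVal b p ≤ 3 / 2) && radLines b p

/-- The cover check. -/
def Tree.check : Tree → Box → Bool
  | .empty, b => b.clip.isEmpty
  | .full, b => decide (3 / 20 ≤ b.clip.ul) && decide (b.clip.dh ≤ 4 / 25)
  | .tri p, b => triOK b.clip p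
  | .rad p, b => radOK b.clip p
  | .splitU m l r, b => l.check { b with uh := m } && r.check { b with ul := m }
  | .splitW m l r, b => l.check { b with wh := m } && r.check { b with wl := m }
  | .splitD m l r, b => l.check { b with dh := m } && r.check { b with dl := m }
  | .splitA m l r, b => l.check { b with ah := m } && r.check { b with al := m }

/-- The whole domain. -/
def root : Box := ⟨0, 1 / 4, 0, 1 / 5, 0, 1, 0, 1⟩

/-- The unit of the tabulated parameters, `2⁻²⁴`. -/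
def qq (n : ℤ) : ℚ := mkRat n 16777216

/-- A tabulated triangle leaf. -/
def T (l mg sq sA D0 D D5 h0 h h5 s0 s4 s5 K0 K K5 P q : ℤ) : Tree :=
  .tri ⟨qq l, qq mg, qq sq, qq sA, qq D0, qq D, qq D5, qq h0, qq h, qq h5, qq s0, qq s4, qq s5,
    qq K0, qq K, qq K5, qq P, qq q⟩

/-- A tabulated radial leaf. -/
def R (k : Kind) (t gam c1 M al be lo hi al4 be4 lo4 hi4 al5 be5 lo5 hi5 st K : ℤ) : Tree :=
  .rad ⟨k, qq t, qq gam, qq c1, qq M, qq al, qq be, qq lo, qq hi, qq al4, qq be4, qq lo4, qq hi4,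
    qq al5, qq be5, qq lo5, qq hi5, qq st, qq K⟩

end Vale.Agent.P226.Cert
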