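import Mathlib

/-!
# Basic definitions for the propeller inequality

All scalar quantities are measured in units of `phi0 = 1 / √(2π)`.
-/

namespace Vale.Agent.P226

open MeasureTheory ProbabilityTheory

/-- `1 / √(2π)`. -/
noncomputable def phi0 : ℝ := (Real.sqrt (2 * Real.pi))⁻¹

/-- Standard Gaussian measure on `Fin n → ℝ`. -/
noncomputable def gs (n : ℕ) : Measure (Fin n → ℝ) :=
  Measure.pi fun _ => gaussianReal 0 1

/-- Euclidean norm on `Fin n → ℝ`. -/
noncomputable def nrm {n : ℕ} (y : Fin n → ℝ) : ℝ := Real.sqrt (∑ i, y i ^ 2)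

/-- Dot product on `Fin n → ℝ`. -/
noncomputable def dotv {n : ℕ} (a y : Fin n → ℝ) : ℝ := ∑ i, a i * y i

/-- In-plane cap function: `fin n p t` is `E (p g₀ - t |g|)₊ / phi0` for a standard
Gaussian vector `g` of dimension `n + 1`. -/
noncomputable def fin (n : ℕ) (p t : ℝ) : ℝ :=
  if t < p then ∫ s in t..p, Real.sqrt (1 - t ^ 2 / s ^ 2) ^ n else 0

/-- Perpendicular cap function: `fperp r h t` is `E (h w - t |g|)₊ / phi0` for a standard
Gaussian `w` independent of the standard Gaussian vector `g` of dimension `r`. -/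
noncomputable def fperp (r : ℕ) (h t : ℝ) : ℝ :=
  ∫ s in (0 : ℝ)..h, (s / Real.sqrt (s ^ 2 + t ^ 2)) ^ r

end Vale.Agent.P226
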