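import Vale.Agent.P226.Reduction

/-!
# Merging cells: it suffices to treat pairwise obtuse moment vectors

If two moment vectors have positive inner product, merging the two cells increases the sum of
squared moments, so by induction on the number of cells the width inequality is needed only for
centred families with pairwise non-positive inner products.
-/

namespace Vale.Agent.P226

open MeasureTheory ProbabilityTheory
open scoped RealInnerProductSpace

section Moments

variable {E : Type*} [NormedAddCommGroup E] [InnerProductSpace ℝ E] [FiniteDimensional ℝ E]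
  [MeasurableSpace E] [BorelSpace E]

/-- The moments of an a.e. partition sum to zero. -/
lemma sum_moments_eq_zero {ι : Type*} [Fintype ι] (A : ι → Set E)
    (hA : ∀ i, MeasurableSet (A i))
    (hd : Pairwise (Function.onFun (AEDisjoint (stdGaussian E)) A))
    (hU : (⋃ i, A i) =ᵐ[stdGaussian E] Set.univ) :
    ∑ i, ∫ x in A i, x ∂(stdGaussian E) = 0 := by
  have hid : Integrable (fun x : E => x) (stdGaussian E) := IsGaussian.integrable_fun_id
  have h1 := integral_iUnion_ae (fun i => (hA i).nullMeasurableSet) hd hid.integrableOn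
  rw [setIntegral_congr_set hU, setIntegral_univ, integral_id_stdGaussian, tsum_fintype] at h1
  exact h1.symm

/-- The moment bound for one partition follows from the width bound at its own moment vectors. -/
lemma sum_sq_moments_le_at {ι : Type*} [Fintype ι] [Nonempty ι] (A : ι → Set E)
    (hA : ∀ i, MeasurableSet (A i))
    (hd : Pairwise (Function.onFun (AEDisjoint (stdGaussian E)) A))
    (hU : (⋃ i, A i) =ᵐ[stdGaussian E] Set.univ) (z : ι → E)
    (hz : ∀ i, z i = ∫ x in A i, x ∂(stdGaussian E))
    (h : width z ≤ 3 / 2 * Real.sqrt (∑ i, ‖z i‖ ^ 2)) :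
    ∑ i, ‖z i‖ ^ 2 ≤ 9 / (8 * Real.pi) := by
  have hid : Integrable (fun x : E => x) (stdGaussian E) := IsGaussian.integrable_fun_id
  have hmax : ∫ g, maxForm z g ∂(stdGaussian E)
      = ∑ i, ∫ g in A i, maxForm z g ∂(stdGaussian E) := by
    have h1 := integral_iUnion_ae (fun i => (hA i).nullMeasurableSet) hd
      (integrable_maxForm z).integrableOn
    rw [setIntegral_congr_set hU, setIntegral_univ, tsum_fintype] at h1
    exact h1
  have hle : ∑ i, ‖z i‖ ^ 2 ≤ ∫ g, maxForm z g ∂(stdGaussian E) := by
    rw [hmax]
    refine Finset.sum_le_sum fun i _ => ?_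
    calc ‖z i‖ ^ 2 = ⟪z i, z i⟫ := (real_inner_self_eq_norm_sq _).symm
      _ = ⟪z i, ∫ x in A i, x ∂(stdGaussian E)⟫ := by rw [← hz]
      _ = ∫ x in A i, ⟪z i, x⟫ ∂(stdGaussian E) := (integral_inner hid.integrableOn _).symm
      _ ≤ ∫ x in A i, maxForm z x ∂(stdGaussian E) :=
          setIntegral_mono (integrable_inner _).integrableOn (integrable_maxForm z).integrableOn
            fun x => inner_le_maxForm z i x
  obtain ⟨S, hS⟩ : ∃ S, S = ∑ i, ‖z i‖ ^ 2 := ⟨_, rfl⟩
  rw [← hS] at hle h ⊢
  have hS0 : 0 ≤ S := hS ▸ Finset.sum_nonneg fun i _ => sq_nonneg _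
  have hw : Real.sqrt (2 * Real.pi) * S ≤ 3 / 2 * Real.sqrt S :=
    le_trans (mul_le_mul_of_nonneg_left hle sqrt_two_pi_nonneg) h
  have hq : (Real.sqrt (2 * Real.pi) * S) ^ 2 ≤ (3 / 2 * Real.sqrt S) ^ 2 :=
    pow_le_pow_left₀ (mul_nonneg sqrt_two_pi_nonneg hS0) hw 2
  rw [mul_pow, mul_pow, Real.sq_sqrt hS0, Real.sq_sqrt (by positivity)] at hq
  rw [le_div_iff₀ (by positivity)]
  rcases hS0.eq_or_lt with hS0 | hS0
  · rw [← hS0]; norm_num
  · refine le_of_mul_le_mul_right ?_ hS0
    nlinarith

/-- Merging induction: the moment bound in a fixed space follows from the width bound for centred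
families with pairwise non-positive inner products. -/
theorem sum_sq_moments_le_of_obtuse
    (h : ∀ (k : ℕ) (z : Fin (k + 1) → E), ∑ i, z i = 0 →
      (∀ i j, i ≠ j → ⟪z i, z j⟫ ≤ 0) →
      width z ≤ 3 / 2 * Real.sqrt (∑ i, ‖z i‖ ^ 2)) :
    ∀ (k : ℕ) (A : Fin k → Set E), (∀ i, MeasurableSet (A i)) →
      Pairwise (Function.onFun (AEDisjoint (stdGaussian E)) A) →
      (⋃ i, A i) =ᵐ[stdGaussian E] Set.univ →
      ∑ i, ‖∫ x in A i, x ∂(stdGaussian E)‖ ^ 2 ≤ 9 / (8 * Real.pi) := by
  intro k
  induction k with
  | zero =>
    intro A _ _ _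
    simp only [Finset.univ_eq_empty, Finset.sum_empty]
    positivity
  | succ k ih =>
    intro A hA hd hU
    obtain ⟨z, hz⟩ : ∃ z : Fin (k + 1) → E, ∀ i, z i = ∫ x in A i, x ∂(stdGaussian E) :=
      ⟨_, fun _ => rfl⟩
    have hsum : ∑ i, z i = 0 := by simpa only [hz] using sum_moments_eq_zero A hA hd hU
    simp only [← hz]
    by_cases hob : ∀ i j, i ≠ j → ⟪z i, z j⟫ ≤ 0
    · exact sum_sq_moments_le_at A hA hd hU z hz (h k z hsum hob)
    · push Not at hob
      obtain ⟨p, q, hpq, hpos⟩ := hob
      obtain ⟨l, hl⟩ := Fin.exists_succAbove_eq hpq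
      -- delete cell `q` and give it to cell `p = q.succAbove l`
      let B : Fin k → Set E := fun j =>
        if j = l then A (q.succAbove j) ∪ A q else A (q.succAbove j)
      have hBm : ∀ j, MeasurableSet (B j) := by
        intro j
        by_cases hj : j = l
        · simp only [B, hj, if_true]; exact (hA _).union (hA _)
        · simp only [B, hj, if_false]; exact hA _
      have hne : ∀ j, q.succAbove j ≠ q := fun j => Fin.succAbove_ne q j
      have hinj : ∀ i j, i ≠ j → q.succAbove i ≠ q.succAbove j := fun i j hij e =>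
        hij (Fin.succAbove_right_injective e)
      have hBd : Pairwise (Function.onFun (AEDisjoint (stdGaussian E)) B) := by
        intro i j hij
        by_cases hi : i = l
        · have hj : j ≠ l := fun e => hij (hi.trans e.symm)
          simp only [Function.onFun, B, hi, hj, if_true, if_false]
          exact AEDisjoint.union_left (hd (hinj l j (fun e => hj e.symm))) (hd (hne j).symm)
        · by_cases hj : j = l
          · simp only [Function.onFun, B, hi, hj, if_true, if_false]
            exact AEDisjoint.union_right (hd (hinj i l hi)) (hd (hne i))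
          · simp only [Function.onFun, B, hi, hj, if_false]
            exact hd (hinj i j hij)
      have hBU : (⋃ j, B j) = ⋃ i, A i := by
        ext x
        simp only [Set.mem_iUnion]
        constructor
        · rintro ⟨j, hj⟩
          by_cases e : j = l
          · simp only [B, e, if_true, Set.mem_union] at hj
            rcases hj with hj | hj
            · exact ⟨_, hj⟩
            · exact ⟨_, hj⟩
          · simp only [B, e, if_false] at hj
            exact ⟨_, hj⟩
        · rintro ⟨i, hi⟩
          by_cases e : i = q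
          · refine ⟨l, ?_⟩
            simp only [B, if_true, Set.mem_union]
            exact Or.inr (e ▸ hi)
          · obtain ⟨j, hj⟩ := Fin.exists_succAbove_eq e
            refine ⟨j, ?_⟩
            by_cases e' : j = l
            · subst e'
              simp only [B, if_true, Set.mem_union, hj]
              exact Or.inl hi
            · simp only [B, e', if_false, hj]
              exact hi
      have hB := ih B hBm hBd (by rw [hBU]; exact hU)
      have hid : Integrable (fun x : E => x) (stdGaussian E) := IsGaussian.integrable_fun_id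
      have hBz : ∀ j, ∫ x in B j, x ∂(stdGaussian E)
          = z (q.succAbove j) + if j = l then z q else 0 := by
        intro j
        by_cases e : j = l
        · simp only [B, e, if_true, hz]
          exact setIntegral_union₀ (hd (hne l)) (hA q).nullMeasurableSet hid.integrableOn
            hid.integrableOn
        · simp only [B, e, if_false, hz, add_zero]
      simp only [hBz] at hB
      refine le_trans ?_ hB
      rw [Fin.sum_univ_succAbove _ q]
      have key : ∀ j, ‖z (q.succAbove j)‖ ^ 2 + (if j = l then ‖z q‖ ^ 2 else 0)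
          ≤ ‖z (q.succAbove j) + if j = l then z q else 0‖ ^ 2 := by
        intro j
        by_cases e : j = l
        · subst e
          simp only [if_true, hl, norm_add_sq_real]
          linarith
        · simp [e]
      calc ‖z q‖ ^ 2 + ∑ j, ‖z (q.succAbove j)‖ ^ 2
          = ∑ j, (‖z (q.succAbove j)‖ ^ 2 + (if j = l then ‖z q‖ ^ 2 else 0)) := by
            rw [Finset.sum_add_distrib, Finset.sum_ite_eq' Finset.univ l]
            simp [add_comm]
        _ ≤ _ := Finset.sum_le_sum fun j _ => key j

end Moments

/-- The propeller inequality follows from the width inequality for centred, pairwise obtuse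
families in dimension at least five. -/
theorem moments_le_of_obtuse_width_le
    (h : ∀ (d k : ℕ) (w : Fin (k + 1) → EuclideanSpace ℝ (Fin d)), ∑ i, w i = 0 →
      (∀ i j, i ≠ j → ⟪w i, w j⟫ ≤ 0) →
      width w ≤ 3 / 2 * Real.sqrt (∑ i, ‖w i‖ ^ 2))
    (d k : ℕ) (A : Fin k → Set (EuclideanSpace ℝ (Fin d)))
    (hA : ∀ i, MeasurableSet (A i))
    (hd : Pairwise (Function.onFun (AEDisjoint (stdGaussian (EuclideanSpace ℝ (Fin d)))) A))
    (hU : (⋃ i, A i) =ᵐ[stdGaussian (EuclideanSpace ℝ (Fin d))] Set.univ) :
    ∑ i, ‖∫ x in A i, x ∂(stdGaussian (EuclideanSpace ℝ (Fin d)))‖ ^ 2 ≤ 9 / (8 * Real.pi) :=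
  sum_sq_moments_le_of_obtuse (h d) k A hA hd hU

end Vale.Agent.P226
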