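import Mathlib

/-!
# Elementary facts on centred, pairwise obtuse families (P226)

`R_S` denotes the sum of the vectors indexed by a finset `S`.
-/

namespace Vale.Agent.P226

open scoped RealInnerProductSpace

variable {ι E : Type*} [NormedAddCommGroup E] [InnerProductSpace ℝ E]

/-- (a) A partial sum of an obtuse family has squared norm at most the sum of squared norms. -/
lemma obtuse_norm_sum_sq_le (w : ι → E) (hob : ∀ i j, i ≠ j → ⟪w i, w j⟫ ≤ 0) (S : Finset ι) :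
    ‖∑ i ∈ S, w i‖ ^ 2 ≤ ∑ i ∈ S, ‖w i‖ ^ 2 := by
  classical
  rw [← real_inner_self_eq_norm_sq, sum_inner]
  refine Finset.sum_le_sum fun i hi => ?_
  rw [inner_sum, ← Finset.add_sum_erase S _ hi, real_inner_self_eq_norm_sq]
  have h : ∑ j ∈ S.erase i, ⟪w i, w j⟫ ≤ 0 :=
    Finset.sum_nonpos fun j hj => hob i j (Finset.ne_of_mem_erase hj).symm
  linarith

/-- Outside a finset, an obtuse family has nonpositive inner product with the finset's sum. -/
lemma obtuse_inner_sum_nonpos (w : ι → E) (hob : ∀ i j, i ≠ j → ⟪w i, w j⟫ ≤ 0) {S : Finset ι}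
    {i : ι} (hi : i ∉ S) : ⟪w i, ∑ l ∈ S, w l⟫ ≤ 0 := by
  rw [inner_sum]
  exact Finset.sum_nonpos fun j hj => hob i j fun h => hi (h ▸ hj)

variable [Fintype ι] [DecidableEq ι]

omit [InnerProductSpace ℝ E] in
lemma sum_eq_neg_sum_compl (w : ι → E) (hw : ∑ i, w i = 0) (S : Finset ι) :
    ∑ i ∈ S, w i = -∑ i ∈ Sᶜ, w i := by
  rw [eq_neg_iff_add_eq_zero, Finset.sum_add_sum_compl, hw]

/-- (b) The total inner product of one vector with the others is minus its squared norm. -/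
lemma obtuse_sum_inner_erase (w : ι → E) (hw : ∑ i, w i = 0) (j : ι) :
    ∑ l ∈ Finset.univ.erase j, ⟪w j, w l⟫ = -‖w j‖ ^ 2 := by
  have h : ⟪w j, ∑ l, w l⟫ = 0 := by rw [hw, inner_zero_right]
  rw [inner_sum, ← Finset.add_sum_erase _ _ (Finset.mem_univ j), real_inner_self_eq_norm_sq] at h
  linarith

/-- (b) The absolute inner products of one vector with the others sum to its squared norm. -/
lemma obtuse_sum_abs_inner_erase (w : ι → E) (hw : ∑ i, w i = 0)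
    (hob : ∀ i j, i ≠ j → ⟪w i, w j⟫ ≤ 0) (j : ι) :
    ∑ l ∈ Finset.univ.erase j, |⟪w j, w l⟫| = ‖w j‖ ^ 2 := by
  have h := obtuse_sum_inner_erase w hw j
  rw [Finset.sum_congr rfl fun l hl => abs_of_nonpos (hob j l (Finset.ne_of_mem_erase hl).symm),
    Finset.sum_neg_distrib, h, neg_neg]

/-- (b) `⟪w i, R_S⟫ ≥ -‖w i‖²` for `i ∉ S`. -/
lemma obtuse_neg_sq_le_inner_sum (w : ι → E) (hw : ∑ i, w i = 0)
    (hob : ∀ i j, i ≠ j → ⟪w i, w j⟫ ≤ 0) {S : Finset ι} {i : ι} (hi : i ∉ S) :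
    -‖w i‖ ^ 2 ≤ ⟪w i, ∑ l ∈ S, w l⟫ := by
  rw [← obtuse_sum_inner_erase w hw i, inner_sum]
  have hsub : S ⊆ Finset.univ.erase i := fun l hl =>
    Finset.mem_erase.2 ⟨fun h => hi (h ▸ hl), Finset.mem_univ l⟩
  have h := Finset.sum_le_sum_of_subset_of_nonneg (f := fun l => -⟪w i, w l⟫) hsub
    fun l hl _ => neg_nonneg.2 (hob i l (Finset.ne_of_mem_erase hl).symm)
  simp only [Finset.sum_neg_distrib] at h
  linarith

/-- (b) The vectors outside `S` share `‖R_S‖²`. -/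
lemma sum_compl_neg_inner_sum (w : ι → E) (hw : ∑ i, w i = 0) (S : Finset ι) :
    ∑ i ∈ Sᶜ, -⟪w i, ∑ l ∈ S, w l⟫ = ‖∑ l ∈ S, w l‖ ^ 2 := by
  rw [Finset.sum_neg_distrib, ← sum_inner, ← inner_neg_left, ← sum_eq_neg_sum_compl w hw S,
    real_inner_self_eq_norm_sq]

/-- (c) Distance of a vector from the mean of the finset `T` it is measured against, in terms of
the sum `R` over the complement of `T`. -/
lemma norm_sub_mean_sq (w : ι → E) (hw : ∑ i, w i = 0) (T : Finset ι) (i : ι) :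
    ‖w i - ((T.card : ℝ))⁻¹ • ∑ l ∈ T, w l‖ ^ 2 =
      ‖w i‖ ^ 2 + 2 / (T.card : ℝ) * ⟪w i, ∑ l ∈ Tᶜ, w l⟫
        + ‖∑ l ∈ Tᶜ, w l‖ ^ 2 / (T.card : ℝ) ^ 2 := by
  rw [sum_eq_neg_sum_compl w hw T, smul_neg, sub_neg_eq_add, norm_add_sq_real,
    real_inner_smul_right, norm_smul, mul_pow, Real.norm_eq_abs, sq_abs]
  ring

/-- (d) Inner product of a vector outside `T` with the deviations of `T` from its mean. -/
lemma obtuse_inner_sub_mean_bounds (w : ι → E) (hw : ∑ i, w i = 0)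
    (hob : ∀ i j, i ≠ j → ⟪w i, w j⟫ ≤ 0) {T : Finset ι} {i j : ι} (hi : i ∈ T) (hj : j ∉ T) :
    -‖w j‖ ^ 2 ≤ ⟪w j, w i - ((T.card : ℝ))⁻¹ • ∑ l ∈ T, w l⟫ ∧
      ⟪w j, w i - ((T.card : ℝ))⁻¹ • ∑ l ∈ T, w l⟫ ≤ ‖w j‖ ^ 2 / (T.card : ℝ) := by
  have h1 : ⟪w j, w i⟫ ≤ 0 := hob j i fun h => hj (h ▸ hi)
  have h2 := obtuse_inner_sum_nonpos w hob hj
  have h3 := obtuse_neg_sq_le_inner_sum w hw hob hj
  have h4 : -‖w j‖ ^ 2 ≤ ⟪w j, w i⟫ := by
    have h := obtuse_neg_sq_le_inner_sum w hw hob (S := {i}) (i := j)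
      (fun h => hj (Finset.mem_singleton.1 h ▸ hi))
    rwa [Finset.sum_singleton] at h
  have hc : (0 : ℝ) ≤ ((T.card : ℝ))⁻¹ := inv_nonneg.2 (Nat.cast_nonneg _)
  rw [inner_sub_right, real_inner_smul_right, div_eq_mul_inv]
  constructor
  · nlinarith
  · nlinarith

end Vale.Agent.P226
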