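import Vale.Agent.P226.Branches
import Vale.Agent.P226.ObtuseFacts

/-!
# The offset cap (P226)

For a three-dimensional subspace `V` and a vector with component of length `v` in `V` and `p`
orthogonal to it, the excess over `t * projNorm V` is at most `cap3 v t + p ^ 2 / (2 * v)`. This
gives the norms-only branch `width_le_T4n`.
-/

namespace Vale.Agent.P226

open MeasureTheory ProbabilityTheory Set Real
open scoped ENNReal RealInnerProductSpace

/-- Averaging an excess over the sign of the Gaussian. -/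
theorem lintegral_posPart_shift (p A : ℝ) :
    ∫⁻ x, ENNReal.ofReal (A + p * x) ∂gauss
      = ENNReal.ofReal A + ∫⁻ x, ENNReal.ofReal (p * x - |A|) ∂gauss := by
  have hpt : ∀ x, ENNReal.ofReal (A + p * x) + ENNReal.ofReal (A + p * -x)
      = ENNReal.ofReal A + ENNReal.ofReal A
        + (ENNReal.ofReal (p * x - |A|) + ENNReal.ofReal (p * -x - |A|)) := by
    intro x
    rcases le_total 0 A with hA | hA
    · rw [abs_of_nonneg hA, ← ENNReal.ofReal_add hA hA]
      rcases le_or_gt |p * x| A with h | h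
      · obtain ⟨h1, h2⟩ := abs_le.1 h
        rw [ENNReal.ofReal_of_nonpos (p := p * x - A) (by linarith),
          ENNReal.ofReal_of_nonpos (p := p * -x - A) (by linarith), add_zero, add_zero,
          ← ENNReal.ofReal_add (by linarith) (by linarith)]
        ring_nf
      · rcases le_total 0 (p * x) with hx | hx
        · rw [abs_of_nonneg hx] at h
          rw [ENNReal.ofReal_of_nonpos (p := p * -x - A) (by linarith),
            ENNReal.ofReal_of_nonpos (p := A + p * -x) (by linarith), add_zero, add_zero,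
            ← ENNReal.ofReal_add (by linarith) (by linarith)]
          ring_nf
        · rw [abs_of_nonpos hx] at h
          rw [ENNReal.ofReal_of_nonpos (p := p * x - A) (by linarith),
            ENNReal.ofReal_of_nonpos (p := A + p * x) (by linarith), zero_add, zero_add,
            ← ENNReal.ofReal_add (by linarith) (by linarith)]
          ring_nf
    · rw [abs_of_nonpos hA, ENNReal.ofReal_of_nonpos hA]
      ring_nf
  have hm1 : Measurable (fun x => ENNReal.ofReal (A + p * x)) := by fun_prop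
  have hm2 : Measurable (fun x => ENNReal.ofReal (p * x - |A|)) := by fun_prop
  have h := lintegral_congr (μ := gauss) hpt
  rw [lintegral_add_left hm1, lintegral_gauss_neg hm1, lintegral_add_left measurable_const,
    lintegral_add_left hm2, lintegral_gauss_neg hm2] at h
  simp only [lintegral_const, measure_univ, mul_one, ← two_mul] at h
  rw [← mul_add] at h
  exact (ENNReal.mul_right_inj two_ne_zero (by norm_num)).1 h

/-- The radial law in the plane. -/
theorem lintegral_gaussPi_two_radial {H : ℝ → ℝ≥0∞} (hH : Measurable H) :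
    ∫⁻ y, H √(sumSq y) ∂gaussPi 2
      = ∫⁻ r in Ioi 0, ENNReal.ofReal (r * exp (-r ^ 2 / 2)) * H r := by
  let K : ℝ × ℝ → ℝ≥0∞ := fun q =>
    ENNReal.ofReal (exp (-(q.1 ^ 2 + q.2 ^ 2) / 2) / (2 * π)) * H √(q.1 ^ 2 + q.2 ^ 2)
  have h1 : ∫⁻ y, H √(sumSq y) ∂gaussPi 2 = ∫⁻ q, K q := by
    have hms := measurable_sumSq (m := 2)
    have hm : Measurable (fun q : ℝ × ℝ => H √(q.1 ^ 2 + q.2 ^ 2)) := by fun_prop
    rw [lintegral_gaussPi_succ (by fun_prop)]
    have hstep : ∀ u, ∫⁻ y, H √(sumSq (Fin.cons u y : Fin 2 → ℝ)) ∂gaussPi 1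
        = ∫⁻ w, H √(u ^ 2 + w ^ 2) ∂gauss := by
      intro u
      rw [lintegral_gaussPi_succ (by have := measurable_sumSq (m := 2); fun_prop)]
      simp [sumSq]
    simp_rw [hstep]
    rw [lintegral_gauss_eq hm.lintegral_prod_right', Measure.volume_eq_prod,
      lintegral_prod _ (Measurable.aemeasurable (by fun_prop))]
    refine lintegral_congr fun u => ?_
    dsimp only
    rw [lintegral_gauss_eq (f := fun w => H √(u ^ 2 + w ^ 2)) (by fun_prop),
      ← lintegral_const_mul' _ _ ENNReal.ofReal_ne_top]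
    refine lintegral_congr fun w => ?_
    simp only [K]
    rw [← mul_assoc, ← ENNReal.ofReal_mul (by positivity), div_mul_div_comm, ← exp_add,
      Real.mul_self_sqrt (by positivity)]
    ring_nf
  rw [h1, ← lintegral_comp_polarCoord_symm K, polarCoord_target, Measure.volume_eq_prod,
    ← Measure.prod_restrict,
    lintegral_prod _ (Measurable.aemeasurable (by simp only [K]; fun_prop))]
  refine setLIntegral_congr_fun measurableSet_Ioi fun r (hr : 0 < r) => ?_
  have hK : ∀ θ, K (polarCoord.symm (r, θ))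
      = ENNReal.ofReal (exp (-r ^ 2 / 2) / (2 * π)) * H r := by
    intro θ
    simp only [K, polarCoord_symm_apply]
    rw [show (r * cos θ) ^ 2 + (r * sin θ) ^ 2 = r ^ 2 by linear_combination r ^ 2 * sin_sq_add_cos_sq θ,
      Real.sqrt_sq hr.le]
  simp only [smul_eq_mul, hK, setLIntegral_const, Real.volume_Ioo]
  rw [mul_comm, ← mul_assoc, ← mul_assoc, ← ENNReal.ofReal_mul (by linarith [pi_pos]),
    ← ENNReal.ofReal_mul (by nlinarith [pi_pos])]
  congr 2
  field_simp
  ring

/-- The Gaussian mass near the cone `v * x = t * R`, with two free coordinates and any further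
squared length `c`. -/
theorem lintegral_cone_slab_shift {v s c : ℝ} (hv : 0 < v) (hs : 0 < s) (hc : 0 ≤ c) (t : ℝ) :
    ∫⁻ x, ∫⁻ y, ENNReal.ofReal (exp (-(v * x - t * √(x ^ 2 + c + sumSq y)) ^ 2 / (2 * s ^ 2)))
      ∂gaussPi 2 ∂gauss ≤ ENNReal.ofReal (s / v) := by
  let Q : ℝ → ℝ → ℝ≥0∞ := fun x R => ENNReal.ofReal (exp (-(v * x - t * R) ^ 2 / (2 * s ^ 2)))
  let W : ℝ → ℝ≥0∞ := fun R => ENNReal.ofReal (exp (-R ^ 2 / 2) / √(2 * π)) * ENNReal.ofReal R
  have hms := measurable_sumSq (m := 2)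
  have hm : Measurable (fun q : ℝ × (Fin 2 → ℝ) => Q q.1 √(q.1 ^ 2 + c + sumSq q.2)) := by
    simp only [Q]; fun_prop
  have hx : ∀ x, ENNReal.ofReal (exp (-x ^ 2 / 2) / √(2 * π)) *
      ∫⁻ y, Q x √(x ^ 2 + c + sumSq y) ∂gaussPi 2 ≤ ∫⁻ R in Ioi √c, ENNReal.ofReal (exp (c / 2)) * W R * Q x R := by
    intro x
    have hrad := lintegral_gaussPi_two_radial (H := fun r => Q x √(x ^ 2 + c + r ^ 2))
      (by simp only [Q]; fun_prop)
    simp only [Real.sq_sqrt (sumSq_nonneg _)] at hrad
    rw [hrad, ← lintegral_const_mul' _ _ ENNReal.ofReal_ne_top]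
    let f : ℝ → ℝ := fun r => √(x ^ 2 + c + r ^ 2)
    have himg := lintegral_image_eq_lintegral_abs_deriv_mul (s := Ioi (0:ℝ)) (f := f)
      (f' := fun r => r / f r) measurableSet_Ioi (fun r (hr : 0 < r) => by
        have h0 : x ^ 2 + c + r ^ 2 ≠ 0 := by positivity
        refine ((((hasDerivAt_pow 2 r).const_add (x ^ 2 + c)).sqrt h0).congr_deriv ?_).hasDerivWithinAt
        simp only [f]
        have := Real.sqrt_pos.2 (show 0 < x ^ 2 + c + r ^ 2 by positivity)
        push_cast
        field_simp)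
      (fun r (hr : 0 < r) r' (hr' : 0 < r') h => by
        have h2 : x ^ 2 + c + r ^ 2 = x ^ 2 + c + r' ^ 2 := by
          rw [← Real.sq_sqrt (show 0 ≤ x ^ 2 + c + r ^ 2 by positivity),
            ← Real.sq_sqrt (show 0 ≤ x ^ 2 + c + r' ^ 2 by positivity)]
          exact congrArg (· ^ 2) h
        exact (pow_left_inj₀ hr.le hr'.le two_ne_zero).1 (by linarith))
      (fun R => ENNReal.ofReal (exp (c / 2)) * W R * Q x R)
    have hsub : f '' Ioi 0 ⊆ Ioi √c := by
      rintro _ ⟨r, hr, rfl⟩
      have : 0 < r := hr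
      exact Real.sqrt_lt_sqrt hc (by nlinarith [sq_nonneg x])
    refine le_trans (le_of_eq ?_) (lintegral_mono_set hsub)
    rw [himg]
    refine setLIntegral_congr_fun measurableSet_Ioi fun r (hr : 0 < r) => ?_
    have hR : 0 < f r := Real.sqrt_pos.2 (by positivity)
    simp only [W]
    rw [abs_of_nonneg (by positivity : 0 ≤ r / f r), ← mul_assoc, ← mul_assoc, ← mul_assoc,
      ← mul_assoc]
    congr 1
    rw [← ENNReal.ofReal_mul (by positivity), ← ENNReal.ofReal_mul (by positivity),
      ← ENNReal.ofReal_mul (by positivity), ← ENNReal.ofReal_mul (by positivity)]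
    congr 1
    have hf2 : f r ^ 2 = x ^ 2 + c + r ^ 2 := Real.sq_sqrt (by positivity)
    rw [hf2, show -x ^ 2 / 2 = -(x ^ 2 + c + r ^ 2) / 2 + c / 2 + r ^ 2 / 2 by ring, exp_add,
      exp_add, show -r ^ 2 / 2 = -(r ^ 2 / 2) by ring, exp_neg]
    have := (exp_pos (r ^ 2 / 2)).ne'
    field_simp
  have hW : ∫⁻ R in Ioi √c, ENNReal.ofReal (exp (c / 2)) * W R
      = ENNReal.ofReal (1 / √(2 * π)) := by
    have h := lintegral_tail (c := √c) (Real.sqrt_nonneg c)
    rw [← lintegral_indicator measurableSet_Ioi,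
      lintegral_gauss_eq (ENNReal.measurable_ofReal.indicator measurableSet_Ioi)] at h
    simp_rw [← Set.indicator_mul_right (Ioi √c)
      (fun u => ENNReal.ofReal (exp (-u ^ 2 / 2) / √(2 * π)))] at h
    rw [lintegral_indicator measurableSet_Ioi, Real.sq_sqrt hc] at h
    simp only [W]
    rw [lintegral_const_mul' _ _ ENNReal.ofReal_ne_top, h, ← ENNReal.ofReal_mul (exp_pos _).le,
      ← mul_div_assoc, ← exp_add, show c / 2 + -c / 2 = 0 by ring, exp_zero]
  have hQ : ∀ R, ∫⁻ x, Q x R = ENNReal.ofReal (√(2 * π) * s / v) := by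
    intro R
    have hb : (0:ℝ) < v ^ 2 / (2 * s ^ 2) := by positivity
    have he : ∀ x, Q x R = (fun y => ENNReal.ofReal (exp (-(v ^ 2 / (2 * s ^ 2)) * y ^ 2)))
        (x - t * R / v) := by
      intro x
      simp only [Q]
      congr 2
      field_simp
    simp_rw [he]
    rw [lintegral_sub_right_eq_self
        (fun y => ENNReal.ofReal (exp (-(v ^ 2 / (2 * s ^ 2)) * y ^ 2))),
      ← ofReal_integral_eq_lintegral_ofReal (integrable_exp_neg_mul_sq hb)
        (ae_of_all _ fun x => by positivity), integral_gaussian]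
    congr 1
    rw [show π / (v ^ 2 / (2 * s ^ 2)) = (2 * π) * (s / v) ^ 2 by field_simp,
      Real.sqrt_mul (by positivity), Real.sqrt_sq (by positivity), mul_div_assoc]
  show ∫⁻ x, ∫⁻ y, Q x √(x ^ 2 + c + sumSq y) ∂gaussPi 2 ∂gauss ≤ _
  rw [lintegral_gauss_eq hm.lintegral_prod_right']
  refine (lintegral_mono hx).trans ?_
  rw [lintegral_lintegral_swap (Measurable.aemeasurable (by simp only [Q, W]; fun_prop))]
  have hWQ : ∀ R, ∫⁻ x, ENNReal.ofReal (exp (c / 2)) * W R * Q x R
      = ENNReal.ofReal (exp (c / 2)) * W R * ENNReal.ofReal (√(2 * π) * s / v) := fun R => by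
    rw [lintegral_const_mul' _ _ (ENNReal.mul_ne_top ENNReal.ofReal_ne_top
      (ENNReal.mul_ne_top ENNReal.ofReal_ne_top ENNReal.ofReal_ne_top)), hQ]
  simp_rw [hWQ]
  rw [lintegral_mul_const' _ _ ENNReal.ofReal_ne_top, hW, ← ENNReal.ofReal_mul (by positivity)]
  refine ENNReal.ofReal_le_ofReal (le_of_eq ?_)
  field_simp

/-- The Gaussian mass near the cone `v * x = t * R` in three dimensions. -/
theorem lintegral_cone_slab {v s : ℝ} (hv : 0 < v) (hs : 0 < s) (t : ℝ) :
    ∫⁻ x, ∫⁻ y, ENNReal.ofReal (exp (-(v * x - t * √(x ^ 2 + sumSq y)) ^ 2 / (2 * s ^ 2)))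
      ∂gaussPi 2 ∂gauss ≤ ENNReal.ofReal (s / v) := by
  simpa only [add_zero] using lintegral_cone_slab_shift hv hs le_rfl t

/-- The Gaussian mass near the cone `v * x = t * R` in four dimensions. -/
theorem lintegral_cone_slab_three {v s : ℝ} (hv : 0 < v) (hs : 0 < s) (t : ℝ) :
    ∫⁻ x, ∫⁻ y, ENNReal.ofReal (exp (-(v * x - t * √(x ^ 2 + sumSq y)) ^ 2 / (2 * s ^ 2)))
      ∂gaussPi 3 ∂gauss ≤ ENNReal.ofReal (s / v) := by
  have hm2 := measurable_sumSq (m := 2)
  have hm3 := measurable_sumSq (m := 3)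
  rw [lintegral_congr fun x => lintegral_gaussPi_succ (by fun_prop)]
  simp only [sumSq_cons, ← add_assoc]
  have hm : Measurable (fun q : (ℝ × ℝ) × (Fin 2 → ℝ) => ENNReal.ofReal
      (exp (-(v * q.1.1 - t * √(q.1.1 ^ 2 + q.1.2 ^ 2 + sumSq q.2)) ^ 2 / (2 * s ^ 2)))) := by
    fun_prop
  rw [lintegral_lintegral_swap hm.lintegral_prod_right'.aemeasurable]
  refine (lintegral_mono fun u => lintegral_cone_slab_shift hv hs (sq_nonneg u) t).trans ?_
  simp

theorem cap3_zero {v : ℝ} (hv : 0 ≤ v) : cap3 v 0 = v := by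
  rcases hv.eq_or_lt with rfl | hv
  · simp [cap3]
  · rw [cap3, if_neg (not_le.2 hv), sub_zero, sq, mul_div_assoc, div_self hv.ne', mul_one]

theorem cap3_sub_le {v v' t : ℝ} (ht : 0 ≤ t) (h' : 0 < v') (h : v' ≤ v) :
    cap3 v t ≤ cap3 v' t + (v - v') := by
  have hn := cap3_nonneg (v := v') ht
  by_cases hv : v ≤ t
  · rw [cap3, if_pos hv]; linarith
  push Not at hv
  have hv0 : 0 < v := h'.trans_le h
  have e : ∀ w : ℝ, 0 < w → (w - t) ^ 2 / w = w - 2 * t + t ^ 2 / w := fun w hw => by
    field_simp; ring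
  rw [cap3, if_neg (not_le.2 hv), e v hv0]
  by_cases hv' : v' ≤ t
  · rw [cap3, if_pos hv']
    have : t ^ 2 / v ≤ t := by rw [div_le_iff₀ hv0]; nlinarith
    linarith
  · rw [cap3, if_neg hv', e v' h']
    linarith [div_le_div_of_nonneg_left (sq_nonneg t) h' h]

section Model

/-- The in-space excess plus the cost of the offset, given the cone slab bound. -/
theorem excessModel_offset_of_slab (m : ℕ) {v p t n a b C : ℝ} (hv : 0 < v) (hp : 0 ≤ p)
    (hab : a ^ 2 + b ^ 2 = 1) (hna : n * a = v) (hnb : n * b = p) (hC : 0 ≤ C)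
    (hcap : excessModel m v t 1 0 ≤ ENNReal.ofReal (C / √(2 * π)))
    (hslab : ∀ s, 0 < s → ∫⁻ x, ∫⁻ y,
      ENNReal.ofReal (exp (-(v * x - t * √(x ^ 2 + sumSq y)) ^ 2 / (2 * s ^ 2)))
        ∂gaussPi m ∂gauss ≤ ENNReal.ofReal (s / v)) :
    excessModel m n t a b ≤ ENNReal.ofReal ((C + p ^ 2 / (2 * v)) / √(2 * π)) := by
  let A : ℝ → (Fin m → ℝ) → ℝ := fun x y => v * x - t * √(x ^ 2 + sumSq y)
  have hms := measurable_sumSq (m := m)
  have hAm : Measurable (fun q : ℝ × (Fin m → ℝ) => A q.1 q.2) := by simp only [A]; fun_prop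
  -- change to coordinates along and across the subspace
  let σ : Fin (m + 2) → EuclideanSpace ℝ (Fin (m + 2)) := fun i => EuclideanSpace.single i 1
  have hu : ‖a • σ 0 + b • σ 1‖ = 1 := by
    rw [norm_eq_sqrt_real_inner, inner_add_add_self, real_inner_self_eq_norm_sq,
      real_inner_self_eq_norm_sq]
    simp [σ, norm_smul, real_inner_smul_left, real_inner_smul_right,
      EuclideanSpace.inner_single_left, hab]
  have hcoords := lintegral_coords (u := a • σ 0 + b • σ 1) (e := modelFrame m 1 0) hu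
    (orthonormal_modelFrame (by norm_num)) hab
    (by simp [σ, modelFrame, inner_add_left, real_inner_smul_left,
      EuclideanSpace.inner_single_left])
    (fun j => by simp [σ, modelFrame, inner_add_left, real_inner_smul_left,
      EuclideanSpace.inner_single_left, Fin.ext_iff])
    (G := fun x r => ENNReal.ofReal (n * x - t * √r)) (by fun_prop)
  have hmodel : excessModel m n t a b
      = ∫⁻ x, ∫⁻ y, ∫⁻ w, ENNReal.ofReal (A x y + p * w) ∂gauss ∂gaussPi m ∂gauss := by
    rw [excessModel, ← hcoords, ← map_pi_eq_stdGaussian, lintegral_map (by fun_prop) (by fun_prop),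
      lintegral_gaussPi_succ (by fun_prop)]
    refine lintegral_congr fun x => ?_
    rw [lintegral_gaussPi_succ (by fun_prop),
      lintegral_lintegral_swap (Measurable.aemeasurable (by fun_prop))]
    refine lintegral_congr fun y => lintegral_congr fun w => ?_
    simp [σ, A, modelFrame, sumSq, Fin.sum_univ_succ, inner_add_left, real_inner_smul_left,
      EuclideanSpace.inner_single_left]
    rw [← hna, ← hnb]
    ring_nf
  rw [hmodel]
  simp_rw [lintegral_posPart_shift p]
  rw [lintegral_congr fun x => lintegral_add_left (by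
      have := hAm.comp (measurable_prodMk_left (x := x)); exact this.ennreal_ofReal) _,
    lintegral_add_left (Measurable.lintegral_prod_right' hAm.ennreal_ofReal)]
  have hfirst : ∫⁻ x, ∫⁻ y, ENNReal.ofReal (A x y) ∂gaussPi m ∂gauss
      ≤ ENNReal.ofReal (C / √(2 * π)) := by
    have h0 : ∫⁻ x, ∫⁻ y, ENNReal.ofReal (A x y) ∂gaussPi m ∂gauss = excessModel m v t 1 0 := by
      refine lintegral_congr fun x => ?_
      simp [A]
    rw [h0]
    exact hcap
  have hsecond : ∫⁻ x, ∫⁻ y, ∫⁻ w, ENNReal.ofReal (p * w - |A x y|) ∂gauss ∂gaussPi m ∂gauss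
      ≤ ENNReal.ofReal (p ^ 2 / (2 * v) / √(2 * π)) := by
    let F : ℝ → (Fin m → ℝ) → ℝ → ℝ≥0∞ := fun x y s =>
      ENNReal.ofReal (exp (-(v * x - t * √(x ^ 2 + sumSq y)) ^ 2 / (2 * s ^ 2)) / √(2 * π))
    have h1 : ∀ x y, ∫⁻ w, ENNReal.ofReal (p * w - |A x y|) ∂gauss
        = ∫⁻ s in Ioo 0 p, F x y s := by
      intro x y
      rw [lintegral_congr fun w => ofReal_sub_eq_slopes (u := w) hp (abs_nonneg (A x y)),
        lintegral_lintegral_swap (f := fun w s =>
          {s | |A x y| < s * w}.indicator (fun _ => ENNReal.ofReal w) s)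
          (((by fun_prop : Measurable fun q : ℝ × ℝ => ENNReal.ofReal q.1).indicator
            (measurableSet_lt measurable_const (by fun_prop :
              Measurable fun q : ℝ × ℝ => q.2 * q.1))).aemeasurable)]
      refine setLIntegral_congr_fun measurableSet_Ioo fun s hs => ?_
      have hs0 : 0 < s := hs.1
      refine (lintegral_indicator_threshold (c := |A x y| / s) (S := {w | |A x y| < s * w})
        (by positivity) (fun w _ => by simp [div_lt_iff₀' hs0])).trans ?_
      simp only [F, A]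
      congr 3
      rw [div_pow, sq_abs]
      field_simp
    simp_rw [h1]
    have hF : Measurable (fun q : (ℝ × (Fin m → ℝ)) × ℝ => F q.1.1 q.1.2 q.2) := by
      simp only [F]; fun_prop
    rw [lintegral_congr fun x => lintegral_lintegral_swap (hF.comp (by fun_prop :
        Measurable fun q : (Fin m → ℝ) × ℝ => ((x, q.1), q.2))).aemeasurable,
      lintegral_lintegral_swap ((hF.comp (by fun_prop :
        Measurable fun q : (ℝ × ℝ) × (Fin m → ℝ) =>
          ((q.1.1, q.2), q.1.2))).lintegral_prod_right').aemeasurable]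
    have hs : ∀ s ∈ Ioo 0 p, ∫⁻ x, ∫⁻ y, F x y s ∂gaussPi m ∂gauss
        ≤ ENNReal.ofReal (1 / (v * √(2 * π)) * s) := by
      intro s hs
      have h := mul_le_mul_right (hslab s hs.1)
        (ENNReal.ofReal (1 / √(2 * π)))
      rw [← ENNReal.ofReal_mul (by positivity), ← lintegral_const_mul' _ _ ENNReal.ofReal_ne_top]
        at h
      refine le_trans (le_of_eq (lintegral_congr fun x => ?_)) (h.trans_eq ?_)
      · rw [← lintegral_const_mul' _ _ ENNReal.ofReal_ne_top]
        refine lintegral_congr fun y => ?_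
        rw [← ENNReal.ofReal_mul (by positivity), one_div_mul_eq_div]
      · congr 1
        field_simp
    refine (setLIntegral_mono' measurableSet_Ioo hs).trans (le_of_eq ?_)
    rw [lintegral_Ioo_of_deriv (F := fun s => 1 / (v * √(2 * π)) * (s ^ 2 / 2)) hp
      (by fun_prop) (fun s _ => (((hasDerivAt_pow 2 s).div_const 2).const_mul _).congr_deriv
        (by push_cast; ring))
      (fun s hs => mul_nonneg (by positivity) hs.1.le)]
    congr 1
    field_simp
    ring
  refine (add_le_add hfirst hsecond).trans (le_of_eq ?_)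
  rw [← ENNReal.ofReal_add (div_nonneg hC (Real.sqrt_nonneg _)) (by positivity),
    add_div]

/-- The in-space cap plus the cost of the offset, in coordinates. -/
theorem excessModel_offset {v p t n a b : ℝ} (hv : 0 < v) (hp : 0 ≤ p) (ht : 0 ≤ t)
    (hab : a ^ 2 + b ^ 2 = 1) (hna : n * a = v) (hnb : n * b = p) :
    excessModel 2 n t a b
      ≤ ENNReal.ofReal ((cap3 v t + p ^ 2 / (2 * v)) / √(2 * π)) :=
  excessModel_offset_of_slab 2 hv hp hab hna hnb (cap3_nonneg ht)
    (by rw [excessModel_plane two_ne_zero hv.le ht, calc_cap3 hv.le ht,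
      ← ENNReal.ofReal_mul (by positivity), one_div_mul_eq_div])
    (fun _ hs => lintegral_cone_slab hv hs t)

end Model

section Space

variable {E : Type*} [NormedAddCommGroup E] [InnerProductSpace ℝ E] [FiniteDimensional ℝ E]

theorem norm_proj_sq_add (V : Submodule ℝ E) (z : E) :
    ‖V.starProjection z‖ ^ 2 + ‖z - V.starProjection z‖ ^ 2 = ‖z‖ ^ 2 := by
  have h := V.starProjection_inner_eq_zero z (V.starProjection z)
    (V.starProjection_apply_mem z)
  have h' := norm_add_sq_real (V.starProjection z) (z - V.starProjection z)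
  rw [add_sub_cancel, real_inner_comm, h] at h'
  linarith

variable [MeasurableSpace E] [BorelSpace E]

/-- The offset cap. -/
theorem excess_projNorm_le_offset (V : Submodule ℝ E) (hV : Module.finrank ℝ V = 3) (z : E)
    {t : ℝ} (ht : 0 ≤ t) (hv : 0 < ‖V.starProjection z‖) :
    excess z (fun g => t * projNorm V g) ≤ cap3 ‖V.starProjection z‖ t
      + ‖z - V.starProjection z‖ ^ 2 / (2 * ‖V.starProjection z‖) := by
  have hz : 0 < ‖z‖ := hv.trans_le (V.norm_starProjection_apply_le z)
  refine excess_le_of_lintegral z ((measurable_projNorm V).const_mul t)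
    (add_nonneg (cap3_nonneg ht) (by positivity)) ?_
  have hu : ‖‖z‖⁻¹ • z‖ = 1 := by simp [norm_smul, hz.ne']
  have ha : ‖V.starProjection (‖z‖⁻¹ • z)‖ = ‖V.starProjection z‖ / ‖z‖ := by
    rw [map_smul, norm_smul, norm_inv, norm_norm, inv_mul_eq_div]
  have hab : (‖V.starProjection z‖ / ‖z‖) ^ 2 + (‖z - V.starProjection z‖ / ‖z‖) ^ 2 = 1 := by
    rw [div_pow, div_pow, ← add_div, norm_proj_sq_add, div_self (by positivity)]
  have heq := lintegral_excess V (m := 2) hV hu ‖z‖ t ha hab
  calc ∫⁻ g, ENNReal.ofReal (⟪z, g⟫ - t * projNorm V g) ∂stdGaussian E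
      = excessModel 2 ‖z‖ t (‖V.starProjection z‖ / ‖z‖) (‖z - V.starProjection z‖ / ‖z‖) := by
        rw [← heq]
        refine lintegral_congr fun g => ?_
        rw [real_inner_smul_left, ← mul_assoc, mul_inv_cancel₀ hz.ne', one_mul]
    _ ≤ _ := excessModel_offset hv (norm_nonneg _) ht hab (mul_div_cancel₀ _ hz.ne')
        (mul_div_cancel₀ _ hz.ne')

variable {ι : Type*} [Fintype ι] [Nonempty ι] [DecidableEq ι]

/-- The norms-only branch: four vectors share one small component orthogonal to their space. -/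
theorem width_le_T4n (z : ι → E) (hE : 3 ≤ Module.finrank ℝ E) (hz : ∑ i, z i = 0)
    (hob : ∀ i j, i ≠ j → ⟪z i, z j⟫ ≤ 0) {s : Finset ι} (hs : s.card = 4)
    {x : ℝ} (hx : x = (∑ j ∈ sᶜ, ‖z j‖ ^ 2) / 16) (hxs : ∀ i ∈ s, x < ‖z i‖ ^ 2)
    {t : ℝ} (ht : 0 ≤ t) :
    width z ≤ 4 * t + ∑ i ∈ s, (cap3 √(‖z i‖ ^ 2 - x) t + x / (2 * √(‖z i‖ ^ 2 - x)))
      + ∑ j ∈ sᶜ, phi3 ‖z j‖ t := by
  obtain ⟨V, hV, hmem⟩ := exists_submodule_mem_centred z s (n := 3) hs hE
  norm_num at hmem
  set c := (1 / 4 : ℝ) • ∑ i ∈ s, z i with hc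
  have hperp : ∀ i ∈ s, ‖z i - V.starProjection (z i)‖ ^ 2 ≤ x := by
    intro i hi
    have hfix : V.starProjection (z i - c) = z i - c :=
      Submodule.starProjection_eq_self_iff.2 (hmem i hi)
    have he : z i - V.starProjection (z i) = c - V.starProjection c := by
      rw [map_sub] at hfix
      rw [sub_eq_sub_iff_add_eq_add] at hfix ⊢
      rw [add_comm c, hfix]
    rw [he]
    have h1 : ‖c - V.starProjection c‖ ^ 2 ≤ ‖c‖ ^ 2 := by
      nlinarith [norm_proj_sq_add V c, sq_nonneg ‖V.starProjection c‖]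
    refine h1.trans ?_
    have h2 := obtuse_norm_sum_sq_le z hob sᶜ
    rw [hc, sum_eq_neg_sum_compl z hz s, norm_smul, norm_neg, mul_pow, hx]
    norm_num
    linarith
  have hK := integral_projNorm_three V hV
  have h := width_le_union z (a := fun g => t * projNorm V g) ((integrable_projNorm V).const_mul t)
  rw [integral_const_mul, mul_left_comm, hK, ← Finset.sum_add_sum_compl s] at h
  have hin : ∀ i ∈ s, excess (z i) (fun g => t * projNorm V g)
      ≤ cap3 √(‖z i‖ ^ 2 - x) t + x / (2 * √(‖z i‖ ^ 2 - x)) := by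
    intro i hi
    set v := ‖V.starProjection (z i)‖ with hvdef
    set q := ‖z i - V.starProjection (z i)‖ ^ 2 with hq
    set v' := √(‖z i‖ ^ 2 - x) with hv'def
    have hv' : 0 < v' := Real.sqrt_pos.2 (sub_pos.2 (hxs i hi))
    have hsum : v ^ 2 + q = ‖z i‖ ^ 2 := norm_proj_sq_add V (z i)
    have hqx : q ≤ x := hperp i hi
    have hv'2 : v' ^ 2 = ‖z i‖ ^ 2 - x := Real.sq_sqrt (sub_pos.2 (hxs i hi)).le
    have hle : v' ≤ v :=
      (pow_le_pow_iff_left₀ hv'.le (norm_nonneg _) two_ne_zero).1 (by linarith)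
    have hq0 : 0 ≤ q := sq_nonneg _
    refine (excess_projNorm_le_offset V hV (z i) ht (hv'.trans_le hle)).trans ?_
    have h1 := cap3_sub_le ht hv' hle
    have h2 : q / (2 * v) ≤ q / (2 * v') :=
      div_le_div_of_nonneg_left hq0 (by positivity) (by linarith)
    have h3 : v - v' ≤ (x - q) / (2 * v') := by
      rw [le_div_iff₀ (by positivity)]
      nlinarith [sq_nonneg (v - v')]
    rw [← hvdef, ← hq]
    rw [sub_div] at h3
    linarith
  have hout : ∀ j ∈ sᶜ, excess (z j) (fun g => t * projNorm V g) ≤ phi3 ‖z j‖ t :=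
    fun j _ => excess_projNorm_le_phi3 V hV (z j) ht
  linarith [Finset.sum_le_sum hin, Finset.sum_le_sum hout]

end Space

end Vale.Agent.P226
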