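import Mathlib

/-!
# A kernel-friendly test for nonnegativity of a polynomial on an interval (P226)

`polyNonneg p lo hi depth` clears denominators, substitutes `v = (lo + hi * y) / (1 + y)` and asks
for nonnegative coefficients, bisecting up to `depth` times.
-/

namespace Vale.Agent.P226

/-- Evaluation at a real point of a rational coefficient list, constant term first. -/
def polyEval : List ℚ → ℝ → ℝ
  | [], _ => 0
  | c :: cs, v => c + v * polyEval cs v

/-- Evaluation at a real point of an integer coefficient list. -/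
def polyEvalInt : List ℤ → ℝ → ℝ
  | [], _ => 0
  | c :: cs, v => c + v * polyEvalInt cs v

namespace PolyCheck

/-- `c * p + q`. -/
def addSmul (c : ℤ) : List ℤ → List ℤ → List ℤ
  | [], q => q
  | a :: as, [] => (c * a) :: addSmul c as []
  | a :: as, b :: bs => (c * a + b) :: addSmul c as bs

/-- Auxiliary recursion for multiplication by `a + b * y`. -/
def mulLinAux (a b prev : ℤ) : List ℤ → List ℤ
  | [] => [b * prev]
  | c :: cs => (a * c + b * prev) :: mulLinAux a b c cs

/-- Multiplication by `a + b * y`. -/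
def mulLin (a b : ℤ) (p : List ℤ) : List ℤ := mulLinAux a b 0 p

/-- The coefficients after `v = (a + b * y) / (d * (1 + y))`, with the power of `d * (1 + y)`. -/
def bern (a b d : ℤ) : List ℤ → List ℤ × List ℤ
  | [] => ([], [1])
  | c :: cs => match bern a b d cs with
    | (R, pw) => (addSmul c pw (mulLin a b R), mulLin d d pw)

/-- All entries are nonnegative. -/
def allNonneg : List ℤ → Bool
  | [] => true
  | a :: as => decide (0 ≤ a) && allNonneg as

/-- Homogenised evaluation at `x / d`, with the power of `d`. -/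
def evalHom (x d : ℤ) : List ℤ → ℤ × ℤ
  | [] => (0, 1)
  | c :: cs => match evalHom x d cs with
    | (e, pw) => (c * pw + x * e, d * pw)

/-- The coefficient test on `[a / d, b / d]`. -/
def checkOne (p : List ℤ) (a b d : ℤ) : Bool :=
  allNonneg (bern a b d p).1 && decide (0 ≤ (evalHom b d p).1)

/-- The coefficient test with bisection. -/
def check (p : List ℤ) : ℕ → ℤ → ℤ → ℤ → Bool
  | 0, a, b, d => checkOne p a b d
  | k + 1, a, b, d => checkOne p a b d ||
      (check p k (2 * a) (a + b) (2 * d) && check p k (a + b) (2 * b) (2 * d))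

/-- The product of the denominators. -/
def denProd : List ℚ → ℕ
  | [] => 1
  | c :: cs => c.den * denProd cs

/-- The coefficients multiplied by a common multiple `L` of the denominators. -/
def toInts (L : ℕ) : List ℚ → List ℤ
  | [] => []
  | c :: cs => (c.num * ((L / c.den : ℕ) : ℤ)) :: toInts L cs

theorem eval_addSmul (c : ℤ) (y : ℝ) :
    ∀ p q : List ℤ, polyEvalInt (addSmul c p q) y = c * polyEvalInt p y + polyEvalInt q y
  | [], q => by simp [addSmul, polyEvalInt]
  | a :: as, [] => by
    simp only [addSmul, polyEvalInt, eval_addSmul c y as []]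
    push_cast
    ring
  | a :: as, b :: bs => by
    simp only [addSmul, polyEvalInt, eval_addSmul c y as bs]
    push_cast
    ring

theorem eval_mulLinAux (a b : ℤ) (y : ℝ) :
    ∀ (p : List ℤ) (prev : ℤ),
      polyEvalInt (mulLinAux a b prev p) y = b * prev + (a + b * y) * polyEvalInt p y
  | [], prev => by simp [mulLinAux, polyEvalInt]
  | c :: cs, prev => by
    simp only [mulLinAux, polyEvalInt, eval_mulLinAux a b y cs c]
    push_cast
    ring

theorem eval_mulLin (a b : ℤ) (p : List ℤ) (y : ℝ) :
    polyEvalInt (mulLin a b p) y = (a + b * y) * polyEvalInt p y := by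
  simp [mulLin, eval_mulLinAux]

theorem eval_bern (a b d : ℤ) (y v : ℝ) (hv : (a : ℝ) + b * y = v * (d + d * y)) :
    ∀ p : List ℤ, polyEvalInt (bern a b d p).2 y = ((d : ℝ) + d * y) ^ p.length ∧
      polyEvalInt (bern a b d p).1 y * ((d : ℝ) + d * y)
        = ((d : ℝ) + d * y) ^ p.length * polyEvalInt p v
  | [] => by simp [bern, polyEvalInt]
  | c :: cs => by
    obtain ⟨h1, h2⟩ := eval_bern a b d y v hv cs
    constructor
    · simp only [bern, eval_mulLin, h1, List.length_cons]
      ring
    · simp only [bern, eval_addSmul, eval_mulLin, h1, List.length_cons, polyEvalInt, pow_succ]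
      linear_combination v * ((d : ℝ) + d * y) * h2
        + polyEvalInt (bern a b d cs).1 y * ((d : ℝ) + d * y) * hv

theorem eval_evalHom (x d : ℤ) (v : ℝ) (hv : (x : ℝ) = v * d) :
    ∀ p : List ℤ, ((evalHom x d p).2 : ℝ) = (d : ℝ) ^ p.length ∧
      ((evalHom x d p).1 : ℝ) * d = (d : ℝ) ^ p.length * polyEvalInt p v
  | [] => by simp [evalHom, polyEvalInt]
  | c :: cs => by
    obtain ⟨h1, h2⟩ := eval_evalHom x d v hv cs
    constructor
    · simp only [evalHom, List.length_cons, pow_succ]
      push_cast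
      rw [h1]
      ring
    · simp only [evalHom, List.length_cons, polyEvalInt, pow_succ]
      push_cast
      rw [h1]
      linear_combination v * (d : ℝ) * h2 + ((evalHom x d cs).1 : ℝ) * (d : ℝ) * hv

theorem eval_nonneg_of_allNonneg {y : ℝ} (hy : 0 ≤ y) :
    ∀ p : List ℤ, allNonneg p = true → 0 ≤ polyEvalInt p y
  | [], _ => le_rfl
  | a :: as, h => by
    simp only [allNonneg, Bool.and_eq_true, decide_eq_true_eq] at h
    exact add_nonneg (by exact_mod_cast h.1) (mul_nonneg hy (eval_nonneg_of_allNonneg hy as h.2))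

theorem checkOne_sound {p : List ℤ} {a b d : ℤ} (hd : 0 < d) (h : checkOne p a b d = true) {v : ℝ}
    (h1 : (a : ℝ) ≤ v * d) (h2 : v * d ≤ b) : 0 ≤ polyEvalInt p v := by
  simp only [checkOne, Bool.and_eq_true, decide_eq_true_eq] at h
  have hd' : (0 : ℝ) < d := by exact_mod_cast hd
  rcases h2.eq_or_lt with heq | hlt
  · obtain ⟨-, h4⟩ := eval_evalHom b d v heq.symm p
    have h5 : (0 : ℝ) ≤ ((evalHom b d p).1 : ℝ) := by exact_mod_cast h.2
    refine nonneg_of_mul_nonneg_right ?_ (pow_pos hd' p.length)
    rw [← h4]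
    positivity
  · set y := (v * d - a) / (b - v * d) with hy
    have hpos : (0 : ℝ) < b - v * d := sub_pos.2 hlt
    have hy0 : 0 ≤ y := div_nonneg (sub_nonneg.2 h1) hpos.le
    have hv : (a : ℝ) + b * y = v * (d + d * y) := by
      rw [hy]
      field_simp
      ring
    obtain ⟨-, h4⟩ := eval_bern a b d y v hv p
    have hS : (0 : ℝ) < (d : ℝ) + d * y := by positivity
    refine nonneg_of_mul_nonneg_right ?_ (pow_pos hS p.length)
    rw [← h4]
    exact mul_nonneg (eval_nonneg_of_allNonneg hy0 _ h.1) hS.le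

theorem check_sound {p : List ℤ} :
    ∀ (k : ℕ) {a b d : ℤ}, 0 < d → check p k a b d = true → ∀ {v : ℝ},
      (a : ℝ) ≤ v * d → v * d ≤ b → 0 ≤ polyEvalInt p v
  | 0, _, _, _, hd, h, _, h1, h2 => checkOne_sound hd h h1 h2
  | k + 1, a, b, d, hd, h, v, h1, h2 => by
    simp only [check, Bool.or_eq_true, Bool.and_eq_true] at h
    rcases h with h | ⟨hl, hr⟩
    · exact checkOne_sound hd h h1 h2
    · rcases le_total (v * ((2 * d : ℤ) : ℝ)) ((a + b : ℤ) : ℝ) with hm | hm
      · exact check_sound k (by omega) hl (by push_cast; linarith) hm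
      · exact check_sound k (by omega) hr hm (by push_cast; linarith)

theorem denProd_pos : ∀ p : List ℚ, 0 < denProd p
  | [] => one_pos
  | c :: cs => Nat.mul_pos c.den_pos (denProd_pos cs)

theorem eval_toInts (L : ℕ) (v : ℝ) :
    ∀ p : List ℚ, denProd p ∣ L → polyEvalInt (toInts L p) v = L * polyEval p v
  | [], _ => by simp [toInts, polyEvalInt, polyEval]
  | c :: cs, hL => by
    have hc : c.den ∣ L := (dvd_mul_right _ _).trans hL
    have hcs : denProd cs ∣ L := (dvd_mul_left _ _).trans hL
    have hden : (c.den : ℝ) ≠ 0 := Nat.cast_ne_zero.2 c.den_nz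
    have hnum : (c : ℝ) = (c.num : ℝ) / (c.den : ℝ) := by
      exact_mod_cast (Rat.num_div_den c).symm
    simp only [toInts, polyEvalInt, polyEval, eval_toInts L v cs hcs]
    obtain ⟨q, rfl⟩ := hc
    rw [Nat.mul_div_cancel_left _ c.den_pos]
    push_cast
    rw [hnum]
    field_simp

end PolyCheck

open PolyCheck in
/-- The Boolean test for nonnegativity of the polynomial `p` on `[lo, hi]`. -/
def polyNonneg (p : List ℚ) (lo hi : ℚ) (depth : ℕ) : Bool :=
  check (toInts (denProd p) p) depth (lo.num * hi.den) (hi.num * lo.den)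
    ((lo.den : ℤ) * hi.den)

open PolyCheck in
/-- Soundness of `polyNonneg`. -/
theorem polyNonneg_sound {p : List ℚ} {lo hi : ℚ} {depth : ℕ}
    (h : polyNonneg p lo hi depth = true) {v : ℝ} (h1 : (lo : ℝ) ≤ v) (h2 : v ≤ hi) :
    0 ≤ polyEval p v := by
  have hl : (0 : ℝ) < lo.den := Nat.cast_pos.2 lo.den_pos
  have hh : (0 : ℝ) < hi.den := Nat.cast_pos.2 hi.den_pos
  have elo : (lo.num : ℝ) = lo * lo.den := by exact_mod_cast (Rat.mul_den_eq_num lo).symm
  have ehi : (hi.num : ℝ) = hi * hi.den := by exact_mod_cast (Rat.mul_den_eq_num hi).symm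
  have hchk := check_sound depth
    (mul_pos (Int.natCast_pos.2 lo.den_pos) (Int.natCast_pos.2 hi.den_pos)) h (v := v)
    (by push_cast; rw [elo]; nlinarith [mul_le_mul_of_nonneg_right h1 (mul_pos hl hh).le])
    (by push_cast; rw [ehi]; nlinarith [mul_le_mul_of_nonneg_right h2 (mul_pos hl hh).le])
  rw [eval_toInts _ v p dvd_rfl] at hchk
  exact nonneg_of_mul_nonneg_right hchk (Nat.cast_pos.2 (denProd_pos p))

end Vale.Agent.P226
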