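import Mathlib
import Vale.Agent.P226.WidthDefs

/-!
# The Gaussian coordinate model for the radial bounds (P226)

With `γ` the standard Gaussian on `ℝ`, an excess `E (v ⟪u, g⟫ - t ‖P g‖)₊` depends only on the
dimension `m + 1` of the subspace and on the cosine `a` between `u` and the subspace; it is the
triple integral `excessModel m v t a b`, with `a² + b² = 1`.
-/

namespace Vale.Agent.P226

open MeasureTheory ProbabilityTheory Set Real
open scoped ENNReal RealInnerProductSpace

/-- The standard Gaussian on `ℝ`. -/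
noncomputable abbrev gauss : Measure ℝ := gaussianReal 0 1

/-- The standard Gaussian on `Fin m → ℝ`. -/
noncomputable abbrev gaussPi (m : ℕ) : Measure (Fin m → ℝ) := Measure.pi fun _ => gauss

/-- The squared Euclidean norm of a tuple. -/
def sumSq {m : ℕ} (y : Fin m → ℝ) : ℝ := ∑ i, y i ^ 2

theorem sumSq_nonneg {m : ℕ} (y : Fin m → ℝ) : 0 ≤ sumSq y :=
  Finset.sum_nonneg fun _ _ => sq_nonneg _

theorem sumSq_cons {m : ℕ} (x : ℝ) (y : Fin m → ℝ) :
    sumSq (Fin.cons x y : Fin (m + 1) → ℝ) = x ^ 2 + sumSq y := by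
  simp [sumSq, Fin.sum_univ_succ]

theorem measurable_sumSq {m : ℕ} : Measurable (sumSq (m := m)) := by
  unfold sumSq; fun_prop

theorem lintegral_gaussPi_succ {m : ℕ} {f : (Fin (m + 1) → ℝ) → ℝ≥0∞} (hf : Measurable f) :
    ∫⁻ x, f x ∂gaussPi (m + 1) = ∫⁻ u, ∫⁻ y, f (Fin.cons u y) ∂gaussPi m ∂gauss := by
  have h := measurePreserving_piFinSuccAbove (fun _ : Fin (m + 1) => gauss) 0
  have hsymm := h.symm
  rw [← hsymm.lintegral_comp hf]
  refine (lintegral_prod _ (hf.comp hsymm.measurable).aemeasurable).trans ?_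
  congr! with u y
  simp [MeasurableEquiv.piFinSuccAbove, Fin.insertNthEquiv]

theorem lintegral_gauss_eq {f : ℝ → ℝ≥0∞} (hf : Measurable f) :
    ∫⁻ u, f u ∂gauss = ∫⁻ u, ENNReal.ofReal (exp (-u ^ 2 / 2) / √(2 * π)) * f u := by
  rw [gauss, gaussianReal_of_var_ne_zero _ one_ne_zero,
    lintegral_withDensity_eq_lintegral_mul _ (measurable_gaussianPDF 0 1) hf]
  refine lintegral_congr fun u => ?_
  rw [Pi.mul_apply, gaussianPDF_def]
  simp [gaussianPDFReal, div_eq_inv_mul]

/-- The first moment of the standard Gaussian above a threshold. -/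
theorem lintegral_tail {c : ℝ} (hc : 0 ≤ c) :
    ∫⁻ u in Ioi c, ENNReal.ofReal u ∂gauss = ENNReal.ofReal (exp (-c ^ 2 / 2) / √(2 * π)) := by
  rw [← lintegral_indicator measurableSet_Ioi,
    lintegral_gauss_eq (ENNReal.measurable_ofReal.indicator measurableSet_Ioi)]
  simp_rw [← Set.indicator_mul_right (Ioi c)
    (fun u => ENNReal.ofReal (exp (-u ^ 2 / 2) / √(2 * π)))]
  rw [lintegral_indicator measurableSet_Ioi]
  have hd : ∀ x : ℝ, HasDerivAt (fun u => -(exp (-u ^ 2 / 2) / √(2 * π)))
      (exp (-x ^ 2 / 2) / √(2 * π) * x) x := by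
    intro x
    refine (((hasDerivAt_pow 2 x).neg.div_const 2).exp.div_const _).neg.congr_deriv ?_
    simp only [Pi.neg_apply]
    push_cast
    ring
  have hl : Filter.Tendsto (fun u => -(exp (-u ^ 2 / 2) / √(2 * π))) Filter.atTop (nhds 0) := by
    have h2 : Filter.Tendsto (fun u : ℝ => -u ^ 2 / 2) Filter.atTop Filter.atBot :=
      (Filter.tendsto_neg_atTop_atBot.comp
        ((Filter.tendsto_pow_atTop two_ne_zero).atTop_div_const two_pos)).congr fun x => by
          simp [neg_div]
    simpa using ((tendsto_exp_atBot.comp h2).div_const (√(2 * π))).neg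
  have hp : ∀ x ∈ Ioi c, 0 ≤ exp (-x ^ 2 / 2) / √(2 * π) * x := fun x hx =>
    mul_nonneg (by positivity) (hc.trans (le_of_lt hx))
  have hi := integral_Ioi_of_hasDerivAt_of_nonneg' (a := c) (fun x _ => hd x) hp hl
  have hint := integrableOn_Ioi_deriv_of_nonneg' (a := c) (fun x _ => hd x) hp hl
  rw [zero_sub, neg_neg] at hi
  rw [← hi, ofReal_integral_eq_lintegral_ofReal hint
    ((ae_restrict_mem measurableSet_Ioi).mono hp)]
  refine lintegral_congr fun x => ?_
  rw [ENNReal.ofReal_mul (by positivity)]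

/-- The Gaussian transform of a square. -/
theorem lintegral_exp_sq {α : ℝ} (hα : 0 ≤ α) :
    ∫⁻ x, ENNReal.ofReal (exp (-(α * x ^ 2))) ∂gauss = ENNReal.ofReal (1 / √(1 + 2 * α)) := by
  rw [lintegral_gauss_eq (by fun_prop)]
  have hb : (0:ℝ) < α + 1 / 2 := by linarith
  have key : ∀ x : ℝ, ENNReal.ofReal (exp (-x ^ 2 / 2) / √(2 * π))
      * ENNReal.ofReal (exp (-(α * x ^ 2)))
      = ENNReal.ofReal ((1 / √(2 * π)) * exp (-(α + 1 / 2) * x ^ 2)) := by
    intro x
    rw [← ENNReal.ofReal_mul (by positivity), div_mul_eq_mul_div, ← exp_add]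
    ring_nf
  simp_rw [key]
  rw [← ofReal_integral_eq_lintegral_ofReal ((integrable_exp_neg_mul_sq hb).const_mul _)
    (ae_of_all _ fun x => by positivity), integral_const_mul, integral_gaussian]
  congr 1
  rw [Real.sqrt_div pi_pos.le, Real.sqrt_mul two_pos.le,
    show 1 + 2 * α = 2 * (α + 1 / 2) by ring, Real.sqrt_mul two_pos.le]
  have := Real.sqrt_pos.2 hb
  have := Real.sqrt_pos.2 pi_pos
  field_simp

theorem lintegral_exp_sumSq {m : ℕ} {α : ℝ} (hα : 0 ≤ α) :
    ∫⁻ y, ENNReal.ofReal (exp (-(α * sumSq y))) ∂gaussPi m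
      = ENNReal.ofReal ((1 / √(1 + 2 * α)) ^ m) := by
  induction m with
  | zero => simp [sumSq]
  | succ m ih =>
    rw [lintegral_gaussPi_succ (by have := measurable_sumSq (m := m + 1); fun_prop)]
    simp_rw [sumSq_cons, mul_add, neg_add, exp_add, ENNReal.ofReal_mul (exp_pos _).le]
    have h1 : ∀ u : ℝ, ∫⁻ y, ENNReal.ofReal (exp (-(α * u ^ 2))) *
        ENNReal.ofReal (exp (-(α * sumSq y))) ∂gaussPi m
        = ENNReal.ofReal (exp (-(α * u ^ 2))) * ENNReal.ofReal ((1 / √(1 + 2 * α)) ^ m) := by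
      intro u
      rw [lintegral_const_mul' _ _ ENNReal.ofReal_ne_top, ih]
    simp_rw [h1]
    rw [lintegral_mul_const' _ _ ENNReal.ofReal_ne_top, lintegral_exp_sq hα,
      ← ENNReal.ofReal_mul (by positivity), pow_succ']

section Transfer

variable {E F : Type*} [NormedAddCommGroup E] [InnerProductSpace ℝ E] [FiniteDimensional ℝ E]
  [MeasurableSpace E] [BorelSpace E] [NormedAddCommGroup F] [InnerProductSpace ℝ F]
  [FiniteDimensional ℝ F] [MeasurableSpace F] [BorelSpace F]

/-- The coordinates of a vector along `u` and along a family `e`. -/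
noncomputable def coordMap {k : ℕ} (u : E) (e : Fin k → E) : E →L[ℝ] ℝ × (Fin k → ℝ) :=
  (innerSL ℝ u).prod (ContinuousLinearMap.pi fun i => innerSL ℝ (e i))

omit [FiniteDimensional ℝ E] [MeasurableSpace E] [BorelSpace E] in
@[simp] theorem coordMap_apply {k : ℕ} (u : E) (e : Fin k → E) (g : E) :
    coordMap u e g = (⟪u, g⟫, fun i => ⟪e i, g⟫) := rfl

omit [FiniteDimensional ℝ E] [MeasurableSpace E] [BorelSpace E] in
theorem norm_dual_coordMap_sq {k : ℕ} (u : E) (e : Fin k → E) (hu : ‖u‖ = 1)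
    (he : Orthonormal ℝ e) (L : StrongDual ℝ (ℝ × (Fin k → ℝ))) :
    ‖L.comp (coordMap u e)‖ ^ 2 = L (1, 0) ^ 2
      + 2 * L (1, 0) * (∑ i, L (0, Pi.single i 1) * ⟪u, e i⟫)
      + ∑ i, L (0, Pi.single i 1) ^ 2 := by
  set c := L (1, 0)
  set d : Fin k → ℝ := fun i => L (0, Pi.single i 1)
  have hL : L.comp (coordMap u e) = innerSL ℝ (c • u + ∑ i, d i • e i) := by
    ext g
    have hd : ((⟪u, g⟫, fun i => ⟪e i, g⟫) : ℝ × (Fin k → ℝ))
        = ⟪u, g⟫ • ((1, 0) : ℝ × (Fin k → ℝ))
          + ∑ i, ⟪e i, g⟫ • ((0, Pi.single i 1) : ℝ × (Fin k → ℝ)) := by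
      refine Prod.ext (by simp [Prod.fst_sum]) ?_
      funext j
      simp [Prod.snd_sum, Finset.sum_apply, Pi.single_apply]
    simp only [ContinuousLinearMap.comp_apply, coordMap_apply, innerSL_apply_apply,
      inner_add_left, real_inner_smul_left, sum_inner]
    rw [hd, map_add, map_sum, map_smul]
    simp only [map_smul, smul_eq_mul, c, d]
    simp [mul_comm]
  rw [hL, innerSL_apply_norm, norm_add_sq_real, norm_smul, mul_pow, hu, one_pow, mul_one,
    norm_eq_abs, sq_abs, inner_sum]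
  simp_rw [real_inner_smul_left, real_inner_smul_right]
  rw [← real_inner_self_eq_norm_sq, he.inner_sum]
  simp [d, Finset.mul_sum, sq]
  refine Finset.sum_congr rfl fun i _ => ?_
  ring

/-- Gaussian pushforwards along two frames with the same Gram data agree. -/
theorem map_coordMap_eq {k : ℕ} {u : E} {e : Fin k → E} {u' : F} {e' : Fin k → F}
    (hu : ‖u‖ = 1) (he : Orthonormal ℝ e) (hu' : ‖u'‖ = 1) (he' : Orthonormal ℝ e')
    (h : ∀ i, ⟪u, e i⟫ = ⟪u', e' i⟫) :
    (stdGaussian E).map (coordMap u e) = (stdGaussian F).map (coordMap u' e') := by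
  apply Measure.ext_of_charFunDual
  ext L
  have hsq : ‖L.comp (coordMap u e)‖ ^ 2 = ‖L.comp (coordMap u' e')‖ ^ 2 := by
    rw [norm_dual_coordMap_sq u e hu he, norm_dual_coordMap_sq u' e' hu' he']
    simp [h]
  rw [charFunDual_map, charFunDual_map, charFunDual_stdGaussian, charFunDual_stdGaussian,
    ← Complex.ofReal_pow, ← Complex.ofReal_pow, hsq]

/-- The orthonormal frame of the model, tilted by `(a, b)`. -/
noncomputable def modelFrame (m : ℕ) (a b : ℝ) : Fin (m + 1) → EuclideanSpace ℝ (Fin (m + 2)) :=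
  Fin.cons (a • EuclideanSpace.single 0 1 - b • EuclideanSpace.single 1 1)
    (fun j => EuclideanSpace.single j.succ.succ 1)

theorem orthonormal_modelFrame {m : ℕ} {a b : ℝ} (hab : a ^ 2 + b ^ 2 = 1) :
    Orthonormal ℝ (modelFrame m a b) := by
  classical
  rw [orthonormal_iff_ite]
  intro i j
  induction i using Fin.cases <;> induction j using Fin.cases
  · rw [real_inner_self_eq_norm_sq, if_pos rfl, modelFrame, Fin.cons_zero, norm_sub_sq_real]
    simp [norm_smul, real_inner_smul_left, real_inner_smul_right,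
      EuclideanSpace.inner_single_left, hab]
  all_goals
    simp [modelFrame, inner_sub_left, inner_sub_right, real_inner_smul_left,
      EuclideanSpace.inner_single_left, PiLp.single_apply,
      Fin.ext_iff]

/-- Functions of one coordinate and of the norm in a frame reduce to the model. -/
theorem lintegral_coords {m : ℕ} {u : E} {e : Fin (m + 1) → E} (hu : ‖u‖ = 1)
    (he : Orthonormal ℝ e) {a b : ℝ} (hab : a ^ 2 + b ^ 2 = 1)
    (h0 : ⟪u, e 0⟫ = a) (hs : ∀ j : Fin m, ⟪u, e j.succ⟫ = 0)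
    {G : ℝ → ℝ → ℝ≥0∞} (hG : Measurable (fun p : ℝ × ℝ => G p.1 p.2)) :
    ∫⁻ g, G ⟪u, g⟫ (∑ i, ⟪e i, g⟫ ^ 2) ∂stdGaussian E
      = ∫⁻ x, ∫⁻ x', ∫⁻ y, G x ((a * x - b * x') ^ 2 + sumSq y) ∂gaussPi m ∂gauss ∂gauss := by
  let H : ℝ × (Fin (m + 1) → ℝ) → ℝ≥0∞ := fun p => G p.1 (sumSq p.2)
  have hH : Measurable H :=
    hG.comp (measurable_fst.prodMk (measurable_sumSq.comp measurable_snd))
  have hmap := map_coordMap_eq hu he (u' := (EuclideanSpace.single 0 1 :
    EuclideanSpace ℝ (Fin (m + 2)))) (by simp) (orthonormal_modelFrame hab) (fun i => by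
      refine Fin.cases ?_ (fun j => ?_) i
      · simp [h0, modelFrame, inner_sub_right,
          EuclideanSpace.inner_single_left]
      · simp [hs, modelFrame, EuclideanSpace.inner_single_left, Fin.ext_iff])
  have h1 : ∫⁻ g, G ⟪u, g⟫ (∑ i, ⟪e i, g⟫ ^ 2) ∂stdGaussian E
      = ∫⁻ p, H p ∂(stdGaussian E).map (coordMap u e) := by
    rw [lintegral_map hH (coordMap u e).continuous.measurable]
    rfl
  rw [h1, hmap, lintegral_map hH (ContinuousLinearMap.continuous _).measurable,
    ← map_pi_eq_stdGaussian]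
  rw [lintegral_map (f := fun z => H (coordMap _ _ z))
    (hH.comp (ContinuousLinearMap.continuous _).measurable) (by fun_prop)]
  rw [lintegral_gaussPi_succ (m := m + 1) (by fun_prop)]
  refine lintegral_congr fun x => ?_
  rw [lintegral_gaussPi_succ (m := m) (by fun_prop)]
  refine lintegral_congr fun x' => lintegral_congr fun y => ?_
  simp [H, modelFrame, sumSq, Fin.sum_univ_succ, inner_sub_left, real_inner_smul_left,
    EuclideanSpace.inner_single_left]

end Transfer

/-- The model of an excess. -/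
noncomputable def excessModel (m : ℕ) (v t a b : ℝ) : ℝ≥0∞ :=
  ∫⁻ x, ∫⁻ x', ∫⁻ y, ENNReal.ofReal (v * x - t * √((a * x - b * x') ^ 2 + sumSq y))
    ∂gaussPi m ∂gauss ∂gauss

/-- Rotation invariance: the law of the norm in the frame does not depend on the tilt. -/
theorem lintegral_model_rotate (m : ℕ) {a b : ℝ} (hab : a ^ 2 + b ^ 2 = 1) {ψ : ℝ → ℝ≥0∞}
    (hψ : Measurable ψ) :
    ∫⁻ x, ∫⁻ x', ∫⁻ y, ψ ((a * x - b * x') ^ 2 + sumSq y) ∂gaussPi m ∂gauss ∂gauss
      = ∫⁻ x', ∫⁻ y, ψ (x' ^ 2 + sumSq y) ∂gaussPi m ∂gauss := by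
  let s : Fin (m + 2) → EuclideanSpace ℝ (Fin (m + 2)) := fun i => EuclideanSpace.single i 1
  have he := orthonormal_modelFrame (m := m) hab
  have h1 := lintegral_coords (u := s 0) (e := modelFrame m a b) (by simp [s]) he hab
    (by simp [s, modelFrame, inner_sub_right,
      EuclideanSpace.inner_single_left])
    (fun j => by simp [s, modelFrame, EuclideanSpace.inner_single_left,
      Fin.ext_iff]) (G := fun _ r => ψ r) (hψ.comp measurable_snd)
  have h2 := lintegral_coords (u := b • s 0 + a • s 1) (e := modelFrame m a b) (by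
      rw [norm_eq_sqrt_real_inner, inner_add_add_self, real_inner_self_eq_norm_sq,
        real_inner_self_eq_norm_sq]
      simp [s, norm_smul, real_inner_smul_left, real_inner_smul_right,
        EuclideanSpace.inner_single_left]
      linarith) he (a := 0) (b := 1) (by norm_num)
    (by simp [s, modelFrame, inner_sub_right, inner_add_left, real_inner_smul_left,
      real_inner_smul_right, EuclideanSpace.inner_single_left]; ring)
    (fun j => by simp [s, modelFrame, inner_add_left, real_inner_smul_left,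
      EuclideanSpace.inner_single_left, Fin.ext_iff])
    (G := fun _ r => ψ r) (hψ.comp measurable_snd)
  rw [← h1, h2]
  simp

end Vale.Agent.P226
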