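import Vale.Agent.P226.Offset

/-!
# Scalar estimates for the branch `width_le_T4n` (P226)

The squared norms are `σ`, of total one, `δ` is their sum outside the four chosen ones. On the
three large vectors (or on all four) `u ↦ u - 2t + a / u` is bounded by its tangent in `u ^ 2`, on
the fourth the cap by a chord, and the tail by a constant ratio. The bound is then affine in the
fourth norm and convex in `δ`, so a box needs only its corners.
-/

namespace Vale.Agent.P226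

open Real

/-- The tangent in `u ^ 2` at `u = m` lies above `u - 2t + a / u` beyond the crossing point. -/
theorem capTangent_le {u m t a : ℝ} (hu : 0 < u) (hm : 0 < m)
    (h : 2 * m * a ≤ (m ^ 2 - a) * u) :
    u - 2 * t + a / u ≤ m - 2 * t + a / m + (1 - a / m ^ 2) / (2 * m) * (u ^ 2 - m ^ 2) := by
  rw [← sub_nonneg]
  have hfac : m - 2 * t + a / m + (1 - a / m ^ 2) / (2 * m) * (u ^ 2 - m ^ 2)
      - (u - 2 * t + a / u) = (u - m) ^ 2 * ((m ^ 2 - a) * u - 2 * m * a) / (2 * m ^ 3 * u) := by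
    field_simp
    ring
  rw [hfac]
  exact div_nonneg (mul_nonneg (sq_nonneg _) (sub_nonneg.2 h)) (by positivity)

theorem cap3_le_sq_div {u t : ℝ} (hu : 0 < u) : cap3 u t ≤ (u - t) ^ 2 / u := by
  unfold cap3
  split_ifs
  · positivity
  · exact le_rfl

/-- The summand of `width_le_T4n` below the tangent. -/
theorem t4nTerm_le_tangent {y t x m ul A : ℝ} (hm : 0 < m) (hul : 0 < ul)
    (hy : ul ^ 2 ≤ y) (hx : 0 ≤ x) (hA : t ^ 2 + x / 2 ≤ A)
    (hthr : 2 * m * A ≤ (m ^ 2 - A) * ul) :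
    cap3 √y t + x / (2 * √y) ≤ m - 2 * t + (t ^ 2 + x / 2) / m
      + (1 - (t ^ 2 + x / 2) / m ^ 2) / (2 * m) * (y - m ^ 2) := by
  have hy0 : 0 < y := (pow_pos hul 2).trans_le hy
  have hu : ul ≤ √y := Real.le_sqrt_of_sq_le hy
  have hu0 : 0 < √y := hul.trans_le hu
  have h := capTangent_le (u := √y) (t := t) (a := t ^ 2 + x / 2) hu0 hm (by
    have h0 : 0 ≤ t ^ 2 + x / 2 := by positivity
    have h1 : 0 ≤ m ^ 2 - (t ^ 2 + x / 2) := by
      by_contra hc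
      push Not at hc
      nlinarith
    nlinarith [mul_le_mul_of_nonneg_left hu h1])
  rw [Real.sq_sqrt hy0.le] at h
  refine le_trans ?_ h
  calc cap3 √y t + x / (2 * √y) ≤ (√y - t) ^ 2 / √y + x / (2 * √y) := by
        gcongr; exact cap3_le_sq_div hu0
    _ = √y - 2 * t + (t ^ 2 + x / 2) / √y := by field_simp; ring

/-- The cap below a chord in the squared first argument. -/
theorem cap3_le_chord {u t ul uh p k : ℝ} (hl : 0 < ul) (hu1 : ul ≤ u) (hu2 : u ≤ uh)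
    (hk : 0 ≤ k) (hk3 : 3 * k * uh ≤ 1) (hp : 0 ≤ p + k * ul ^ 2)
    (hel : (ul - t) ^ 2 ≤ (p + k * ul ^ 2) * ul) (heh : (uh - t) ^ 2 ≤ (p + k * uh ^ 2) * uh) :
    cap3 u t ≤ p + k * u ^ 2 := by
  have hu : 0 < u := hl.trans_le hu1
  unfold cap3
  split_ifs
  · nlinarith [mul_le_mul_of_nonneg_left (pow_le_pow_left₀ hl.le hu1 2) hk]
  · rw [div_le_iff₀ hu]
    have hfac : 0 ≤ (u - ul) * (uh - u) * (1 - k * (u + ul + uh)) :=
      mul_nonneg (mul_nonneg (sub_nonneg.2 hu1) (sub_nonneg.2 hu2)) (by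
        nlinarith [mul_le_mul_of_nonneg_left hu2 hk, mul_le_mul_of_nonneg_left (hu1.trans hu2) hk])
    rcases (hu1.trans hu2).eq_or_lt with he | hlt
    · have hul : u = ul := le_antisymm (he ▸ hu2) hu1
      rw [hul]; exact hel
    · refine le_of_mul_le_mul_left (a := uh - ul) ?_ (sub_pos.2 hlt)
      nlinarith [mul_le_mul_of_nonneg_left hel (sub_nonneg.2 hu2),
        mul_le_mul_of_nonneg_left heh (sub_nonneg.2 hu1), mul_nonneg hfac (sub_nonneg.2 hlt.le)]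

/-- A constant ratio for small tail terms. -/
theorem phi3_sqrt_le {σ t qh κ : ℝ} (ht : 0 < t) (hσ : 0 ≤ σ) (hq : t ≤ qh)
    (hσq : σ + t ^ 2 ≤ qh ^ 2) (hmono : qh ^ 2 ≤ 2 * t * qh + t ^ 2)
    (hκ : qh - t ≤ κ * (qh * (qh + t))) : phi3 √σ t ≤ κ * σ := by
  have hp : 0 < σ + t ^ 2 := by positivity
  have hphi : phi3 √σ t = (√(σ + t ^ 2) - t) ^ 2 / √(σ + t ^ 2) := by
    rw [phi3, Real.sq_sqrt hσ]
    have := Real.sqrt_pos.2 hp
    field_simp
    ring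
  set q := √(σ + t ^ 2)
  have hq2 : q ^ 2 = σ + t ^ 2 := Real.sq_sqrt hp.le
  have htq : t ≤ q := Real.le_sqrt_of_sq_le (by linarith)
  have hqq : q ≤ qh := Real.sqrt_le_iff.2 ⟨ht.le.trans hq, hσq⟩
  have hq0 : 0 < q := ht.trans_le htq
  have hC : 0 ≤ q * t + qh * t + t ^ 2 - q * qh := by
    nlinarith [mul_le_mul_of_nonneg_left hqq (sub_nonneg.2 (ht.le.trans hq))]
  have hkey : q - t ≤ κ * (q * (q + t)) := by
    have hpos : 0 < qh * (qh + t) := by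
      have := ht.trans_le hq
      positivity
    refine le_of_mul_le_mul_left (a := qh * (qh + t)) ?_ hpos
    nlinarith [mul_le_mul_of_nonneg_left hκ (by positivity : 0 ≤ q * (q + t)),
      mul_nonneg (sub_nonneg.2 hqq) hC]
  rw [hphi, div_le_iff₀ hq0]
  nlinarith [mul_le_mul_of_nonneg_left hkey (sub_nonneg.2 htq)]

/-- The box bound: tangent for three vectors, chord for the fourth, constant ratio for the tail. -/
noncomputable def boxBound (t m ul p k κ a d : ℝ) : ℝ :=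
  4 * t + 3 * (m - 2 * t + (t ^ 2 + d / 32) / m)
    + (1 - (t ^ 2 + d / 32) / m ^ 2) / (2 * m) * (1 - a - d - 3 * d / 16 - 3 * m ^ 2)
    + p + k * (a - d / 16) + d / (32 * ul) + κ * d

/-- The bound with all four vectors below the tangent. -/
noncomputable def fullBound (t m κ d : ℝ) : ℝ :=
  4 * t + 4 * (m - 2 * t + (t ^ 2 + d / 32) / m)
    + (1 - (t ^ 2 + d / 32) / m ^ 2) / (2 * m) * (1 - d - 4 * d / 16 - 4 * m ^ 2) + κ * d

theorem quad_le_of_endpoints {c₀ c₁ c₂ C x lo hi : ℝ} (hc : 0 ≤ c₂) (h1 : lo ≤ x) (h2 : x ≤ hi)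
    (hlo : c₀ + c₁ * lo + c₂ * lo ^ 2 ≤ C) (hhi : c₀ + c₁ * hi + c₂ * hi ^ 2 ≤ C) :
    c₀ + c₁ * x + c₂ * x ^ 2 ≤ C := by
  rcases (h1.trans h2).eq_or_lt with he | hlt
  · have : x = lo := le_antisymm (he ▸ h2) h1
    rw [this]; exact hlo
  · refine le_of_mul_le_mul_left (a := hi - lo) ?_ (sub_pos.2 hlt)
    nlinarith [mul_le_mul_of_nonneg_left hlo (sub_nonneg.2 h2),
      mul_le_mul_of_nonneg_left hhi (sub_nonneg.2 h1),
      mul_nonneg (mul_nonneg hc (sub_nonneg.2 hlt.le))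
        (mul_nonneg (sub_nonneg.2 h1) (sub_nonneg.2 h2))]

theorem boxBound_le_convex_d {t m ul p k κ a d dl dh : ℝ} (hm : 0 < m) (h1 : dl ≤ d) (h2 : d ≤ dh)
    (hl : boxBound t m ul p k κ a dl ≤ 3 / 2) (hh : boxBound t m ul p k κ a dh ≤ 3 / 2) :
    boxBound t m ul p k κ a d ≤ 3 / 2 := by
  have e : ∀ x, boxBound t m ul p k κ a x
      = (4 * t + 3 * (m - 2 * t + t ^ 2 / m)
          + (1 - t ^ 2 / m ^ 2) / (2 * m) * (1 - a - 3 * m ^ 2) + p + k * a)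
        + (3 / (32 * m) - (1 - t ^ 2 / m ^ 2) / (2 * m) * (19 / 16)
            - (1 - a - 3 * m ^ 2) / (64 * m ^ 3) - k / 16 + 1 / (32 * ul) + κ) * x
        + 19 / (1024 * m ^ 3) * x ^ 2 := by
    intro x
    simp only [boxBound]
    field_simp
    ring
  rw [e] at hl hh ⊢
  exact quad_le_of_endpoints (by positivity) h1 h2 hl hh

theorem boxBound_le {t m ul p k κ a d al ah dl dh : ℝ} (hm : 0 < m) (ha1 : al ≤ a) (ha2 : a ≤ ah)
    (hd1 : dl ≤ d) (hd2 : d ≤ dh)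
    (h11 : boxBound t m ul p k κ al dl ≤ 3 / 2) (h12 : boxBound t m ul p k κ al dh ≤ 3 / 2)
    (h21 : boxBound t m ul p k κ ah dl ≤ 3 / 2) (h22 : boxBound t m ul p k κ ah dh ≤ 3 / 2) :
    boxBound t m ul p k κ a d ≤ 3 / 2 := by
  have hl := boxBound_le_convex_d (a := al) hm hd1 hd2 h11 h12
  have hh := boxBound_le_convex_d (a := ah) hm hd1 hd2 h21 h22
  have e : ∀ x, boxBound t m ul p k κ x d = boxBound t m ul p k κ 0 d
      + (k - (1 - (t ^ 2 + d / 32) / m ^ 2) / (2 * m)) * x := by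
    intro x
    simp only [boxBound]
    ring
  rw [e] at hl hh ⊢
  rcases le_total 0 (k - (1 - (t ^ 2 + d / 32) / m ^ 2) / (2 * m)) with h | h <;>
    nlinarith [mul_le_mul_of_nonneg_left ha1 (le_refl (0:ℝ)), ha1, ha2]

variable {ι : Type*} [Fintype ι] [DecidableEq ι]

/-- All four summands below the tangent. -/
theorem t4n_full (σ : ι → ℝ) {s : Finset ι} (hs : s.card = 4) (hσ : ∀ i, 0 ≤ σ i)
    (htot : ∑ i, σ i = 1) {t m ul qh κ dh : ℝ} (hd : ∑ j ∈ sᶜ, σ j ≤ dh)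
    (hlow : ∀ i ∈ s, ul ^ 2 + dh / 16 ≤ σ i) (ht : 0 < t) (hm : 0 < m) (hul : 0 < ul)
    (hthr : 2 * m * (t ^ 2 + dh / 32) ≤ (m ^ 2 - (t ^ 2 + dh / 32)) * ul)
    (hq : t ≤ qh) (hσq : dh + t ^ 2 ≤ qh ^ 2) (hmono : qh ^ 2 ≤ 2 * t * qh + t ^ 2)
    (hκ : qh - t ≤ κ * (qh * (qh + t)))
    (h0 : fullBound t m κ 0 ≤ 3 / 2) (h1 : fullBound t m κ dh ≤ 3 / 2) :
    4 * t + ∑ i ∈ s, (cap3 √(σ i - (∑ j ∈ sᶜ, σ j) / 16) t
        + (∑ j ∈ sᶜ, σ j) / 16 / (2 * √(σ i - (∑ j ∈ sᶜ, σ j) / 16)))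
      + ∑ j ∈ sᶜ, phi3 √(σ j) t ≤ 3 / 2 := by
  set d := ∑ j ∈ sᶜ, σ j with hddef
  have hd0 : 0 ≤ d := Finset.sum_nonneg fun j _ => hσ j
  have htail : ∑ j ∈ sᶜ, phi3 √(σ j) t ≤ κ * d := by
    rw [hddef, Finset.mul_sum]
    exact Finset.sum_le_sum fun j hj => phi3_sqrt_le ht (hσ j) hq
      (by linarith [Finset.single_le_sum (fun i _ => hσ i) hj]) hmono hκ
  have hin := Finset.sum_le_sum fun i hi => t4nTerm_le_tangent (t := t) (x := d / 16)
    (y := σ i - d / 16) (A := t ^ 2 + dh / 32) hm hul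
    (by linarith [hlow i hi]) (by positivity) (by linarith) hthr
  have hsum : ∑ i ∈ s, σ i = 1 - d := by
    have h := Finset.sum_add_sum_compl s σ
    rw [htot] at h
    linarith
  rw [Finset.sum_add_distrib (f := fun _ : ι => m - 2 * t + (t ^ 2 + d / 16 / 2) / m),
    Finset.sum_const, hs, ← Finset.mul_sum, Finset.sum_sub_distrib, Finset.sum_sub_distrib,
    Finset.sum_const, Finset.sum_const, hs, hsum] at hin
  simp only [nsmul_eq_mul, Nat.cast_ofNat] at hin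
  have hconv : fullBound t m κ d ≤ 3 / 2 := by
    have e : ∀ x, fullBound t m κ x
        = (4 * t + 4 * (m - 2 * t + t ^ 2 / m) + (1 - t ^ 2 / m ^ 2) / (2 * m) * (1 - 4 * m ^ 2))
          + (4 / (32 * m) - (1 - t ^ 2 / m ^ 2) / (2 * m) * (5 / 4)
              - (1 - 4 * m ^ 2) / (64 * m ^ 3) + κ) * x + 5 / (256 * m ^ 3) * x ^ 2 := by
      intro x
      simp only [fullBound]
      field_simp
      ring
    rw [e] at h0 h1 ⊢
    exact quad_le_of_endpoints (by positivity) hd0 hd h0 h1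
  simp only [fullBound] at hconv
  rw [show d / 16 / 2 = d / 32 by ring] at hin
  linarith

/-- One box in the fourth norm and the tail. -/
theorem t4n_box (σ : ι → ℝ) {s : Finset ι} (hs : s.card = 4) {i₀ : ι} (hi₀ : i₀ ∈ s)
    (hσ : ∀ i, 0 ≤ σ i) (htot : ∑ i, σ i = 1) (hmin : ∀ i ∈ s, σ i₀ ≤ σ i)
    (htop : ∀ j ∉ s, σ j ≤ σ i₀) {al ah dl dh t m ul uh p k qh κ : ℝ}
    (ha : σ i₀ ∈ Set.Icc al ah) (hd : ∑ j ∈ sᶜ, σ j ∈ Set.Icc dl dh)
    (ht : 0 < t) (hm : 0 < m) (hul : 0 < ul) (huh : 0 ≤ uh)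
    (hlo : ul ^ 2 + dh / 16 ≤ al) (hhi : ah - dl / 16 ≤ uh ^ 2)
    (hthr : 2 * m * (t ^ 2 + dh / 32) ≤ (m ^ 2 - (t ^ 2 + dh / 32)) * ul)
    (hk : 0 ≤ k) (hk3 : 3 * k * uh ≤ 1) (hp : 0 ≤ p + k * ul ^ 2)
    (hel : (ul - t) ^ 2 ≤ (p + k * ul ^ 2) * ul) (heh : (uh - t) ^ 2 ≤ (p + k * uh ^ 2) * uh)
    (hq : t ≤ qh) (hσq : min ah dh + t ^ 2 ≤ qh ^ 2) (hmono : qh ^ 2 ≤ 2 * t * qh + t ^ 2)
    (hκ : qh - t ≤ κ * (qh * (qh + t)))
    (h11 : boxBound t m ul p k κ al dl ≤ 3 / 2) (h12 : boxBound t m ul p k κ al dh ≤ 3 / 2)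
    (h21 : boxBound t m ul p k κ ah dl ≤ 3 / 2) (h22 : boxBound t m ul p k κ ah dh ≤ 3 / 2) :
    4 * t + ∑ i ∈ s, (cap3 √(σ i - (∑ j ∈ sᶜ, σ j) / 16) t
        + (∑ j ∈ sᶜ, σ j) / 16 / (2 * √(σ i - (∑ j ∈ sᶜ, σ j) / 16)))
      + ∑ j ∈ sᶜ, phi3 √(σ j) t ≤ 3 / 2 := by
  set d := ∑ j ∈ sᶜ, σ j with hddef
  obtain ⟨ha1, ha2⟩ := ha
  obtain ⟨hd1, hd2⟩ := hd
  have hd0 : 0 ≤ d := Finset.sum_nonneg fun j _ => hσ j
  have htail : ∑ j ∈ sᶜ, phi3 √(σ j) t ≤ κ * d := by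
    rw [hddef, Finset.mul_sum]
    refine Finset.sum_le_sum fun j hj => phi3_sqrt_le ht (hσ j) hq ?_ hmono hκ
    have h1 : σ j ≤ ah := (htop j (Finset.mem_compl.1 hj)).trans ha2
    have h2 : σ j ≤ dh := (Finset.single_le_sum (fun i _ => hσ i) hj).trans hd2
    linarith [le_min h1 h2]
  have hy : ∀ i ∈ s, ul ^ 2 ≤ σ i - d / 16 := fun i hi => by linarith [hmin i hi]
  have hin := Finset.sum_le_sum (s := s.erase i₀) fun i hi =>
    t4nTerm_le_tangent (t := t) (x := d / 16) (y := σ i - d / 16) (A := t ^ 2 + dh / 32) hm hul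
      (hy i (Finset.mem_of_mem_erase hi)) (by positivity) (by linarith) hthr
  have hy0 : 0 < σ i₀ - d / 16 := (pow_pos hul 2).trans_le (hy i₀ hi₀)
  have hu1 : ul ≤ √(σ i₀ - d / 16) := Real.le_sqrt_of_sq_le (hy i₀ hi₀)
  have hu2 : √(σ i₀ - d / 16) ≤ uh := Real.sqrt_le_iff.2 ⟨huh, by linarith⟩
  have hcap := cap3_le_chord (t := t) hul hu1 hu2 hk hk3 hp hel heh
  rw [Real.sq_sqrt hy0.le] at hcap
  have hlast : d / 16 / (2 * √(σ i₀ - d / 16)) ≤ d / (32 * ul) := by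
    rw [div_div, ← mul_assoc, show (16:ℝ) * 2 = 32 by norm_num]
    exact div_le_div_of_nonneg_left hd0 (by positivity) (by linarith)
  have hsum : ∑ i ∈ s.erase i₀, σ i = 1 - σ i₀ - d := by
    have h := Finset.sum_add_sum_compl s σ
    rw [htot, ← Finset.add_sum_erase s σ hi₀] at h
    linarith
  have hcard : (s.erase i₀).card = 3 := by rw [Finset.card_erase_of_mem hi₀, hs]
  rw [Finset.sum_add_distrib (f := fun _ : ι => m - 2 * t + (t ^ 2 + d / 16 / 2) / m),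
    Finset.sum_const, hcard, ← Finset.mul_sum, Finset.sum_sub_distrib, Finset.sum_sub_distrib,
    Finset.sum_const, Finset.sum_const, hcard, hsum] at hin
  simp only [nsmul_eq_mul, Nat.cast_ofNat] at hin
  have hb := boxBound_le hm ha1 ha2 hd1 hd2 h11 h12 h21 h22
  simp only [boxBound] at hb
  rw [← Finset.add_sum_erase s _ hi₀]
  rw [show d / 16 / 2 = d / 32 by ring] at hin
  linarith

end Vale.Agent.P226
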