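import Vale.Agent.P226.TriangleExcess
import Vale.Agent.P226.RadialEval

/-!
# The saturated triangle tail bound

The cubic triangle tail bound is sharpened to `phi2 |h| (1 / √K)`, where `2 π K` is the polar
integral `∫ exp (-S ^ 2 / 2)` of the gauge `S = max_i ⟪p i - q, ·⟫`. The saturation comes from
`1 / (a + b) ≤ α ^ 2 / a + β ^ 2 / b` for `α + β = 1`, applied on each ray through the origin.
-/

namespace Vale.Agent.P226

open MeasureTheory ProbabilityTheory
open scoped ENNReal RealInnerProductSpace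

section PlaneCone

/-- Planar integration along rays, in the chart `(t, t x)`. -/
lemma lintegral_plane_cone {f : ℝ × ℝ → ℝ≥0∞} (hf : Measurable f) :
    ∫⁻ p, f p = ∫⁻ x, ∫⁻ t, ENNReal.ofReal |t| * f (t, t * x) := by
  rw [Measure.volume_eq_prod, lintegral_prod _ hf.aemeasurable]
  have h1 : ∀ t : ℝ, t ≠ 0 →
      ∫⁻ y, f (t, y) = ∫⁻ x, ENNReal.ofReal |t| * f (t, t * x) := by
    intro t ht
    have hft : Measurable fun y => f (t, y) := hf.comp measurable_prodMk_left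
    rw [lintegral_const_mul' _ _ ENNReal.ofReal_ne_top,
      ← lintegral_map hft (by fun_prop : Measurable fun x : ℝ => t * x),
      Real.map_volume_mul_left ht, lintegral_smul_measure, smul_eq_mul, ← mul_assoc,
      ← ENNReal.ofReal_mul (abs_nonneg t), ← abs_mul, mul_inv_cancel₀ ht, abs_one,
      ENNReal.ofReal_one, one_mul]
  rw [lintegral_congr_ae ((Measure.ae_ne volume (0 : ℝ)).mono h1),
    lintegral_lintegral_swap]
  exact Measurable.aemeasurable (by fun_prop)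

/-- A half-line Gaussian moment. -/
lemma lintegral_Ioi_mul_exp {c : ℝ} (hc : 0 < c) :
    ∫⁻ t in Set.Ioi (0 : ℝ), ENNReal.ofReal (t * Real.exp (-(c * t ^ 2) / 2))
      = ENNReal.ofReal (1 / c) := by
  have he : Set.EqOn (fun t : ℝ => t * Real.exp (-(c * t ^ 2) / 2))
      (fun t : ℝ => t ^ (1 : ℝ) * Real.exp (-(c / 2) * t ^ (2 : ℝ))) (Set.Ioi 0) := by
    intro t _
    simp only [Real.rpow_one, Real.rpow_two]
    ring_nf
  have hint : IntegrableOn (fun t : ℝ => t * Real.exp (-(c * t ^ 2) / 2)) (Set.Ioi 0) :=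
    (integrableOn_rpow_mul_exp_neg_mul_rpow (by norm_num) (by norm_num) (half_pos hc)).congr_fun
      he.symm measurableSet_Ioi
  rw [← ofReal_integral_eq_lintegral_ofReal hint
    ((ae_restrict_mem measurableSet_Ioi).mono fun t (ht : (0 : ℝ) < t) => by positivity),
    setIntegral_congr_fun measurableSet_Ioi he,
    integral_rpow_mul_exp_neg_mul_rpow (by norm_num) (by norm_num) (half_pos hc)]
  congr 1
  norm_num [Real.rpow_neg_one]

/-- Gaussian moment on the line with different widths on the two half-lines. -/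
lemma lintegral_abs_mul_exp {cp cn : ℝ} (hp : 0 < cp) (hn : 0 < cn) :
    ∫⁻ t : ℝ, ENNReal.ofReal |t|
        * ENNReal.ofReal (Real.exp (-((if 0 ≤ t then cp else cn) * t ^ 2) / 2))
      = ENNReal.ofReal (1 / cp + 1 / cn) := by
  let G : ℝ → ℝ → ℝ≥0∞ := fun c =>
    (Set.Ioi (0 : ℝ)).indicator fun t => ENNReal.ofReal (t * Real.exp (-(c * t ^ 2) / 2))
  have hG : ∀ c, Measurable (G c) := fun c =>
    (Measurable.ennreal_ofReal (by fun_prop)).indicator measurableSet_Ioi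
  have heq : ∀ t : ℝ, ENNReal.ofReal |t|
      * ENNReal.ofReal (Real.exp (-((if 0 ≤ t then cp else cn) * t ^ 2) / 2))
      = G cp t + G cn (-t) := by
    intro t
    rw [← ENNReal.ofReal_mul (abs_nonneg t)]
    rcases lt_trichotomy t 0 with h | h | h
    · simp [G, h, not_le.mpr h, abs_of_neg h, h.le]
    · simp [G, h]
    · simp [G, h, h.le, abs_of_pos h]
  rw [lintegral_congr heq, lintegral_add_left (hG cp),
    (Measure.measurePreserving_neg (volume : Measure ℝ)).lintegral_comp (hG cn)]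
  simp only [G, lintegral_indicator measurableSet_Ioi, lintegral_Ioi_mul_exp hp,
    lintegral_Ioi_mul_exp hn]
  rw [ENNReal.ofReal_add (by positivity) (by positivity)]

/-- A Gaussian profile of a linear form on the positive quadrant. -/
noncomputable def quadrantGauss (σ a b : ℝ) : ℝ × ℝ → ℝ≥0∞ :=
  (Set.Ici (0 : ℝ) ×ˢ Set.Ici (0 : ℝ)).indicator
    (fun p => ENNReal.ofReal (Real.exp (-(σ⁻¹ * (a * p.1 + b * p.2) ^ 2) / 2)))

lemma measurable_quadrantGauss (σ a b : ℝ) : Measurable (quadrantGauss σ a b) :=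
  (Measurable.ennreal_ofReal (by fun_prop)).indicator (measurableSet_Ici.prod measurableSet_Ici)

lemma lintegral_quadrantGauss {σ a b : ℝ} (hσ : 0 < σ) (ha : 0 < a) (hb : 0 < b) :
    ∫⁻ p, quadrantGauss σ a b p = ENNReal.ofReal (σ / (a * b)) := by
  rw [lintegral_plane_cone (measurable_quadrantGauss σ a b)]
  have hin : ∀ x : ℝ, x ≠ 0 → ∫⁻ t, ENNReal.ofReal |t| * quadrantGauss σ a b (t, t * x)
      = (Set.Ioi (0 : ℝ)).indicator (fun x => ENNReal.ofReal (σ / (a + b * x) ^ 2)) x := by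
    intro x hx
    rcases lt_or_gt_of_ne hx with hx | hx
    · rw [Set.indicator_of_notMem (by simpa using hx.le)]
      refine (lintegral_congr fun t => ?_).trans lintegral_zero
      rcases lt_trichotomy t 0 with h | h | h
      · rw [quadrantGauss, Set.indicator_of_notMem (by simp [h]), mul_zero]
      · simp [h]
      · rw [quadrantGauss, Set.indicator_of_notMem, mul_zero]
        simp only [Set.mem_prod, Set.mem_Ici, not_and, not_le]
        intro _
        nlinarith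
    · have hc : 0 < σ⁻¹ * (a + b * x) ^ 2 := by positivity
      have hfun : ∀ t : ℝ, ENNReal.ofReal |t| * quadrantGauss σ a b (t, t * x)
          = (Set.Ioi (0 : ℝ)).indicator (fun t => ENNReal.ofReal
              (t * Real.exp (-(σ⁻¹ * (a + b * x) ^ 2 * t ^ 2) / 2))) t := by
        intro t
        rcases lt_trichotomy t 0 with h | h | h
        · rw [quadrantGauss, Set.indicator_of_notMem (by simp [h]), mul_zero,
            Set.indicator_of_notMem (by simpa using h.le)]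
        · simp [h]
        · rw [quadrantGauss, Set.indicator_of_mem (Set.mem_prod.mpr
              ⟨Set.mem_Ici.mpr h.le, Set.mem_Ici.mpr (mul_pos h hx).le⟩),
            Set.indicator_of_mem (Set.mem_Ioi.mpr h), ← ENNReal.ofReal_mul (abs_nonneg t),
            abs_of_pos h]
          congr 3
          ring
      rw [lintegral_congr hfun, lintegral_indicator measurableSet_Ioi,
        lintegral_Ioi_mul_exp hc, Set.indicator_of_mem (Set.mem_Ioi.mpr hx)]
      congr 1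
      field_simp
  rw [lintegral_congr_ae ((Measure.ae_ne volume (0 : ℝ)).mono hin),
    lintegral_indicator measurableSet_Ioi]
  have hpos : ∀ x ∈ Set.Ici (0 : ℝ), 0 < a + b * x := fun x (hx : (0 : ℝ) ≤ x) => by positivity
  have hd : ∀ x ∈ Set.Ici (0 : ℝ),
      HasDerivAt (fun x => -(σ / b) / (a + b * x)) (σ / (a + b * x) ^ 2) x := by
    intro x hx
    have h1 : HasDerivAt (fun x => a + b * x) b x := by
      simpa using ((hasDerivAt_id x).const_mul b).const_add a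
    refine ((hasDerivAt_const x (-(σ / b))).div h1 (hpos x hx).ne').congr_deriv ?_
    field_simp
    ring
  have hnn : ∀ x ∈ Set.Ioi (0 : ℝ), 0 ≤ σ / (a + b * x) ^ 2 := fun x _ => by positivity
  have hlim : Filter.Tendsto (fun x => -(σ / b) / (a + b * x)) Filter.atTop (nhds 0) :=
    tendsto_const_nhds.div_atTop
      (Filter.tendsto_atTop_add_const_left _ a (Filter.tendsto_id.const_mul_atTop hb))
  rw [← ofReal_integral_eq_lintegral_ofReal (integrableOn_Ioi_deriv_of_nonneg' hd hnn hlim)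
      ((ae_restrict_mem measurableSet_Ioi).mono hnn),
    integral_Ioi_of_hasDerivAt_of_nonneg' hd hnn hlim]
  congr 1
  field_simp
  ring

/-- The Gaussian planar integral. -/
lemma lintegral_plane_gauss :
    ∫⁻ x : ℝ × ℝ, ENNReal.ofReal (Real.exp (-(x.1 ^ 2 + x.2 ^ 2) / 2))
      = ENNReal.ofReal (2 * Real.pi) := by
  have h1 : ∫⁻ t : ℝ, ENNReal.ofReal (Real.exp (-t ^ 2 / 2))
      = ENNReal.ofReal (Real.sqrt (2 * Real.pi)) := by
    have he : (fun t : ℝ => Real.exp (-t ^ 2 / 2)) = fun t => Real.exp (-(1 / 2) * t ^ 2) := by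
      funext t; ring_nf
    rw [← ofReal_integral_eq_lintegral_ofReal
      (he ▸ integrable_exp_neg_mul_sq (by norm_num : (0 : ℝ) < 1 / 2))
      (ae_of_all _ fun t => (Real.exp_pos _).le), he, integral_gaussian]
    congr 2
    ring
  rw [Measure.volume_eq_prod, lintegral_prod _ (Measurable.aemeasurable (by fun_prop))]
  simp_rw [neg_add, add_div, Real.exp_add, ENNReal.ofReal_mul (Real.exp_pos _).le,
    lintegral_const_mul' _ _ ENNReal.ofReal_ne_top, h1]
  rw [lintegral_mul_const' _ _ ENNReal.ofReal_ne_top, h1, ← ENNReal.ofReal_mul (Real.sqrt_nonneg _),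
    Real.mul_self_sqrt (by positivity)]

/-- The standard Gaussian plane through its density. -/
lemma lintegral_gs_two_eq {f : (Fin 2 → ℝ) → ℝ≥0∞} (hf : Measurable f) :
    ∫⁻ y, f y ∂(gs 2) = ENNReal.ofReal (phi0 ^ 2) * ∫⁻ x : ℝ × ℝ,
      ENNReal.ofReal (Real.exp (-(x.1 ^ 2 + x.2 ^ 2) / 2)) * f ![x.1, x.2] := by
  have hmp := (measurePreserving_piFinTwo
    (fun _ : Fin 2 => gaussianReal 0 1)).symm
      (MeasurableEquiv.piFinTwo fun _ => ℝ)
  have hg : Measurable fun p : ℝ × ℝ => f ![p.1, p.2] := by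
    refine hf.comp (measurable_pi_lambda _ fun i => ?_)
    fin_cases i
    · exact measurable_fst
    · exact measurable_snd
  have e : ∀ p : ℝ × ℝ, (MeasurableEquiv.piFinTwo fun _ : Fin 2 => ℝ).symm p = ![p.1, p.2] := by
    intro p; funext i; fin_cases i <;> rfl
  have h1 : ∫⁻ y, f y ∂(gs 2)
      = ∫⁻ p : ℝ × ℝ, f ![p.1, p.2] ∂((gaussianReal 0 1).prod (gaussianReal 0 1)) := by
    rw [gs, ← hmp.lintegral_comp hf]
    simp only [e]
  rw [h1, lintegral_prod _ hg.aemeasurable,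
    lintegral_gauss_eq (f := fun u => ∫⁻ v, f ![u, v] ∂gauss) hg.lintegral_prod_right',
    Measure.volume_eq_prod, ← lintegral_const_mul' _ _ ENNReal.ofReal_ne_top,
    lintegral_prod _ (Measurable.aemeasurable (by fun_prop))]
  refine lintegral_congr fun u => ?_
  have hu : Measurable fun v => f ![u, v] := hg.comp measurable_prodMk_left
  rw [lintegral_gauss_eq hu, ← lintegral_const_mul' _ _ ENNReal.ofReal_ne_top]
  refine lintegral_congr fun v => ?_
  rw [← mul_assoc, ← mul_assoc, ← ENNReal.ofReal_mul (by positivity),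
    ← ENNReal.ofReal_mul (sq_nonneg _)]
  congr 2
  rw [neg_add, add_div, Real.exp_add, phi0]
  ring

end PlaneCone

section TriangleGauge

/-- The gauge of the triangle `p` seen from `∑ l i • p i`. -/
noncomputable def triGauge (p : Fin 3 → Fin 2 → ℝ) (l : Fin 3 → ℝ) (y : Fin 2 → ℝ) : ℝ :=
  max (max (dotv (p 0) y) (dotv (p 1) y)) (dotv (p 2) y) - dotv (∑ i, l i • p i) y

lemma measurable_triGauge (p : Fin 3 → Fin 2 → ℝ) (l : Fin 3 → ℝ) :
    Measurable (triGauge p l) := by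
  unfold triGauge dotv; fun_prop

lemma measurable_triGauge_pair (p : Fin 3 → Fin 2 → ℝ) (l : Fin 3 → ℝ) :
    Measurable fun x : ℝ × ℝ => triGauge p l ![x.1, x.2] := by
  refine (measurable_triGauge p l).comp (measurable_pi_lambda _ fun i => ?_)
  fin_cases i
  · exact measurable_fst
  · exact measurable_snd

lemma dotv_combo (p : Fin 3 → Fin 2 → ℝ) (l : Fin 3 → ℝ) (y : Fin 2 → ℝ) :
    dotv (∑ i, l i • p i) y
      = l 0 * dotv (p 0) y + l 1 * dotv (p 1) y + l 2 * dotv (p 2) y := by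
  simp only [dotv, Fin.sum_univ_two, Fin.sum_univ_three, Pi.add_apply, Pi.smul_apply, smul_eq_mul]
  ring

lemma triGauge_nonneg (p : Fin 3 → Fin 2 → ℝ) (l : Fin 3 → ℝ) (hl : ∀ i, 0 < l i)
    (hl1 : ∑ i, l i = 1) (y : Fin 2 → ℝ) : 0 ≤ triGauge p l y := by
  have hs : l 0 + l 1 + l 2 = 1 := by simpa [Fin.sum_univ_three] using hl1
  rw [triGauge, dotv_combo]
  have hl0 := hl 0; have hl1 := hl 1; have hl2 := hl 2
  generalize dotv (p 0) y = A
  generalize dotv (p 1) y = B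
  generalize dotv (p 2) y = C
  have e1 := mul_le_mul_of_nonneg_left ((le_max_left A B).trans (le_max_left (max A B) C)) hl0.le
  have e2 := mul_le_mul_of_nonneg_left ((le_max_right A B).trans (le_max_left (max A B) C)) hl1.le
  have e3 := mul_le_mul_of_nonneg_left (le_max_right (max A B) C) hl2.le
  have e4 : max (max A B) C =
      l 0 * max (max A B) C + l 1 * max (max A B) C + l 2 * max (max A B) C := by
    linear_combination (-(max (max A B) C)) * hs
  linarith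

/-- Every direction through the origin meets the triangle gauge positively. -/
lemma triGauge_pos (p : Fin 3 → Fin 2 → ℝ) (l : Fin 3 → ℝ) (hl : ∀ i, 0 < l i)
    (hl1 : ∑ i, l i = 1)
    (hA : (p 1 0 - p 0 0) * (p 2 1 - p 0 1) - (p 1 1 - p 0 1) * (p 2 0 - p 0 0) ≠ 0)
    {a b : ℝ} (hab : a ≠ 0 ∨ b ≠ 0) : 0 < triGauge p l ![a, b] := by
  refine (triGauge_nonneg p l hl hl1 _).lt_of_ne fun h => ?_
  have hs : l 0 + l 1 + l 2 = 1 := by simpa [Fin.sum_univ_three] using hl1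
  have hl0 := hl 0; have hl1 := hl 1; have hl2 := hl 2
  rw [triGauge, dotv_combo] at h
  obtain ⟨A, hA'⟩ : ∃ A, A = dotv (p 0) ![a, b] := ⟨_, rfl⟩
  obtain ⟨B, hB'⟩ : ∃ B, B = dotv (p 1) ![a, b] := ⟨_, rfl⟩
  obtain ⟨C, hC'⟩ : ∃ C, C = dotv (p 2) ![a, b] := ⟨_, rfl⟩
  rw [← hA', ← hB', ← hC'] at h
  obtain ⟨M, hM⟩ : ∃ M, M = max (max A B) C := ⟨_, rfl⟩
  rw [← hM] at h
  have hMA : A ≤ M := hM ▸ le_max_of_le_left (le_max_left A B)
  have hMB : B ≤ M := hM ▸ le_max_of_le_left (le_max_right A B)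
  have hMC : C ≤ M := hM ▸ le_max_right _ C
  have h0 : l 0 * (M - A) + l 1 * (M - B) + l 2 * (M - C) = 0 := by
    linear_combination M * hs - h
  have hA0 : A = M := by
    nlinarith [mul_nonneg hl1.le (sub_nonneg.2 hMB), mul_nonneg hl2.le (sub_nonneg.2 hMC)]
  have hB0 : B = M := by
    nlinarith [mul_nonneg hl0.le (sub_nonneg.2 hMA), mul_nonneg hl2.le (sub_nonneg.2 hMC)]
  have hC0 : C = M := by
    nlinarith [mul_nonneg hl0.le (sub_nonneg.2 hMA), mul_nonneg hl1.le (sub_nonneg.2 hMB)]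
  have e1 : (p 1 0 - p 0 0) * a + (p 1 1 - p 0 1) * b = 0 := by
    have : B = A := hB0.trans hA0.symm
    simp [hA', hB', dotv, Fin.sum_univ_two] at this
    linarith
  have e2 : (p 2 0 - p 0 0) * a + (p 2 1 - p 0 1) * b = 0 := by
    have : C = A := hC0.trans hA0.symm
    simp [hA', hC', dotv, Fin.sum_univ_two] at this
    linarith
  have ha : ((p 1 0 - p 0 0) * (p 2 1 - p 0 1) - (p 1 1 - p 0 1) * (p 2 0 - p 0 0)) * a = 0 := by
    linear_combination (p 2 1 - p 0 1) * e1 - (p 1 1 - p 0 1) * e2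
  have hb : ((p 1 0 - p 0 0) * (p 2 1 - p 0 1) - (p 1 1 - p 0 1) * (p 2 0 - p 0 0)) * b = 0 := by
    linear_combination (p 1 0 - p 0 0) * e2 - (p 2 0 - p 0 0) * e1
  rcases hab with h' | h'
  · exact h' ((mul_eq_zero.1 ha).resolve_left hA)
  · exact h' ((mul_eq_zero.1 hb).resolve_left hA)

lemma triGauge_smul (p : Fin 3 → Fin 2 → ℝ) (l : Fin 3 → ℝ) (t x : ℝ) :
    triGauge p l ![t, t * x]
      = |t| * (if 0 ≤ t then triGauge p l ![1, x] else triGauge p l ![-1, -x]) := by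
  have hd : ∀ (a : Fin 2 → ℝ) (s u v : ℝ), dotv a ![s * u, s * v] = s * dotv a ![u, v] := by
    intro a s u v; simp [dotv, Fin.sum_univ_two]; ring
  split_ifs with ht
  · rw [abs_of_nonneg ht]
    have : (![t, t * x] : Fin 2 → ℝ) = ![t * 1, t * x] := by rw [mul_one]
    rw [this]
    simp only [triGauge, hd, ← mul_max_of_nonneg _ _ ht, ← mul_sub]
  · have ht' : 0 ≤ -t := by linarith
    rw [abs_of_neg (not_le.1 ht)]
    have : (![t, t * x] : Fin 2 → ℝ) = ![(-t) * (-1), (-t) * (-x)] := by simp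
    rw [this]
    simp only [triGauge, hd, ← mul_max_of_nonneg _ _ ht', ← mul_sub]

/-- The polar area of the triangle, as a Gaussian integral. -/
lemma lintegral_exp_triGauge_le (p : Fin 3 → Fin 2 → ℝ) (l : Fin 3 → ℝ) {σ : ℝ} (hσ : 0 < σ)
    (hl : ∀ i, 0 < l i) (hl1 : ∑ i, l i = 1)
    (hA : (p 1 0 - p 0 0) * (p 2 1 - p 0 1) - (p 1 1 - p 0 1) * (p 2 0 - p 0 0) ≠ 0) :
    ∫⁻ x : ℝ × ℝ, ENNReal.ofReal (Real.exp (-(σ⁻¹ * triGauge p l ![x.1, x.2] ^ 2) / 2))
      ≤ ENNReal.ofReal (σ /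
          (|(p 1 0 - p 0 0) * (p 2 1 - p 0 1) - (p 1 1 - p 0 1) * (p 2 0 - p 0 0)| *
          (l 0 * l 1 * l 2))) := by
  obtain ⟨D, hD⟩ : ∃ D, D = (p 1 0 - p 0 0) * (p 2 1 - p 0 1)
      - (p 1 1 - p 0 1) * (p 2 0 - p 0 0) := ⟨_, rfl⟩
  rw [← hD] at hA ⊢
  let M : Fin 3 → Fin 3 → Fin 3 → ℝ × ℝ →ₗ[ℝ] ℝ × ℝ := fun i j k =>
    planeMap (p i 0 - p j 0) (p i 1 - p j 1) (p i 0 - p k 0) (p i 1 - p k 1)
  let T : Fin 3 → Fin 3 → Fin 3 → ℝ × ℝ → ℝ≥0∞ := fun i j k x =>
    quadrantGauss σ (l j) (l k) (M i j k x)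
  have hT : ∀ i j k, Measurable (T i j k) := by
    intro i j k
    refine (measurable_quadrantGauss _ _ _).comp ?_
    change Measurable fun x : ℝ × ℝ => ((p i 0 - p j 0) * x.1 + (p i 1 - p j 1) * x.2,
      (p i 0 - p k 0) * x.1 + (p i 1 - p k 1) * x.2)
    fun_prop
  have hint : ∀ i j k, (p i 0 - p j 0) * (p i 1 - p k 1) - (p i 1 - p j 1) * (p i 0 - p k 0) = D →
      ∫⁻ x, T i j k x = ENNReal.ofReal (|D⁻¹| * (σ / (l j * l k))) := by
    intro i j k hijk
    simp only [T, M]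
    rw [lintegral_comp_planeMap (by rw [hijk]; exact hA) (measurable_quadrantGauss _ _ _), hijk,
      lintegral_quadrantGauss hσ (hl j) (hl k), ← ENNReal.ofReal_mul (abs_nonneg _)]
  have hd : ∀ (a : Fin 2 → ℝ) (x : ℝ × ℝ), dotv a ![x.1, x.2] = a 0 * x.1 + a 1 * x.2 := by
    intro a x; simp [dotv, Fin.sum_univ_two]
  have hl1' : l 0 + l 1 + l 2 = 1 := by simpa [Fin.sum_univ_three] using hl1
  refine le_trans (lintegral_mono (g := fun x => T 0 1 2 x + T 1 2 0 x + T 2 0 1 x) ?_) ?_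
  · intro x
    have key : ∀ i j k, l i + l j + l k = 1 →
        l 0 * dotv (p 0) ![x.1, x.2] + l 1 * dotv (p 1) ![x.1, x.2]
            + l 2 * dotv (p 2) ![x.1, x.2] = l i * dotv (p i) ![x.1, x.2]
          + l j * dotv (p j) ![x.1, x.2] + l k * dotv (p k) ![x.1, x.2] →
        max (max (dotv (p 0) ![x.1, x.2]) (dotv (p 1) ![x.1, x.2]))
            (dotv (p 2) ![x.1, x.2]) = dotv (p i) ![x.1, x.2] →
        dotv (p j) ![x.1, x.2] ≤ dotv (p i) ![x.1, x.2] →
        dotv (p k) ![x.1, x.2] ≤ dotv (p i) ![x.1, x.2] →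
        ENNReal.ofReal (Real.exp (-(σ⁻¹ * triGauge p l ![x.1, x.2] ^ 2) / 2))
          ≤ T i j k x := by
      intro i j k hs he hmax hj hk
      rw [triGauge, dotv_combo, hmax, he]
      simp only [T, M, quadrantGauss, planeMap, LinearMap.coe_mk, AddHom.coe_mk]
      rw [Set.indicator_of_mem]
      · refine le_of_eq (congrArg ENNReal.ofReal ?_)
        simp only [hd]
        congr 5
        linear_combination (-(p i 0 * x.1 + p i 1 * x.2)) * hs
      · simp only [hd] at hj hk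
        refine Set.mem_prod.mpr ⟨Set.mem_Ici.mpr ?_, Set.mem_Ici.mpr ?_⟩
        · show 0 ≤ (p i 0 - p j 0) * x.1 + (p i 1 - p j 1) * x.2
          linarith
        · show 0 ≤ (p i 0 - p k 0) * x.1 + (p i 1 - p k 1) * x.2
          linarith
    rcases le_total (dotv (p 1) ![x.1, x.2]) (dotv (p 0) ![x.1, x.2]) with h10 | h10
    · rcases le_total (dotv (p 2) ![x.1, x.2]) (dotv (p 0) ![x.1, x.2]) with h20 | h20
      · exact (key 0 1 2 (by linarith) rfl (by rw [max_eq_left h10, max_eq_left h20])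
          h10 h20).trans (le_add_right (le_add_right le_rfl))
      · exact (key 2 0 1 (by linarith) (by linarith) (by rw [max_eq_left h10, max_eq_right h20])
          h20 (h10.trans h20)).trans (le_add_left le_rfl)
    · rcases le_total (dotv (p 2) ![x.1, x.2]) (dotv (p 1) ![x.1, x.2]) with h21 | h21
      · exact (key 1 2 0 (by linarith) (by linarith) (by rw [max_eq_right h10, max_eq_left h21])
          h21 h10).trans (le_add_right (le_add_left le_rfl))
      · exact (key 2 0 1 (by linarith) (by linarith) (by rw [max_eq_right h10, max_eq_right h21])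
          (h10.trans h21) h21).trans (le_add_left le_rfl)
  · rw [lintegral_add_right _ (hT 2 0 1), lintegral_add_right _ (hT 1 2 0),
      hint 0 1 2 (by rw [hD]; ring), hint 1 2 0 (by rw [hD]; ring), hint 2 0 1 (by rw [hD]; ring)]
    have h0 := hl 0
    have h1 := hl 1
    have h2 := hl 2
    rw [← ENNReal.ofReal_add (by positivity) (by positivity),
      ← ENNReal.ofReal_add (by positivity) (by positivity)]
    refine le_of_eq (congrArg ENNReal.ofReal ?_)
    rw [abs_inv]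
    have : |D| ≠ 0 := abs_ne_zero.mpr hA
    field_simp
    linear_combination hl1'

/-- The tangent inequality, on one ray. -/
lemma one_div_add_le {a b α : ℝ} (ha : 0 < a) (hb : 0 < b) :
    1 / (a + b) ≤ α ^ 2 * (1 / a) + (1 - α) ^ 2 * (1 / b) := by
  rw [← sub_nonneg]
  have h : α ^ 2 * (1 / a) + (1 - α) ^ 2 * (1 / b) - 1 / (a + b)
      = (α * (a + b) - a) ^ 2 / (a * b * (a + b)) := by
    field_simp
    ring
  rw [h]
  positivity

/-- The saturated Gaussian integral of the gauge. -/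
lemma lintegral_exp_triGauge_gauss_le (p : Fin 3 → Fin 2 → ℝ) (l : Fin 3 → ℝ) {σ : ℝ}
    (hσ : 0 < σ) (hl : ∀ i, 0 < l i) (hl1 : ∑ i, l i = 1)
    (hA : (p 1 0 - p 0 0) * (p 2 1 - p 0 1) - (p 1 1 - p 0 1) * (p 2 0 - p 0 0) ≠ 0) :
    ∫⁻ y, ENNReal.ofReal (Real.exp (-(σ⁻¹ * triGauge p l y ^ 2) / 2)) ∂(gs 2)
      ≤ ENNReal.ofReal (σ / (σ + 2 * Real.pi *
          |(p 1 0 - p 0 0) * (p 2 1 - p 0 1) - (p 1 1 - p 0 1) * (p 2 0 - p 0 0)| *
          (l 0 * l 1 * l 2))) := by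
  have hmS := measurable_triGauge p l
  have hmS2 := measurable_triGauge_pair p l
  obtain ⟨W, hW⟩ : ∃ W, W = |(p 1 0 - p 0 0) * (p 2 1 - p 0 1)
      - (p 1 1 - p 0 1) * (p 2 0 - p 0 0)| * (l 0 * l 1 * l 2) := ⟨_, rfl⟩
  have hW0 : 0 < W := hW ▸ mul_pos (abs_pos.2 hA) (mul_pos (mul_pos (hl 0) (hl 1)) (hl 2))
  obtain ⟨α, hα⟩ : ∃ α, α = 2 * Real.pi * W / (σ + 2 * Real.pi * W) := ⟨_, rfl⟩
  have hpi := Real.pi_pos
  rw [lintegral_gs_two_eq (by fun_prop),
    lintegral_plane_cone (by fun_prop)]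
  have hx : ∀ x : ℝ, ∫⁻ t, ENNReal.ofReal |t| *
      (ENNReal.ofReal (Real.exp (-(t ^ 2 + (t * x) ^ 2) / 2)) *
        ENNReal.ofReal (Real.exp (-(σ⁻¹ * triGauge p l ![t, t * x] ^ 2) / 2)))
      ≤ ENNReal.ofReal (α ^ 2) * (∫⁻ t, ENNReal.ofReal |t| *
          ENNReal.ofReal (Real.exp (-(σ⁻¹ * triGauge p l ![t, t * x] ^ 2) / 2)))
        + ENNReal.ofReal ((1 - α) ^ 2) * (∫⁻ t, ENNReal.ofReal |t| *
          ENNReal.ofReal (Real.exp (-(t ^ 2 + (t * x) ^ 2) / 2))) := by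
    intro x
    obtain ⟨a, ha⟩ : ∃ a, a = σ⁻¹ * triGauge p l ![1, x] ^ 2 := ⟨_, rfl⟩
    obtain ⟨a', ha'⟩ : ∃ a, a = σ⁻¹ * triGauge p l ![-1, -x] ^ 2 := ⟨_, rfl⟩
    have ha0 : 0 < a := ha ▸ mul_pos (inv_pos.2 hσ)
      (pow_pos (triGauge_pos p l hl hl1 hA (Or.inl one_ne_zero)) 2)
    have ha0' : 0 < a' := ha' ▸ mul_pos (inv_pos.2 hσ)
      (pow_pos (triGauge_pos p l hl hl1 hA (Or.inl (by norm_num))) 2)
    have hr : 0 < 1 + x ^ 2 := by positivity
    have e1 : ∀ t : ℝ, σ⁻¹ * triGauge p l ![t, t * x] ^ 2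
        = (if 0 ≤ t then a else a') * t ^ 2 := by
      intro t
      rw [triGauge_smul, mul_pow, sq_abs]
      split_ifs <;> simp only [ha, ha'] <;> ring
    have e2 : ∀ t : ℝ, t ^ 2 + (t * x) ^ 2
        = (if 0 ≤ t then 1 + x ^ 2 else 1 + x ^ 2) * t ^ 2 := by
      intro t; rw [ite_self]; ring
    have e3 : ∀ t : ℝ, ENNReal.ofReal (Real.exp (-(t ^ 2 + (t * x) ^ 2) / 2)) *
        ENNReal.ofReal (Real.exp (-(σ⁻¹ * triGauge p l ![t, t * x] ^ 2) / 2))
        = ENNReal.ofReal (Real.exp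
            (-((if 0 ≤ t then a + (1 + x ^ 2) else a' + (1 + x ^ 2)) * t ^ 2) / 2)) := by
      intro t
      rw [← ENNReal.ofReal_mul (Real.exp_pos _).le, ← Real.exp_add, e1]
      split_ifs <;> ring_nf
    simp only [e3]
    simp only [e1, e2]
    rw [lintegral_abs_mul_exp (by linarith) (by linarith), lintegral_abs_mul_exp ha0 ha0',
      lintegral_abs_mul_exp hr hr, ← ENNReal.ofReal_mul (sq_nonneg _),
      ← ENNReal.ofReal_mul (sq_nonneg _), ← ENNReal.ofReal_add (by positivity) (by positivity)]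
    refine ENNReal.ofReal_le_ofReal ?_
    have h1 := one_div_add_le (α := α) ha0 hr
    have h2 := one_div_add_le (α := α) ha0' hr
    linarith
  refine (mul_le_mul' le_rfl (lintegral_mono hx)).trans ?_
  rw [lintegral_add_left (Measurable.const_mul (Measurable.lintegral_prod_right' (f := fun q : ℝ × ℝ
      => ENNReal.ofReal |q.2| * ENNReal.ofReal
        (Real.exp (-(σ⁻¹ * triGauge p l ![q.2, q.2 * q.1] ^ 2) / 2)))
      (Measurable.mul (by fun_prop) (Measurable.ennreal_ofReal ?_))) _),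
    lintegral_const_mul' _ _ ENNReal.ofReal_ne_top, lintegral_const_mul' _ _ ENNReal.ofReal_ne_top,
    ← lintegral_plane_cone (f := fun z : ℝ × ℝ => ENNReal.ofReal
      (Real.exp (-(σ⁻¹ * triGauge p l ![z.1, z.2] ^ 2) / 2))) (by fun_prop),
    ← lintegral_plane_cone (f := fun z : ℝ × ℝ => ENNReal.ofReal
      (Real.exp (-(z.1 ^ 2 + z.2 ^ 2) / 2))) (by fun_prop), lintegral_plane_gauss]
  · refine (mul_le_mul' le_rfl (add_le_add (mul_le_mul' le_rfl
      (lintegral_exp_triGauge_le p l hσ hl hl1 hA)) le_rfl)).trans (le_of_eq ?_)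
    rw [← hW, ← ENNReal.ofReal_mul (sq_nonneg _), ← ENNReal.ofReal_mul (sq_nonneg _),
      ← ENNReal.ofReal_add (by positivity) (by positivity), ← ENNReal.ofReal_mul (sq_nonneg _)]
    congr 1
    rw [mul_assoc (2 * Real.pi), ← hW, phi0, inv_pow, Real.sq_sqrt (by positivity), hα]
    have : σ + 2 * Real.pi * W ≠ 0 := by positivity
    field_simp
    ring
  · have := hmS2.comp (by fun_prop : Measurable fun q : ℝ × ℝ => (q.2, q.2 * q.1))
    simp only [Function.comp_def] at this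
    fun_prop

/-- The saturated triangle tail bound. -/
theorem triangle_tail_phi2 (p : Fin 3 → Fin 2 → ℝ) (l : Fin 3 → ℝ) (h : ℝ)
    (hl : ∀ i, 0 < l i) (hl1 : ∑ i, l i = 1)
    (hA : (p 1 0 - p 0 0) * (p 2 1 - p 0 1) - (p 1 1 - p 0 1) * (p 2 0 - p 0 0) ≠ 0) :
    ∫ z : ℝ × (Fin 2 → ℝ),
        max (dotv (∑ i, l i • p i) z.2 + h * z.1 -
          max (max (dotv (p 0) z.2) (dotv (p 1) z.2)) (dotv (p 2) z.2)) 0
        ∂((gaussianReal 0 1).prod (gs 2)) ≤
      phi0 * phi2 |h| (Real.sqrt (2 * Real.pi *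
        |(p 1 0 - p 0 0) * (p 2 1 - p 0 1) - (p 1 1 - p 0 1) * (p 2 0 - p 0 0)| *
        (l 0 * l 1 * l 2))) := by
  have : IsProbabilityMeasure (gs 2) := by rw [gs]; infer_instance
  obtain ⟨τ, hτ⟩ : ∃ τ, τ = Real.sqrt (2 * Real.pi *
      |(p 1 0 - p 0 0) * (p 2 1 - p 0 1) - (p 1 1 - p 0 1) * (p 2 0 - p 0 0)| *
      (l 0 * l 1 * l 2)) := ⟨_, rfl⟩
  rw [← hτ]
  have hτ0 : 0 ≤ τ := hτ ▸ Real.sqrt_nonneg _
  have hphi : 0 ≤ phi0 := by rw [phi0]; positivity
  have hmS := measurable_triGauge p l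
  have hpt : ∀ z : ℝ × (Fin 2 → ℝ), dotv (∑ i, l i • p i) z.2 + h * z.1 -
      max (max (dotv (p 0) z.2) (dotv (p 1) z.2)) (dotv (p 2) z.2)
      = h * z.1 - triGauge p l z.2 := fun z => by rw [triGauge]; ring
  simp only [hpt]
  rw [integral_eq_lintegral_of_nonneg_ae
    (f := fun z : ℝ × (Fin 2 → ℝ) => max (h * z.1 - triGauge p l z.2) 0)
    (ae_of_all _ fun z => le_max_right _ _) (Measurable.aestronglyMeasurable (by fun_prop))]
  refine ENNReal.toReal_le_of_le_ofReal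
    (mul_nonneg hphi (phi2_nonneg (abs_nonneg h) hτ0)) ?_
  rw [lintegral_prod _ (Measurable.aemeasurable (by fun_prop))]
  simp only [ENNReal.ofReal_max, ENNReal.ofReal_zero, max_eq_left, zero_le]
  have habs : ∫⁻ u, ∫⁻ y, ENNReal.ofReal (h * u - triGauge p l y) ∂(gs 2) ∂(gaussianReal 0 1)
      = ∫⁻ u, ∫⁻ y, ENNReal.ofReal (|h| * u - triGauge p l y) ∂(gs 2) ∂(gaussianReal 0 1) := by
    rcases le_total 0 h with hh | hh
    · rw [abs_of_nonneg hh]
    · have hneg : (gaussianReal 0 1).map (fun z => -z) = gaussianReal 0 1 := by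
        rw [gaussianReal_map_neg, neg_zero]
      conv_lhs => rw [← hneg]
      rw [lintegral_map (Measurable.lintegral_prod_right' (f := fun q : ℝ × (Fin 2 → ℝ) =>
          ENNReal.ofReal (h * q.1 - triGauge p l q.2)) (by fun_prop)) (by fun_prop),
        abs_of_nonpos hh]
      simp only [mul_neg, neg_mul]
  rw [habs]
  refine le_of_eq_of_le (lintegral_slopes (m := 2) (abs_nonneg h)
    (r := fun _ y => triGauge p l y) (by fun_prop)
    (fun _ y => triGauge_nonneg p l hl hl1 y)) ?_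
  have hin : ∀ s ∈ Set.Ioo 0 |h|, ∫⁻ y, ∫⁻ u,
        {u | triGauge p l y < s * u}.indicator (fun u => ENNReal.ofReal u) u ∂gauss ∂(gs 2)
      ≤ ENNReal.ofReal phi0 * ENNReal.ofReal ((s / Real.sqrt (s ^ 2 + τ ^ 2)) ^ 2) := by
    intro s hs
    have hs0 : 0 < s := hs.1
    have h1 : ∀ y : Fin 2 → ℝ,
        ∫⁻ u, {u | triGauge p l y < s * u}.indicator (fun u => ENNReal.ofReal u) u ∂gauss
          = ENNReal.ofReal phi0 *
            ENNReal.ofReal (Real.exp (-((s ^ 2)⁻¹ * triGauge p l y ^ 2) / 2)) := by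
      intro y
      rw [lintegral_indicator_threshold (c := triGauge p l y / s)
        (div_nonneg (triGauge_nonneg p l hl hl1 y) hs0.le)
        (fun u _ => by simp [div_lt_iff₀' hs0]), ← ENNReal.ofReal_mul hphi]
      congr 1
      rw [phi0, div_eq_inv_mul _ (Real.sqrt (2 * Real.pi)), div_pow, div_eq_inv_mul _ (s ^ 2)]
    simp only [h1]
    rw [lintegral_const_mul' _ _ ENNReal.ofReal_ne_top]
    refine mul_le_mul' le_rfl
      ((lintegral_exp_triGauge_gauss_le p l (pow_pos hs0 2) hl hl1 hA).trans (le_of_eq ?_))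
    congr 1
    have hnn : 0 ≤ 2 * Real.pi *
        |(p 1 0 - p 0 0) * (p 2 1 - p 0 1) - (p 1 1 - p 0 1) * (p 2 0 - p 0 0)| *
        (l 0 * l 1 * l 2) :=
      mul_nonneg (by positivity) (mul_pos (mul_pos (hl 0) (hl 1)) (hl 2)).le
    rw [div_pow, Real.sq_sqrt (by positivity), hτ, Real.sq_sqrt hnn]
  refine (setLIntegral_mono' measurableSet_Ioo hin).trans (le_of_eq ?_)
  rw [lintegral_const_mul' _ _ ENNReal.ofReal_ne_top, calc_phi2 (abs_nonneg h) hτ0,
    ← ENNReal.ofReal_mul hphi]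

end TriangleGauge

section TriangleExcessPhi2

variable {E : Type*} [NormedAddCommGroup E] [InnerProductSpace ℝ E] [FiniteDimensional ℝ E]
  [MeasurableSpace E] [BorelSpace E]

/-- The triangle excess bound. `G` is the Gram determinant of the two differences, so that the
area of the triangle is `√G / 2`. -/
theorem excess_maxForm_three_le_phi2 (w : Fin 3 → E) (u : E) (l : Fin 3 → ℝ)
    (hl : ∀ i, 0 < l i) (hl1 : ∑ i, l i = 1)
    (hperp : ∀ i, ⟪u - ∑ j, l j • w j, w i - w 0⟫ = 0)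
    (hG : 0 < ‖w 1 - w 0‖ ^ 2 * ‖w 2 - w 0‖ ^ 2 - ⟪w 1 - w 0, w 2 - w 0⟫ ^ 2) :
    excess u (maxForm w) ≤ phi2 ‖u - ∑ j, l j • w j‖
      (Real.sqrt (2 * Real.pi * Real.sqrt (‖w 1 - w 0‖ ^ 2 * ‖w 2 - w 0‖ ^ 2
        - ⟪w 1 - w 0, w 2 - w 0⟫ ^ 2) * (l 0 * l 1 * l 2))) := by
  obtain ⟨r, hr⟩ : ∃ r, r = u - ∑ j, l j • w j := ⟨_, rfl⟩
  rw [← hr] at hperp ⊢
  have hu' : ∀ g, ⟪u, g⟫ = ⟪r, g⟫ + ∑ j, l j * ⟪w j, g⟫ := by
    intro g
    rw [hr, inner_sub_left, sum_inner]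
    simp only [real_inner_smul_left, sub_add_cancel]
  have hcomb : ∀ g, ∑ j, l j * ⟪w j, g⟫ ≤ maxForm w g := by
    intro g
    calc ∑ j, l j * ⟪w j, g⟫ ≤ ∑ j, l j * maxForm w g :=
          Finset.sum_le_sum fun j _ =>
            mul_le_mul_of_nonneg_left (inner_le_maxForm w j g) (hl j).le
      _ = maxForm w g := by rw [← Finset.sum_mul, hl1, one_mul]
  rcases eq_or_ne r 0 with h0 | h0
  · rw [h0, norm_zero, phi2_zero_left]
    refine le_of_eq (excess_eq_zero_of_le u _ fun g => ?_)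
    rw [hu', h0, inner_zero_left, zero_add]
    exact hcomb g
  · obtain ⟨d, hd⟩ : ∃ d : Fin 3 → E, ∀ i, d i = w i - w 0 := ⟨_, fun _ => rfl⟩
    simp only [← hd] at hperp hG ⊢
    obtain ⟨n₁, hn₁⟩ : ∃ n, n = ‖d 1‖ := ⟨_, rfl⟩
    have hn₁0 : n₁ ≠ 0 := by
      rintro rfl
      rw [← hn₁] at hG
      nlinarith [sq_nonneg ⟪d 1, d 2⟫]
    obtain ⟨e₀, he₀⟩ : ∃ e₀, e₀ = n₁⁻¹ • d 1 := ⟨_, rfl⟩
    obtain ⟨f, hf⟩ : ∃ f, f = d 2 - ⟪e₀, d 2⟫ • e₀ := ⟨_, rfl⟩
    have hne₀ : ‖e₀‖ = 1 := by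
      rw [he₀, norm_smul, norm_inv, Real.norm_eq_abs, hn₁, abs_norm,
        inv_mul_cancel₀ (hn₁ ▸ hn₁0)]
    have he00 : ⟪e₀, e₀⟫ = 1 := by rw [real_inner_self_eq_norm_sq, hne₀, one_pow]
    have hd1 : d 1 = n₁ • e₀ := by rw [he₀, smul_inv_smul₀ hn₁0]
    have hef : ⟪e₀, f⟫ = 0 := by
      rw [hf, inner_sub_right, real_inner_smul_right, he00, mul_one, sub_self]
    have hG2 : ‖d 1‖ ^ 2 * ‖d 2‖ ^ 2 - ⟪d 1, d 2⟫ ^ 2 = n₁ ^ 2 * ‖f‖ ^ 2 := by
      have h1 : ⟪d 1, d 2⟫ = n₁ * ⟪e₀, d 2⟫ := by rw [hd1, real_inner_smul_left]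
      rw [h1, ← hn₁, hf, norm_sub_sq_real, real_inner_smul_right, norm_smul, hne₀,
        real_inner_comm (d 2) e₀, mul_one, Real.norm_eq_abs, sq_abs]
      ring
    have hf0 : ‖f‖ ≠ 0 := by
      intro h
      rw [hG2, h] at hG
      simp at hG
    obtain ⟨e₁, he₁⟩ : ∃ e₁, e₁ = ‖f‖⁻¹ • f := ⟨_, rfl⟩
    have hne₁ : ‖e₁‖ = 1 := by
      rw [he₁, norm_smul, norm_inv, norm_norm, inv_mul_cancel₀ hf0]
    have he01 : ⟪e₀, e₁⟫ = 0 := by rw [he₁, real_inner_smul_right, hef, mul_zero]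
    have hd2 : d 2 = ⟪e₀, d 2⟫ • e₀ + ‖f‖ • e₁ := by
      rw [he₁, smul_inv_smul₀ hf0, hf]; abel
    have he : Orthonormal ℝ ![e₀, e₁] := by
      rw [orthonormal_iff_ite]
      intro i j
      fin_cases i <;> fin_cases j <;>
        simp [he01, real_inner_comm e₀ e₁, hne₀, hne₁]
    have hr1 : ⟪r, e₀⟫ = 0 := by
      rw [he₀, real_inner_smul_right, hperp 1, mul_zero]
    have hr2 : ⟪r, e₁⟫ = 0 := by
      rw [he₁, real_inner_smul_right, hf, inner_sub_right, real_inner_smul_right, hperp 2, hr1]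
      ring
    obtain ⟨v, hv⟩ : ∃ v, v = ‖r‖⁻¹ • r := ⟨_, rfl⟩
    have hnr : ‖r‖ ≠ 0 := norm_ne_zero_iff.mpr h0
    have hnv : ‖v‖ = 1 := by rw [hv, norm_smul, norm_inv, norm_norm, inv_mul_cancel₀ hnr]
    have hve : ∀ i, ⟪v, ![e₀, e₁] i⟫ = 0 := by
      intro i
      fin_cases i <;> simp [hv, real_inner_smul_left, hr1, hr2]
    obtain ⟨p, hp⟩ : ∃ p : Fin 3 → Fin 2 → ℝ,
        p = ![![0, 0], ![n₁, 0], ![⟪e₀, d 2⟫, ‖f‖]] := ⟨_, rfl⟩
    obtain ⟨F, hF⟩ : ∃ F : ℝ × (Fin 2 → ℝ) → ℝ, F = fun z =>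
        max (dotv (∑ i, l i • p i) z.2 + ‖r‖ * z.1 -
          max (max (dotv (p 0) z.2) (dotv (p 1) z.2)) (dotv (p 2) z.2)) 0 := ⟨_, rfl⟩
    have hFm : Measurable F := by rw [hF]; simp only [dotv]; fun_prop
    have hmax3 : ∀ g, maxForm w g = max (max ⟪w 0, g⟫ ⟪w 1, g⟫) ⟪w 2, g⟫ := by
      intro g
      refine le_antisymm ((maxForm_le_iff w g _).mpr fun i => ?_)
        (max_le (max_le (inner_le_maxForm w 0 g) (inner_le_maxForm w 1 g))
          (inner_le_maxForm w 2 g))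
      fin_cases i <;> simp
    have hpt : ∀ g, max (⟪u, g⟫ - maxForm w g) 0 = F (coordMap v ![e₀, e₁] g) := by
      intro g
      have hc : ∀ i, ⟪w i, g⟫ = ⟪w 0, g⟫ + dotv (p i) (fun k => ⟪![e₀, e₁] k, g⟫) := by
        intro i
        have hw : ⟪w i, g⟫ = ⟪w 0, g⟫ + ⟪d i, g⟫ := by rw [hd, inner_sub_left]; ring
        rw [hw]
        fin_cases i
        · simp [hd, hp, dotv, Fin.sum_univ_two]
        · simp [hp, dotv, Fin.sum_univ_two, hd1, real_inner_smul_left]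
        · show ⟪w 0, g⟫ + ⟪d 2, g⟫ = _
          conv_lhs => rw [hd2]
          simp [hp, dotv, Fin.sum_univ_two, inner_add_left, real_inner_smul_left]
      have hrv : ⟪r, g⟫ = ‖r‖ * ⟪v, g⟫ := by
        rw [hv, real_inner_smul_left, mul_inv_cancel_left₀ hnr]
      have hl1' : l 0 + l 1 + l 2 = 1 := by simpa [Fin.sum_univ_three] using hl1
      rw [hu', hmax3, hrv, hc 1, hc 2, Fin.sum_univ_three, hc 1, hc 2, hF]
      simp only [coordMap_apply]
      have h00 : dotv (p 0) (fun k => ⟪![e₀, e₁] k, g⟫) = 0 := by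
        simp [hp, dotv, Fin.sum_univ_two]
      have hs : dotv (∑ i, l i • p i) (fun k => ⟪![e₀, e₁] k, g⟫)
          = l 0 * dotv (p 0) (fun k => ⟪![e₀, e₁] k, g⟫)
            + l 1 * dotv (p 1) (fun k => ⟪![e₀, e₁] k, g⟫)
            + l 2 * dotv (p 2) (fun k => ⟪![e₀, e₁] k, g⟫) := by
        simp only [dotv, Fin.sum_univ_two, Fin.sum_univ_three, Pi.add_apply, Pi.smul_apply,
          smul_eq_mul]
        ring
      rw [hs, h00]
      generalize dotv (p 1) (fun k => ⟪![e₀, e₁] k, g⟫) = X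
      generalize dotv (p 2) (fun k => ⟪![e₀, e₁] k, g⟫) = Y
      generalize ⟪w 0, g⟫ = Z
      have hl0 : l 0 = 1 - l 1 - l 2 := by linarith
      have hm : max (max Z (Z + X)) (Z + Y) = Z + max (max 0 X) Y := by
        rw [← max_add_add_left, ← max_add_add_left, add_zero]
      rw [hm, hl0]
      congr 1
      ring
    have key := triangle_tail_phi2 p l ‖r‖ hl hl1 (by
      simp only [hp]
      simpa using mul_ne_zero hn₁0 hf0)
    have hint : ∫ g, max (⟪u, g⟫ - maxForm w g) 0 ∂(stdGaussian E)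
        = ∫ z, F z ∂((gaussianReal 0 1).prod (gs 2)) := by
      rw [← map_coordMap_triple hnv he hve,
        integral_map (coordMap v ![e₀, e₁]).continuous.measurable.aemeasurable
          hFm.aestronglyMeasurable]
      simp only [hpt]
    rw [excess, hint, hF]
    refine (mul_le_mul_of_nonneg_left key (Real.sqrt_nonneg _)).trans (le_of_eq ?_)
    have hn₁' : (0 : ℝ) ≤ n₁ := hn₁ ▸ norm_nonneg _
    have hsq : Real.sqrt (‖d 1‖ ^ 2 * ‖d 2‖ ^ 2 - ⟪d 1, d 2⟫ ^ 2) = n₁ * ‖f‖ := by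
      rw [hG2, ← mul_pow, Real.sqrt_sq (mul_nonneg hn₁' (norm_nonneg _))]
    have hD : |(p 1 0 - p 0 0) * (p 2 1 - p 0 1) - (p 1 1 - p 0 1) * (p 2 0 - p 0 0)|
        = n₁ * ‖f‖ := by
      simp [hp, abs_mul, abs_of_nonneg hn₁']
    rw [hsq, hD, abs_norm, phi0, mul_inv_cancel_left₀ (sqrt_two_pi_pos).ne']

end TriangleExcessPhi2

end Vale.Agent.P226
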