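import Vale.Agent.P226.ObtuseFacts
import Vale.Agent.P226.Reduction
import Vale.Agent.P226.TriangleJensen

/-!
# The triangle branch of the width bound for obtuse families

For a centred, pairwise obtuse family and three of its vectors spanning a triangle whose Gram
determinant is at least `G₀`, the width is at most half the perimeter of the triangle plus
saturated excesses of the foot of the origin and of the other vectors (`width_le_T3`). The
barycentric weights entering the saturated excesses are controlled by the inner products with the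
three vertices, which are nonpositive.
-/

namespace Vale.Agent.P226

open MeasureTheory ProbabilityTheory
open scoped RealInnerProductSpace

section Scalar

/-- `phi2` increases in the level and decreases in the threshold. -/
lemma phi2_mono {v v' t t' : ℝ} (hv : 0 ≤ v) (hvv : v ≤ v') (ht' : 0 ≤ t') (htt : t' ≤ t) :
    phi2 v t ≤ phi2 v' t' := by
  rw [← ENNReal.ofReal_le_ofReal_iff (phi2_nonneg (hv.trans hvv) ht'),
    ← calc_phi2 hv (ht'.trans htt), ← calc_phi2 (hv.trans hvv) ht']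
  refine (setLIntegral_mono' measurableSet_Ioo fun s hs => ENNReal.ofReal_le_ofReal ?_).trans
    (lintegral_mono_set (Set.Ioo_subset_Ioo_right hvv))
  refine pow_le_pow_left₀ (div_nonneg hs.1.le (Real.sqrt_nonneg _)) ?_ 2
  refine div_le_div_of_nonneg_left hs.1.le
    (Real.sqrt_pos.2 (add_pos_of_pos_of_nonneg (pow_pos hs.1 2) (sq_nonneg t'))) ?_
  exact Real.sqrt_le_sqrt (by have := pow_le_pow_left₀ ht' htt 2; linarith)

/-- The threshold of the saturated triangle bound for weights within `D` of `1 / 3`. -/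
noncomputable def triH (G₀ D : ℝ) : ℝ :=
  Real.sqrt (2 * Real.pi * Real.sqrt G₀ * ((1 - 9 * D ^ 2) / 27))

lemma triH_nonneg (G₀ D : ℝ) : 0 ≤ triH G₀ D := Real.sqrt_nonneg _

lemma sq_prod_bound_aux {x y D : ℝ} (hD : 3 * D ≤ 1) (hxy : 0 ≤ x * y) (h1 : -D ≤ x + y)
    (h2 : x + y ≤ D) : x ^ 2 + x * y + y ^ 2 + 3 * (x * y) * (x + y) ≤ D ^ 2 := by
  nlinarith [mul_nonneg (sub_nonneg.2 h2) (neg_le_iff_add_nonneg'.1 h1),
    mul_nonneg hxy (by linarith : (0 : ℝ) ≤ 1 - 3 * (x + y))]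

/-- Three weights of sum one within `D` of `1 / 3` have product at least `(1 - 9 D²) / 27`. -/
lemma prod_three_ge {a b c D : ℝ} (hs : a + b + c = 1) (hD : 3 * D ≤ 1)
    (ha : |a - 1 / 3| ≤ D) (hb : |b - 1 / 3| ≤ D) (hc : |c - 1 / 3| ≤ D) :
    (1 - 9 * D ^ 2) / 27 ≤ a * b * c := by
  rw [abs_le] at ha hb hc
  obtain ⟨x, hx⟩ : ∃ x, x = a - 1 / 3 := ⟨_, rfl⟩
  obtain ⟨y, hy⟩ : ∃ y, y = b - 1 / 3 := ⟨_, rfl⟩
  obtain ⟨z, hz⟩ : ∃ z, z = c - 1 / 3 := ⟨_, rfl⟩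
  have hxyz : x + y + z = 0 := by linarith
  have hsign : 0 ≤ x * y ∨ 0 ≤ y * z ∨ 0 ≤ z * x := by
    rcases le_total 0 x with p | p <;> rcases le_total 0 y with q | q <;>
      rcases le_total 0 z with r | r
    all_goals
      first
        | exact Or.inl (mul_nonneg p q)
        | exact Or.inl (mul_nonneg_of_nonpos_of_nonpos p q)
        | exact Or.inr (Or.inl (mul_nonneg q r))
        | exact Or.inr (Or.inl (mul_nonneg_of_nonpos_of_nonpos q r))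
        | exact Or.inr (Or.inr (mul_nonneg r p))
        | exact Or.inr (Or.inr (mul_nonneg_of_nonpos_of_nonpos r p))
  have ea : a = x + 1 / 3 := by linarith
  have eb : b = y + 1 / 3 := by linarith
  have ec : c = z + 1 / 3 := by linarith
  subst ea eb ec
  rcases hsign with h | h | h
  · have h' := sq_prod_bound_aux hD h (by linarith) (by linarith)
    have e : z = -(x + y) := by linarith
    subst e
    linarith
  · have h' := sq_prod_bound_aux hD h (by linarith) (by linarith)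
    have e : x = -(y + z) := by linarith
    subst e
    linarith
  · have h' := sq_prod_bound_aux hD h (by linarith) (by linarith)
    have e : y = -(z + x) := by linarith
    subst e
    linarith

end Scalar

section Bary

variable {E : Type*} [NormedAddCommGroup E] [InnerProductSpace ℝ E]

/-- Gram determinant of the two differences of a triple. -/
noncomputable def triGram (a : Fin 3 → E) : ℝ :=
  ‖a 1 - a 0‖ ^ 2 * ‖a 2 - a 0‖ ^ 2 - ⟪a 1 - a 0, a 2 - a 0⟫ ^ 2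

/-- The linear barycentric coordinates of the projection of `u` on the span of the differences. -/
noncomputable def baryMap (a : Fin 3 → E) (u : E) : Fin 3 → ℝ :=
  ![-(((‖a 2 - a 0‖ ^ 2 - ⟪a 1 - a 0, a 2 - a 0⟫) * ⟪u, a 1 - a 0⟫
        + (‖a 1 - a 0‖ ^ 2 - ⟪a 1 - a 0, a 2 - a 0⟫) * ⟪u, a 2 - a 0⟫) / triGram a),
    (‖a 2 - a 0‖ ^ 2 * ⟪u, a 1 - a 0⟫ - ⟪a 1 - a 0, a 2 - a 0⟫ * ⟪u, a 2 - a 0⟫) / triGram a,
    (‖a 1 - a 0‖ ^ 2 * ⟪u, a 2 - a 0⟫ - ⟪a 1 - a 0, a 2 - a 0⟫ * ⟪u, a 1 - a 0⟫) / triGram a]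

lemma sum_baryMap (a : Fin 3 → E) (u : E) : ∑ n, baryMap a u n = 0 := by
  simp [baryMap, Fin.sum_univ_three]
  ring

lemma sum_baryMap_smul (a : Fin 3 → E) (u : E) :
    ∑ n, baryMap a u n • a n
      = baryMap a u 1 • (a 1 - a 0) + baryMap a u 2 • (a 2 - a 0) := by
  have h := sum_baryMap a u
  rw [Fin.sum_univ_three] at h ⊢
  rw [show baryMap a u 0 = -(baryMap a u 1 + baryMap a u 2) by linarith]
  module

lemma baryMap_perp (a : Fin 3 → E) (u : E) (hG : triGram a ≠ 0) (n : Fin 3) :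
    ⟪u - ∑ m, baryMap a u m • a m, a n - a 0⟫ = 0 := by
  rw [sum_baryMap_smul]
  obtain ⟨p, hp⟩ : ∃ p, p = a 1 - a 0 := ⟨_, rfl⟩
  obtain ⟨q, hq⟩ : ∃ q, q = a 2 - a 0 := ⟨_, rfl⟩
  have hg : triGram a = ‖p‖ ^ 2 * ‖q‖ ^ 2 - ⟪p, q⟫ ^ 2 := by rw [triGram, hp, hq]
  have hgne : ‖p‖ ^ 2 * ‖q‖ ^ 2 - ⟪p, q⟫ ^ 2 ≠ 0 := hg ▸ hG
  fin_cases n
  · simp
  · show ⟪u - (baryMap a u 1 • (a 1 - a 0) + baryMap a u 2 • (a 2 - a 0)), a 1 - a 0⟫ = 0
    rw [← hp, ← hq, inner_sub_left, inner_add_left, real_inner_smul_left, real_inner_smul_left,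
      real_inner_self_eq_norm_sq, real_inner_comm p q]
    simp only [baryMap, hg, ← hp, ← hq, Matrix.cons_val_one, Matrix.cons_val_zero, Matrix.cons_val]
    rw [div_mul_eq_mul_div, div_mul_eq_mul_div, ← add_div, sub_eq_zero, eq_div_iff hgne]
    ring
  · show ⟪u - (baryMap a u 1 • (a 1 - a 0) + baryMap a u 2 • (a 2 - a 0)), a 2 - a 0⟫ = 0
    rw [← hp, ← hq, inner_sub_left, inner_add_left, real_inner_smul_left, real_inner_smul_left,
      real_inner_self_eq_norm_sq]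
    simp only [baryMap, hg, ← hp, ← hq, Matrix.cons_val_one, Matrix.cons_val_zero, Matrix.cons_val]
    rw [div_mul_eq_mul_div, div_mul_eq_mul_div, ← add_div, sub_eq_zero, eq_div_iff hgne]
    ring

lemma abs_comb_three_le {C₀ C₁ C₂ q₀ q₁ q₂ M σ : ℝ} (h0 : |C₀| ≤ M) (h1 : |C₁| ≤ M)
    (h2 : |C₂| ≤ M) (hq0 : 0 ≤ q₀) (hq1 : 0 ≤ q₁) (hq2 : 0 ≤ q₂) (hs : q₀ + q₁ + q₂ ≤ σ) :
    |C₀ * q₀ + C₁ * q₁ + C₂ * q₂| ≤ M * σ := by
  have hM : 0 ≤ M := (abs_nonneg _).trans h0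
  calc |C₀ * q₀ + C₁ * q₁ + C₂ * q₂|
      ≤ |C₀ * q₀| + |C₁ * q₁| + |C₂ * q₂| :=
        (abs_add_le _ _).trans (add_le_add (abs_add_le _ _) le_rfl)
    _ ≤ M * q₀ + M * q₁ + M * q₂ := by
        rw [abs_mul, abs_mul, abs_mul, abs_of_nonneg hq0, abs_of_nonneg hq1, abs_of_nonneg hq2]
        gcongr
    _ ≤ M * σ := by
        rw [← mul_add, ← mul_add]
        exact mul_le_mul_of_nonneg_left hs hM

lemma abs_inner_le_of_sq {p q : E} {M : ℝ} (hp : ‖p‖ ^ 2 ≤ M) (hq : ‖q‖ ^ 2 ≤ M) :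
    |⟪p, q⟫| ≤ M := by
  have h := abs_real_inner_le_norm p q
  nlinarith [sq_nonneg (‖p‖ - ‖q‖)]

/-- A vector with nonpositive inner products with the vertices, of total at least `-σ`, has
barycentric coordinates at most `M σ / G`. -/
lemma abs_baryMap_le (a : Fin 3 → E) (u : E) {M σ : ℝ} (hG : 0 < triGram a)
    (h1 : ‖a 1 - a 0‖ ^ 2 ≤ M) (h2 : ‖a 2 - a 0‖ ^ 2 ≤ M) (h3 : ‖a 2 - a 1‖ ^ 2 ≤ M)
    (hneg : ∀ n, ⟪u, a n⟫ ≤ 0) (hσ : -σ ≤ ∑ n, ⟪u, a n⟫) (n : Fin 3) :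
    |baryMap a u n| ≤ M * σ / triGram a := by
  rw [Fin.sum_univ_three] at hσ
  obtain ⟨p, hp⟩ : ∃ p, p = a 1 - a 0 := ⟨_, rfl⟩
  obtain ⟨q, hq⟩ : ∃ q, q = a 2 - a 0 := ⟨_, rfl⟩
  have hqp : a 2 - a 1 = q - p := by rw [hp, hq]; abel
  have c1 : ⟪u, a 1 - a 0⟫ = -⟪u, a 0⟫ - -⟪u, a 1⟫ := by rw [inner_sub_right]; ring
  have c2 : ⟪u, a 2 - a 0⟫ = -⟪u, a 0⟫ - -⟪u, a 2⟫ := by rw [inner_sub_right]; ring
  have e1 : ‖q‖ ^ 2 - ⟪p, q⟫ = ⟪q, q - p⟫ := by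
    rw [inner_sub_right, real_inner_self_eq_norm_sq, real_inner_comm p q]
  have e2 : ‖p‖ ^ 2 - ⟪p, q⟫ = ⟪p, p - q⟫ := by
    rw [inner_sub_right, real_inner_self_eq_norm_sq]
  have e3 : ‖q‖ ^ 2 - ⟪p, q⟫ + (‖p‖ ^ 2 - ⟪p, q⟫) = ‖q - p‖ ^ 2 := by
    rw [norm_sub_sq_real, real_inner_comm p q]; ring
  rw [← hp] at h1
  rw [← hq] at h2
  rw [hqp] at h3
  have hpq : |⟪p, q⟫| ≤ M := abs_inner_le_of_sq h1 h2
  have hA1 : |‖q‖ ^ 2 - ⟪p, q⟫| ≤ M := e1 ▸ abs_inner_le_of_sq h2 h3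
  have hA2 : |‖p‖ ^ 2 - ⟪p, q⟫| ≤ M :=
    e2 ▸ abs_inner_le_of_sq h1 (by rwa [norm_sub_rev])
  have hq0 : ∀ n, 0 ≤ -⟪u, a n⟫ := fun n => neg_nonneg.2 (hneg n)
  have hsum : -⟪u, a 0⟫ + -⟪u, a 1⟫ + -⟪u, a 2⟫ ≤ σ := by linarith
  have hb : ∀ X : ℝ, |X| ≤ M * σ → |X / triGram a| ≤ M * σ / triGram a := fun X hX => by
    rw [abs_div, abs_of_pos hG]
    exact div_le_div_of_nonneg_right hX hG.le
  fin_cases n <;> simp only [baryMap, ← hp, ← hq, Matrix.cons_val_zero,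
    Matrix.cons_val_one, Matrix.cons_val, Fin.zero_eta, Fin.mk_one, Fin.reduceFinMk]
  · rw [abs_neg]
    refine hb _ ?_
    have := abs_comb_three_le (M := M) (C₀ := ‖q - p‖ ^ 2) (C₁ := -(‖q‖ ^ 2 - ⟪p, q⟫))
      (C₂ := -(‖p‖ ^ 2 - ⟪p, q⟫)) (by rwa [abs_of_nonneg (sq_nonneg _)]) (by rwa [abs_neg])
      (by rwa [abs_neg]) (hq0 0) (hq0 1) (hq0 2) hsum
    rw [← e3] at this
    convert this using 2
    rw [hp, hq, inner_sub_right u, inner_sub_right u]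
    ring
  · refine hb _ ?_
    have := abs_comb_three_le (C₀ := ‖q‖ ^ 2 - ⟪p, q⟫) (C₁ := -‖q‖ ^ 2)
      (C₂ := ⟪p, q⟫) hA1 (by rwa [abs_neg, abs_of_nonneg (sq_nonneg _)])
      hpq (hq0 0) (hq0 1) (hq0 2) hsum
    convert this using 2
    rw [hp, hq, inner_sub_right u, inner_sub_right u]
    ring
  · refine hb _ ?_
    have := abs_comb_three_le (C₀ := ‖p‖ ^ 2 - ⟪p, q⟫) (C₁ := ⟪p, q⟫)
      (C₂ := -‖p‖ ^ 2) hA2 hpq (by rwa [abs_neg, abs_of_nonneg (sq_nonneg _)])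
      (hq0 0) (hq0 1) (hq0 2) hsum
    convert this using 2
    rw [hp, hq, inner_sub_right u, inner_sub_right u]
    ring

variable [FiniteDimensional ℝ E] [MeasurableSpace E] [BorelSpace E]

/-- The saturated excess over a scaled triple, from bounds on the weights. -/
lemma excess_smul_maxForm_three_le (a : Fin 3 → E) (u : E) (b : Fin 3 → ℝ) {κ G₀ D v : ℝ}
    (hκ : 0 < κ) (hG₀ : 0 < G₀) (hG : G₀ ≤ triGram a) (hD : 3 * D < 1)
    (hb : ∀ n, |b n - 1 / 3| ≤ D) (hb1 : ∑ n, b n = 1)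
    (hperp : ∀ n, ⟪u - κ • ∑ m, b m • a m, a n - a 0⟫ = 0)
    (hv : ‖u - κ • ∑ m, b m • a m‖ ≤ v) :
    excess u (fun g => κ * maxForm a g) ≤ phi2 v (κ * triH G₀ D) := by
  have hfun : (fun g => κ * maxForm a g) = maxForm (fun n => κ • a n) := by
    funext g; rw [maxForm_smul a hκ.le]
  have hsum : ∑ m, b m • κ • a m = κ • ∑ m, b m • a m := by
    rw [Finset.smul_sum]
    simp only [smul_comm κ]
  have hnorm : ∀ x : E, ‖κ • x‖ ^ 2 = κ ^ 2 * ‖x‖ ^ 2 := fun x => by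
    rw [norm_smul, mul_pow, Real.norm_eq_abs, sq_abs]
  have hgram : ‖κ • a 1 - κ • a 0‖ ^ 2 * ‖κ • a 2 - κ • a 0‖ ^ 2
      - ⟪κ • a 1 - κ • a 0, κ • a 2 - κ • a 0⟫ ^ 2 = (κ ^ 2) ^ 2 * triGram a := by
    rw [← smul_sub, ← smul_sub, hnorm, hnorm, real_inner_smul_left, real_inner_smul_right,
      triGram]
    ring
  have hbpos : ∀ n, 0 < b n := fun n => by linarith [(abs_le.1 (hb n)).1]
  have key := excess_maxForm_three_le_phi2 (fun n => κ • a n) u b hbpos hb1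
    (fun n => by
      show ⟪u - ∑ m, b m • κ • a m, κ • a n - κ • a 0⟫ = 0
      rw [hsum, ← smul_sub, real_inner_smul_right, hperp n, mul_zero])
    (by
      show 0 < ‖κ • a 1 - κ • a 0‖ ^ 2 * ‖κ • a 2 - κ • a 0‖ ^ 2
        - ⟪κ • a 1 - κ • a 0, κ • a 2 - κ • a 0⟫ ^ 2
      rw [hgram]
      exact mul_pos (pow_pos (pow_pos hκ 2) 2) (hG₀.trans_le hG))
  rw [hsum, hgram] at key
  rw [hfun]
  refine key.trans (phi2_mono (norm_nonneg _) hv (mul_nonneg hκ.le (triH_nonneg _ _)) ?_)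
  have hD0 : 0 ≤ D := (abs_nonneg _).trans (hb 0)
  have hP : (1 - 9 * D ^ 2) / 27 ≤ b 0 * b 1 * b 2 :=
    prod_three_ge (by rwa [Fin.sum_univ_three] at hb1) hD.le (hb 0) (hb 1) (hb 2)
  have hD2 : 0 ≤ 1 - 9 * D ^ 2 := by nlinarith
  calc κ * triH G₀ D
      = Real.sqrt (κ ^ 2 * (2 * Real.pi * Real.sqrt G₀ * ((1 - 9 * D ^ 2) / 27))) := by
        rw [Real.sqrt_mul (sq_nonneg κ), Real.sqrt_sq hκ.le, triH]
    _ ≤ _ := by
        refine Real.sqrt_le_sqrt ?_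
        rw [Real.sqrt_mul (by positivity), Real.sqrt_sq (by positivity)]
        have h1 := mul_le_mul (Real.sqrt_le_sqrt hG) hP
          (div_nonneg hD2 (by norm_num)) (Real.sqrt_nonneg _)
        have h2 := mul_le_mul_of_nonneg_left h1 (by positivity : (0 : ℝ) ≤ 2 * Real.pi * κ ^ 2)
        linarith

end Bary

section Branch

variable {ι E : Type*} [Fintype ι] [DecidableEq ι] [NormedAddCommGroup E] [InnerProductSpace ℝ E]

omit [Fintype ι] in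
lemma sum_triple {F : Type*} [AddCommMonoid F] (f : ι → F) {i j k : ι} (hij : i ≠ j)
    (hjk : j ≠ k) (hki : k ≠ i) : ∑ n ∈ ({i, j, k} : Finset ι), f n = f i + f j + f k := by
  rw [Finset.sum_insert (by simp [hij, hki.symm]), Finset.sum_pair hjk, add_assoc]

/-- Half the perimeter against the squared norms. -/
theorem half_perimeter_le (z : ι → E) (hz : ∑ n, z n = 0) {i j k : ι} (hij : i ≠ j) (hjk : j ≠ k)
    (hki : k ≠ i) :
    (‖z i - z j‖ + ‖z j - z k‖ + ‖z k - z i‖) / 2 ≤ 3 / 2 *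
      Real.sqrt (‖z i‖ ^ 2 + ‖z j‖ ^ 2 + ‖z k‖ ^ 2
        - ‖∑ m ∈ ({i, j, k} : Finset ι)ᶜ, z m‖ ^ 2 / 3) := by
  have hR : ∑ m ∈ ({i, j, k} : Finset ι)ᶜ, z m = -(z i + z j + z k) := by
    rw [← sum_triple z hij hjk hki, sum_eq_neg_sum_compl z hz ({i, j, k} : Finset ι)ᶜ, compl_compl]
  have hsides : ‖z i - z j‖ ^ 2 + ‖z j - z k‖ ^ 2 + ‖z k - z i‖ ^ 2
      = 3 * (‖z i‖ ^ 2 + ‖z j‖ ^ 2 + ‖z k‖ ^ 2)
        - ‖∑ m ∈ ({i, j, k} : Finset ι)ᶜ, z m‖ ^ 2 := by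
    rw [hR, norm_neg, norm_add_sq_real (z i + z j), norm_add_sq_real, inner_add_left,
      norm_sub_sq_real, norm_sub_sq_real, norm_sub_sq_real, real_inner_comm (z i) (z k)]
    ring
  have key : ((‖z i - z j‖ + ‖z j - z k‖ + ‖z k - z i‖) / 3) ^ 2 ≤
      ‖z i‖ ^ 2 + ‖z j‖ ^ 2 + ‖z k‖ ^ 2 - ‖∑ m ∈ ({i, j, k} : Finset ι)ᶜ, z m‖ ^ 2 / 3 := by
    nlinarith [sq_nonneg (‖z i - z j‖ - ‖z j - z k‖), sq_nonneg (‖z j - z k‖ - ‖z k - z i‖),
      sq_nonneg (‖z k - z i‖ - ‖z i - z j‖)]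
  have h := Real.le_sqrt_of_sq_le key
  linarith

variable [FiniteDimensional ℝ E] [MeasurableSpace E] [BorelSpace E] [Nonempty ι]

/-- The triangle branch for a centred obtuse family: `G₀` bounds the Gram determinant from
below, `M` the squared sides from above. -/
theorem width_le_T3 (z : ι → E) (hz : ∑ n, z n = 0) (hob : ∀ a b, a ≠ b → ⟪z a, z b⟫ ≤ 0)
    {i j k : ι} (hij : i ≠ j) (hjk : j ≠ k) (hki : k ≠ i) {l G₀ M : ℝ} (hl0 : 0 < l)
    (hl1 : l < 1) (hG₀ : 0 < G₀)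
    (hG : G₀ ≤ ‖z j - z i‖ ^ 2 * ‖z k - z i‖ ^ 2 - ⟪z j - z i, z k - z i⟫ ^ 2)
    (hMij : ‖z i - z j‖ ^ 2 ≤ M) (hMjk : ‖z j - z k‖ ^ 2 ≤ M) (hMki : ‖z k - z i‖ ^ 2 ≤ M)
    (hD₀ : 3 * (M * ‖∑ m ∈ ({i, j, k} : Finset ι)ᶜ, z m‖ ^ 2 / (3 * G₀)) < 1)
    (hD : ∀ m ∈ ({i, j, k} : Finset ι)ᶜ,
      3 * (M * ‖∑ m ∈ ({i, j, k} : Finset ι)ᶜ, z m‖ ^ 2 / (3 * G₀)
        + M * ‖z m‖ ^ 2 / ((1 - l) * G₀)) < 1) :
    width z ≤ (‖z i - z j‖ + ‖z j - z k‖ + ‖z k - z i‖) / 2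
      + phi2 (Real.sqrt (‖∑ m ∈ ({i, j, k} : Finset ι)ᶜ, z m‖ ^ 2) / 3)
          (l * triH G₀ (M * ‖∑ m ∈ ({i, j, k} : Finset ι)ᶜ, z m‖ ^ 2 / (3 * G₀)))
      + ∑ m ∈ ({i, j, k} : Finset ι)ᶜ, phi2 ‖z m‖
          ((1 - l) * triH G₀ (M * ‖∑ m ∈ ({i, j, k} : Finset ι)ᶜ, z m‖ ^ 2 / (3 * G₀)
            + M * ‖z m‖ ^ 2 / ((1 - l) * G₀))) := by
  obtain ⟨R, hR⟩ : ∃ R, R = ∑ m ∈ ({i, j, k} : Finset ι)ᶜ, z m := ⟨_, rfl⟩
  obtain ⟨D₀, hD₀'⟩ : ∃ D, D = M * ‖R‖ ^ 2 / (3 * G₀) := ⟨_, rfl⟩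
  simp only [← hR, ← hD₀'] at hD₀ hD ⊢
  obtain ⟨w, hw⟩ : ∃ w : Fin 3 → E, w = ![z i, z j, z k] := ⟨_, rfl⟩
  have hwG : G₀ ≤ triGram w := by simpa [hw, triGram] using hG
  have hwG' : 0 < triGram w := hG₀.trans_le hwG
  have hM1 : ‖w 1 - w 0‖ ^ 2 ≤ M := by
    simp only [hw, Matrix.cons_val_one, Matrix.cons_val_zero]
    rwa [norm_sub_rev]
  have hM2 : ‖w 2 - w 0‖ ^ 2 ≤ M := by simpa [hw] using hMki
  have hM3 : ‖w 2 - w 1‖ ^ 2 ≤ M := by
    simp only [hw, Matrix.cons_val_one, Matrix.cons_val]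
    rwa [norm_sub_rev]
  have hM : 0 ≤ M := (sq_nonneg _).trans hM2
  have hSsum : z i + z j + z k = -R := by
    rw [hR, ← sum_triple z hij hjk hki, sum_eq_neg_sum_compl z hz]
  -- the foot of the origin on the affine hull of the triangle
  obtain ⟨l₀, hl₀⟩ : ∃ l₀ : Fin 3 → ℝ,
      l₀ = fun n => 1 / 3 + baryMap w ((3 : ℝ)⁻¹ • R) n := ⟨_, rfl⟩
  have hl₀1 : ∑ n, l₀ n = 1 := by
    simp only [hl₀, Finset.sum_add_distrib, sum_baryMap]
    simp
  obtain ⟨c, hc⟩ : ∃ c, c = ∑ n, l₀ n • w n := ⟨_, rfl⟩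
  have hc' : c = -((3 : ℝ)⁻¹ • R) + ∑ n, baryMap w ((3 : ℝ)⁻¹ • R) n • w n := by
    rw [hc]
    simp only [hl₀, add_smul, Finset.sum_add_distrib, ← Finset.smul_sum]
    rw [Fin.sum_univ_three w, hw]
    simp only [Matrix.cons_val_one, Matrix.cons_val_zero, Matrix.cons_val]
    rw [hSsum, smul_neg, one_div]
  have hperp₀ : ∀ n, ⟪-c, w n - w 0⟫ = 0 := fun n => by
    rw [hc', neg_add, neg_neg, ← sub_eq_add_neg]
    exact baryMap_perp w _ hwG'.ne' n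
  have hcnorm : ‖c‖ ≤ Real.sqrt (‖R‖ ^ 2) / 3 := by
    obtain ⟨P, hP⟩ : ∃ P, P = ∑ n, baryMap w ((3 : ℝ)⁻¹ • R) n • w n := ⟨_, rfl⟩
    have hcp : ⟪c, P⟫ = 0 := by
      rw [hP, sum_baryMap_smul, inner_add_right, real_inner_smul_right, real_inner_smul_right]
      have h1 := hperp₀ 1
      have h2 := hperp₀ 2
      rw [inner_neg_left, neg_eq_zero] at h1 h2
      rw [h1, h2, mul_zero, mul_zero, add_zero]
    have h : ‖(3 : ℝ)⁻¹ • R‖ ^ 2 = ‖c‖ ^ 2 + ‖P‖ ^ 2 := by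
      have : (3 : ℝ)⁻¹ • R = P - c := by rw [hc', ← hP]; abel
      rw [this, norm_sub_sq_real, real_inner_comm c P, hcp]
      ring
    rw [Real.sqrt_sq (norm_nonneg _)]
    have h' : ‖(3 : ℝ)⁻¹ • R‖ = ‖R‖ / 3 := by
      rw [norm_smul, norm_inv, Real.norm_ofNat, div_eq_inv_mul]
    rw [h'] at h
    exact (pow_le_pow_iff_left₀ (norm_nonneg _) (by positivity) two_ne_zero).1
      (by linarith [sq_nonneg ‖P‖])
  -- the triangle measured from the foot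
  obtain ⟨a, ha⟩ : ∃ a : Fin 3 → E, a = fun n => w n - c := ⟨_, rfl⟩
  have had : ∀ n, a n - a 0 = w n - w 0 := fun n => by simp [ha]
  have haG : G₀ ≤ triGram a := by simpa only [triGram, had] using hwG
  have ha0 : ∑ n, l₀ n • a n = 0 := by
    simp only [ha, smul_sub, Finset.sum_sub_distrib, ← Finset.sum_smul, hl₀1, one_smul, hc, sub_self]
  -- weights
  have hinR : ∀ n, ⟪(3 : ℝ)⁻¹ • R, w n⟫ ≤ 0 := by
    intro n
    rw [real_inner_smul_left]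
    refine mul_nonpos_of_nonneg_of_nonpos (by norm_num) ?_
    rw [real_inner_comm, hR]
    fin_cases n <;> simp only [hw, Matrix.cons_val_one, Matrix.cons_val_zero, Matrix.cons_val,
      Fin.zero_eta, Fin.mk_one, Fin.reduceFinMk] <;>
      exact obtuse_inner_sum_nonpos z hob (by simp)
  have hinRs : -(‖R‖ ^ 2 / 3) ≤ ∑ n, ⟪(3 : ℝ)⁻¹ • R, w n⟫ := by
    rw [← inner_sum, Fin.sum_univ_three, hw]
    simp only [Matrix.cons_val_one, Matrix.cons_val_zero, Matrix.cons_val]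
    rw [hSsum, real_inner_smul_left, inner_neg_right, real_inner_self_eq_norm_sq]
    linarith
  have hb₀ : ∀ n, |l₀ n - 1 / 3| ≤ D₀ := by
    intro n
    have h := abs_baryMap_le w _ hwG' hM1 hM2 hM3 hinR hinRs n
    rw [hl₀]
    simp only [add_sub_cancel_left]
    refine h.trans ?_
    rw [hD₀', mul_div_assoc', div_div]
    exact div_le_div_of_nonneg_left (mul_nonneg hM (sq_nonneg _)) (by linarith) (by linarith)
  -- the three terms
  have hne : Nonempty ({i, j, k} : Finset ι) := ⟨⟨i, by simp⟩⟩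
  have h := width_le_top z {i, j, k} c l
  rw [width_three_finset z {i, j, k} i j k rfl] at h
  have hMa : maxForm (fun n : ({i, j, k} : Finset ι) => z n - c) = maxForm a := by
    funext g
    let f : Fin 3 → ({i, j, k} : Finset ι) := ![⟨i, by simp⟩, ⟨j, by simp⟩, ⟨k, by simp⟩]
    have hf : Function.Surjective f := by
      rintro ⟨x, hx⟩
      simp only [Finset.mem_insert, Finset.mem_singleton] at hx
      rcases hx with rfl | rfl | rfl
      · exact ⟨0, rfl⟩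
      · exact ⟨1, rfl⟩
      · exact ⟨2, rfl⟩
    rw [← maxForm_comp_surjective (fun n : ({i, j, k} : Finset ι) => z n - c) hf g]
    congr 1
    funext n
    fin_cases n <;> simp [ha, hw, f]
  simp only [hMa] at h
  have hY : excess (-c) (fun g => l * maxForm a g) ≤
      phi2 (Real.sqrt (‖R‖ ^ 2) / 3) (l * triH G₀ D₀) :=
    excess_smul_maxForm_three_le a (-c) l₀ hl0 hG₀ haG hD₀ hb₀ hl₀1
      (fun n => by rw [ha0, smul_zero, sub_zero, had, hperp₀])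
      (by rw [ha0, smul_zero, sub_zero, norm_neg]; exact hcnorm)
  have hX : ∀ m ∈ ({i, j, k} : Finset ι)ᶜ, excess (z m) (fun g => (1 - l) * maxForm a g) ≤
      phi2 ‖z m‖ ((1 - l) * triH G₀ (D₀ + M * ‖z m‖ ^ 2 / ((1 - l) * G₀))) := by
    intro m hm
    have hκ : 0 < 1 - l := by linarith
    have hmS : m ∉ ({i, j, k} : Finset ι) := Finset.mem_compl.1 hm
    obtain ⟨b, hb⟩ : ∃ b : Fin 3 → ℝ,
        b = fun n => l₀ n + (1 - l)⁻¹ * baryMap w (z m) n := ⟨_, rfl⟩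
    have hb1 : ∑ n, b n = 1 := by
      simp only [hb, Finset.sum_add_distrib, ← Finset.mul_sum, sum_baryMap, hl₀1, mul_zero,
        add_zero]
    have hbb : ∀ n, |b n - 1 / 3| ≤ D₀ + M * ‖z m‖ ^ 2 / ((1 - l) * G₀) := by
      intro n
      have h1 : ∀ n, ⟪z m, w n⟫ ≤ 0 := by
        intro n
        fin_cases n <;> simp only [hw, Matrix.cons_val_one, Matrix.cons_val_zero, Matrix.cons_val,
          Fin.zero_eta, Fin.mk_one, Fin.reduceFinMk] <;>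
          exact hob _ _ (fun e => hmS (by simp [e]))
      have h2 : -‖z m‖ ^ 2 ≤ ∑ n, ⟪z m, w n⟫ := by
        have h3 := obtuse_neg_sq_le_inner_sum z hz hob hmS
        rw [sum_triple z hij hjk hki] at h3
        rw [← inner_sum, Fin.sum_univ_three, hw]
        simpa using h3
      have h4 := abs_baryMap_le w (z m) hwG' hM1 hM2 hM3 h1 h2 n
      calc |b n - 1 / 3| = |(l₀ n - 1 / 3) + (1 - l)⁻¹ * baryMap w (z m) n| := by
            rw [hb]; ring_nf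
        _ ≤ |l₀ n - 1 / 3| + |(1 - l)⁻¹ * baryMap w (z m) n| := abs_add_le _ _
        _ ≤ D₀ + M * ‖z m‖ ^ 2 / ((1 - l) * G₀) := by
            refine add_le_add (hb₀ n) ?_
            rw [abs_mul, abs_of_pos (inv_pos.2 hκ), mul_comm (1 - l) G₀, ← div_div,
              div_eq_inv_mul _ (1 - l)]
            exact mul_le_mul_of_nonneg_left (h4.trans (div_le_div_of_nonneg_left
              (mul_nonneg hM (sq_nonneg _)) hG₀ hwG)) (inv_nonneg.2 hκ.le)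
    have hcomb : (1 - l) • ∑ n, b n • a n = ∑ n, baryMap w (z m) n • w n := by
      simp only [hb, add_smul, Finset.sum_add_distrib, ha0, zero_add, mul_smul,
        ← Finset.smul_sum]
      rw [smul_inv_smul₀ hκ.ne', ha]
      simp only [smul_sub, Finset.sum_sub_distrib, ← Finset.sum_smul, sum_baryMap, zero_smul,
        sub_zero]
    have hperp : ∀ n, ⟪z m - ∑ n, baryMap w (z m) n • w n, w n - w 0⟫ = 0 :=
      baryMap_perp w _ hwG'.ne'
    refine excess_smul_maxForm_three_le a (z m) b hκ hG₀ haG (hD m hm) hbb hb1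
      (fun n => by rw [hcomb, had]; exact hperp n) ?_
    rw [hcomb]
    refine (pow_le_pow_iff_left₀ (norm_nonneg _) (norm_nonneg _) two_ne_zero).1 ?_
    obtain ⟨P, hP⟩ : ∃ P, P = ∑ n, baryMap w (z m) n • w n := ⟨_, rfl⟩
    have hperp' : ⟪z m - P, P⟫ = 0 := by
      rw [hP]
      nth_rw 2 [sum_baryMap_smul]
      rw [inner_add_right, real_inner_smul_right, real_inner_smul_right, hperp 1, hperp 2]
      ring
    rw [← hP]
    rw [inner_sub_left, real_inner_self_eq_norm_sq] at hperp'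
    rw [norm_sub_sq_real]
    linarith [sq_nonneg ‖P‖]
  linarith [Finset.sum_le_sum hX]

end Branch

end Vale.Agent.P226
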