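import Vale.Agent.P226.TriangleTail
import Vale.Agent.P226.Reduction
import Vale.Agent.P226.RadialModel

/-!
# The triangle excess bound in a general Euclidean space

For three test vectors `w` with Gram determinant `G` of their differences and a further vector
`u` whose projection to their affine hull is `∑ l i • w i` with positive weights, the excess of
`⟪u, g⟫` over `max_i ⟪w i, g⟫` is at most `h ^ 3 / (6 π √G l₀ l₁ l₂)`, with `h` the distance
from `u` to that affine hull.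
-/

namespace Vale.Agent.P226

open MeasureTheory ProbabilityTheory
open scoped RealInnerProductSpace

section TriangleExcess

variable {E : Type*} [NormedAddCommGroup E] [InnerProductSpace ℝ E] [FiniteDimensional ℝ E]
  [MeasurableSpace E] [BorelSpace E]

/-- The coordinates along an orthonormal triple are distributed as `γ ⊗ γ²`. -/
lemma map_coordMap_triple {u : E} {e : Fin 2 → E} (hu : ‖u‖ = 1) (he : Orthonormal ℝ e)
    (hue : ∀ i, ⟪u, e i⟫ = 0) :
    (stdGaussian E).map (coordMap u e) = (gaussianReal 0 1).prod (gs 2) := by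
  let u' : EuclideanSpace ℝ (Fin 3) := EuclideanSpace.single 0 1
  let e' : Fin 2 → EuclideanSpace ℝ (Fin 3) := fun i => EuclideanSpace.single i.succ 1
  have he' : Orthonormal ℝ e' :=
    (EuclideanSpace.orthonormal_single (𝕜 := ℝ) (ι := Fin 3)).comp _ (Fin.succ_injective 2)
  rw [map_coordMap_eq hu he (u' := u') (e' := e') (by simp [u']) he' (fun i => by
      rw [hue]; simp [u', e', EuclideanSpace.inner_single_left]),
    ← map_pi_eq_stdGaussian,
    Measure.map_map (ContinuousLinearMap.continuous _).measurable (by fun_prop)]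
  have hmp := measurePreserving_piFinSuccAbove (fun _ : Fin 3 => gaussianReal 0 1) 0
  have hf : (coordMap u' e') ∘ WithLp.toLp 2
      = MeasurableEquiv.piFinSuccAbove (fun _ : Fin 3 => ℝ) 0 := by
    funext x
    refine Prod.ext ?_ (funext fun i => ?_)
    · simp [u', EuclideanSpace.inner_single_left, MeasurableEquiv.piFinSuccAbove,
        Fin.insertNthEquiv]
    · simp [e', EuclideanSpace.inner_single_left, MeasurableEquiv.piFinSuccAbove,
        Fin.insertNthEquiv, Fin.tail]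
  rw [hf, hmp.map_eq]
  rfl

/-- The triangle excess bound. `G` is the Gram determinant of the two differences, so that the
area of the triangle is `√G / 2`. -/
theorem excess_maxForm_three_le (w : Fin 3 → E) (u : E) (l : Fin 3 → ℝ)
    (hl : ∀ i, 0 < l i) (hl1 : ∑ i, l i = 1)
    (hperp : ∀ i, ⟪u - ∑ j, l j • w j, w i - w 0⟫ = 0)
    (hG : 0 < ‖w 1 - w 0‖ ^ 2 * ‖w 2 - w 0‖ ^ 2 - ⟪w 1 - w 0, w 2 - w 0⟫ ^ 2) :
    excess u (maxForm w) ≤ ‖u - ∑ j, l j • w j‖ ^ 3 /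
      (6 * Real.pi * Real.sqrt (‖w 1 - w 0‖ ^ 2 * ‖w 2 - w 0‖ ^ 2
        - ⟪w 1 - w 0, w 2 - w 0⟫ ^ 2) * (l 0 * l 1 * l 2)) := by
  obtain ⟨r, hr⟩ : ∃ r, r = u - ∑ j, l j • w j := ⟨_, rfl⟩
  rw [← hr] at hperp ⊢
  have hu' : ∀ g, ⟪u, g⟫ = ⟪r, g⟫ + ∑ j, l j * ⟪w j, g⟫ := by
    intro g
    rw [hr, inner_sub_left, sum_inner]
    simp only [real_inner_smul_left, sub_add_cancel]
  have hcomb : ∀ g, ∑ j, l j * ⟪w j, g⟫ ≤ maxForm w g := by
    intro g
    calc ∑ j, l j * ⟪w j, g⟫ ≤ ∑ j, l j * maxForm w g :=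
          Finset.sum_le_sum fun j _ =>
            mul_le_mul_of_nonneg_left (inner_le_maxForm w j g) (hl j).le
      _ = maxForm w g := by rw [← Finset.sum_mul, hl1, one_mul]
  rcases eq_or_ne r 0 with h0 | h0
  · rw [h0, norm_zero, zero_pow (by norm_num), zero_div]
    refine le_of_eq (excess_eq_zero_of_le u _ fun g => ?_)
    rw [hu', h0, inner_zero_left, zero_add]
    exact hcomb g
  · obtain ⟨d, hd⟩ : ∃ d : Fin 3 → E, ∀ i, d i = w i - w 0 := ⟨_, fun _ => rfl⟩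
    simp only [← hd] at hperp hG ⊢
    obtain ⟨n₁, hn₁⟩ : ∃ n, n = ‖d 1‖ := ⟨_, rfl⟩
    have hn₁0 : n₁ ≠ 0 := by
      rintro rfl
      rw [← hn₁] at hG
      nlinarith [sq_nonneg ⟪d 1, d 2⟫]
    obtain ⟨e₀, he₀⟩ : ∃ e₀, e₀ = n₁⁻¹ • d 1 := ⟨_, rfl⟩
    obtain ⟨f, hf⟩ : ∃ f, f = d 2 - ⟪e₀, d 2⟫ • e₀ := ⟨_, rfl⟩
    have hne₀ : ‖e₀‖ = 1 := by
      rw [he₀, norm_smul, norm_inv, Real.norm_eq_abs, hn₁, abs_norm,
        inv_mul_cancel₀ (hn₁ ▸ hn₁0)]
    have he00 : ⟪e₀, e₀⟫ = 1 := by rw [real_inner_self_eq_norm_sq, hne₀, one_pow]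
    have hd1 : d 1 = n₁ • e₀ := by rw [he₀, smul_inv_smul₀ hn₁0]
    have hef : ⟪e₀, f⟫ = 0 := by
      rw [hf, inner_sub_right, real_inner_smul_right, he00, mul_one, sub_self]
    have hG2 : ‖d 1‖ ^ 2 * ‖d 2‖ ^ 2 - ⟪d 1, d 2⟫ ^ 2 = n₁ ^ 2 * ‖f‖ ^ 2 := by
      have h1 : ⟪d 1, d 2⟫ = n₁ * ⟪e₀, d 2⟫ := by rw [hd1, real_inner_smul_left]
      rw [h1, ← hn₁, hf, norm_sub_sq_real, real_inner_smul_right, norm_smul, hne₀,
        real_inner_comm (d 2) e₀, mul_one, Real.norm_eq_abs, sq_abs]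
      ring
    have hf0 : ‖f‖ ≠ 0 := by
      intro h
      rw [hG2, h] at hG
      simp at hG
    obtain ⟨e₁, he₁⟩ : ∃ e₁, e₁ = ‖f‖⁻¹ • f := ⟨_, rfl⟩
    have hne₁ : ‖e₁‖ = 1 := by
      rw [he₁, norm_smul, norm_inv, norm_norm, inv_mul_cancel₀ hf0]
    have he01 : ⟪e₀, e₁⟫ = 0 := by rw [he₁, real_inner_smul_right, hef, mul_zero]
    have hd2 : d 2 = ⟪e₀, d 2⟫ • e₀ + ‖f‖ • e₁ := by
      rw [he₁, smul_inv_smul₀ hf0, hf]; abel
    have he : Orthonormal ℝ ![e₀, e₁] := by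
      rw [orthonormal_iff_ite]
      intro i j
      fin_cases i <;> fin_cases j <;>
        simp [he01, real_inner_comm e₀ e₁, hne₀, hne₁]
    have hr1 : ⟪r, e₀⟫ = 0 := by
      rw [he₀, real_inner_smul_right, hperp 1, mul_zero]
    have hr2 : ⟪r, e₁⟫ = 0 := by
      rw [he₁, real_inner_smul_right, hf, inner_sub_right, real_inner_smul_right, hperp 2, hr1]
      ring
    obtain ⟨v, hv⟩ : ∃ v, v = ‖r‖⁻¹ • r := ⟨_, rfl⟩
    have hnr : ‖r‖ ≠ 0 := norm_ne_zero_iff.mpr h0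
    have hnv : ‖v‖ = 1 := by rw [hv, norm_smul, norm_inv, norm_norm, inv_mul_cancel₀ hnr]
    have hve : ∀ i, ⟪v, ![e₀, e₁] i⟫ = 0 := by
      intro i
      fin_cases i <;> simp [hv, real_inner_smul_left, hr1, hr2]
    obtain ⟨p, hp⟩ : ∃ p : Fin 3 → Fin 2 → ℝ,
        p = ![![0, 0], ![n₁, 0], ![⟪e₀, d 2⟫, ‖f‖]] := ⟨_, rfl⟩
    obtain ⟨F, hF⟩ : ∃ F : ℝ × (Fin 2 → ℝ) → ℝ, F = fun z =>
        max (dotv (∑ i, l i • p i) z.2 + ‖r‖ * z.1 -
          max (max (dotv (p 0) z.2) (dotv (p 1) z.2)) (dotv (p 2) z.2)) 0 := ⟨_, rfl⟩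
    have hFm : Measurable F := by rw [hF]; simp only [dotv]; fun_prop
    have hmax3 : ∀ g, maxForm w g = max (max ⟪w 0, g⟫ ⟪w 1, g⟫) ⟪w 2, g⟫ := by
      intro g
      refine le_antisymm ((maxForm_le_iff w g _).mpr fun i => ?_)
        (max_le (max_le (inner_le_maxForm w 0 g) (inner_le_maxForm w 1 g))
          (inner_le_maxForm w 2 g))
      fin_cases i <;> simp
    have hpt : ∀ g, max (⟪u, g⟫ - maxForm w g) 0 = F (coordMap v ![e₀, e₁] g) := by
      intro g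
      have hc : ∀ i, ⟪w i, g⟫ = ⟪w 0, g⟫ + dotv (p i) (fun k => ⟪![e₀, e₁] k, g⟫) := by
        intro i
        have hw : ⟪w i, g⟫ = ⟪w 0, g⟫ + ⟪d i, g⟫ := by rw [hd, inner_sub_left]; ring
        rw [hw]
        fin_cases i
        · simp [hd, hp, dotv, Fin.sum_univ_two]
        · simp [hp, dotv, Fin.sum_univ_two, hd1, real_inner_smul_left]
        · show ⟪w 0, g⟫ + ⟪d 2, g⟫ = _
          conv_lhs => rw [hd2]
          simp [hp, dotv, Fin.sum_univ_two, inner_add_left, real_inner_smul_left]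
      have hrv : ⟪r, g⟫ = ‖r‖ * ⟪v, g⟫ := by
        rw [hv, real_inner_smul_left, mul_inv_cancel_left₀ hnr]
      have hl1' : l 0 + l 1 + l 2 = 1 := by simpa [Fin.sum_univ_three] using hl1
      rw [hu', hmax3, hrv, hc 1, hc 2, Fin.sum_univ_three, hc 1, hc 2, hF]
      simp only [coordMap_apply]
      have h00 : dotv (p 0) (fun k => ⟪![e₀, e₁] k, g⟫) = 0 := by
        simp [hp, dotv, Fin.sum_univ_two]
      have hs : dotv (∑ i, l i • p i) (fun k => ⟪![e₀, e₁] k, g⟫)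
          = l 0 * dotv (p 0) (fun k => ⟪![e₀, e₁] k, g⟫)
            + l 1 * dotv (p 1) (fun k => ⟪![e₀, e₁] k, g⟫)
            + l 2 * dotv (p 2) (fun k => ⟪![e₀, e₁] k, g⟫) := by
        simp only [dotv, Fin.sum_univ_two, Fin.sum_univ_three, Pi.add_apply, Pi.smul_apply,
          smul_eq_mul]
        ring
      rw [hs, h00]
      generalize dotv (p 1) (fun k => ⟪![e₀, e₁] k, g⟫) = X
      generalize dotv (p 2) (fun k => ⟪![e₀, e₁] k, g⟫) = Y
      generalize ⟪w 0, g⟫ = Z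
      have hl0 : l 0 = 1 - l 1 - l 2 := by linarith
      have hm : max (max Z (Z + X)) (Z + Y) = Z + max (max 0 X) Y := by
        rw [← max_add_add_left, ← max_add_add_left, add_zero]
      rw [hm, hl0]
      congr 1
      ring
    have key := triangle_tail p l ‖r‖ hl hl1 (by
      simp only [hp]
      simpa using mul_ne_zero hn₁0 hf0)
    have hint : ∫ g, max (⟪u, g⟫ - maxForm w g) 0 ∂(stdGaussian E)
        = ∫ z, F z ∂((gaussianReal 0 1).prod (gs 2)) := by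
      rw [← map_coordMap_triple hnv he hve,
        integral_map (coordMap v ![e₀, e₁]).continuous.measurable.aemeasurable
          hFm.aestronglyMeasurable]
      simp only [hpt]
    rw [excess, hint, hF]
    refine (mul_le_mul_of_nonneg_left key (Real.sqrt_nonneg _)).trans (le_of_eq ?_)
    have hn₁' : (0 : ℝ) ≤ n₁ := hn₁ ▸ norm_nonneg _
    have hsq : Real.sqrt (‖d 1‖ ^ 2 * ‖d 2‖ ^ 2 - ⟪d 1, d 2⟫ ^ 2) = n₁ * ‖f‖ := by
      rw [hG2, ← mul_pow, Real.sqrt_sq (mul_nonneg hn₁' (norm_nonneg _))]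
    have hD : |(p 1 0 - p 0 0) * (p 2 1 - p 0 1) - (p 1 1 - p 0 1) * (p 2 0 - p 0 0)|
        = n₁ * ‖f‖ := by
      simp [hp, abs_mul, abs_of_nonneg hn₁']
    rw [hsq, hD, abs_norm, phi0]
    field_simp
    ring

end TriangleExcess

end Vale.Agent.P226
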