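import Vale.Agent.P226.Defs

/-!
# The triangle tail bound

For a triangle `p` and a point `q = ∑ l i • p i` inside it, the excess of `h z + ⟪q, y⟫` over the
maximum of the three linear forms `⟪p i, y⟫` is at most cubic in `h`, with the polar area of the
triangle about `q` as the constant.
-/

namespace Vale.Agent.P226

open MeasureTheory ProbabilityTheory
open scoped ENNReal

section TriangleTail

/-- One-dimensional moments of a truncated affine function on the half-line. -/
lemma lintegral_Ici_posPart_pow (n : ℕ) (hn : n ≠ 0) (w : ℝ) {b : ℝ} (hb : 0 < b) :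
    ∫⁻ v, (Set.Ici (0 : ℝ)).indicator (fun v => ENNReal.ofReal (max (w - b * v) 0 ^ n)) v
      = ENNReal.ofReal (max w 0 ^ (n + 1) / (b * (n + 1))) := by
  rcases le_or_gt w 0 with hw | hw
  · have h0 : ∀ v, (Set.Ici (0 : ℝ)).indicator
        (fun v => ENNReal.ofReal (max (w - b * v) 0 ^ n)) v = 0 := by
      intro v
      by_cases hv : v ∈ Set.Ici (0 : ℝ)
      · have hv' : (0 : ℝ) ≤ v := hv
        rw [Set.indicator_of_mem hv, max_eq_right (by nlinarith), zero_pow hn, ENNReal.ofReal_zero]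
      · rw [Set.indicator_of_notMem hv]
    simp only [h0, lintegral_zero, max_eq_right hw, zero_pow (Nat.succ_ne_zero n), zero_div,
      ENNReal.ofReal_zero]
  · have hwb : 0 ≤ w / b := div_nonneg hw.le hb.le
    have heq : (Set.Ici (0 : ℝ)).indicator (fun v => ENNReal.ofReal (max (w - b * v) 0 ^ n))
        = (Set.Icc (0 : ℝ) (w / b)).indicator (fun v => ENNReal.ofReal ((w - b * v) ^ n)) := by
      funext v
      by_cases hv : (0 : ℝ) ≤ v
      · by_cases hv2 : v ≤ w / b
        · have : 0 ≤ w - b * v := by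
            have := (le_div_iff₀ hb).mp hv2; linarith
          rw [Set.indicator_of_mem (Set.mem_Ici.mpr hv),
            Set.indicator_of_mem (Set.mem_Icc.mpr ⟨hv, hv2⟩), max_eq_left this]
        · have : w - b * v ≤ 0 := by
            have := (div_lt_iff₀ hb).mp (not_le.mp hv2); linarith
          rw [Set.indicator_of_mem (Set.mem_Ici.mpr hv),
            Set.indicator_of_notMem (fun h => hv2 (Set.mem_Icc.mp h).2), max_eq_right this,
            zero_pow hn, ENNReal.ofReal_zero]
      · rw [Set.indicator_of_notMem (fun h => hv (Set.mem_Ici.mp h)),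
          Set.indicator_of_notMem (fun h => hv (Set.mem_Icc.mp h).1)]
    have hcont : Continuous fun v => (w - b * v) ^ n := by fun_prop
    rw [heq, lintegral_indicator measurableSet_Icc,
      ← ofReal_integral_eq_lintegral_ofReal hcont.continuousOn.integrableOn_Icc]
    · congr 1
      rw [integral_Icc_eq_integral_Ioc, ← intervalIntegral.integral_of_le hwb]
      have hd : ∀ v ∈ Set.uIcc (0 : ℝ) (w / b),
          HasDerivAt (fun v => -((w - b * v) ^ (n + 1) / (b * (n + 1)))) ((w - b * v) ^ n) v := by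
        intro v _
        have h1 : HasDerivAt (fun v => w - b * v) (-b) v := by
          simpa using ((hasDerivAt_id v).const_mul b).const_sub w
        have h2 := ((h1.pow (n + 1)).div_const (b * (n + 1))).neg
        refine h2.congr_deriv ?_
        push_cast
        field_simp
      rw [intervalIntegral.integral_eq_sub_of_hasDerivAt hd (hcont.intervalIntegrable _ _),
        max_eq_left hw.le]
      have : w - b * (w / b) = 0 := by field_simp; ring
      rw [this]
      simp
    · filter_upwards [ae_restrict_mem measurableSet_Icc] with v hv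
      have := (le_div_iff₀ hb).mp hv.2
      exact pow_nonneg (by linarith) n

/-- The truncated affine function on the positive quadrant. -/
noncomputable def quadrantTent (c a b : ℝ) : ℝ × ℝ → ℝ≥0∞ :=
  (Set.Ici (0 : ℝ) ×ˢ Set.Ici (0 : ℝ)).indicator
    (fun p => ENNReal.ofReal (max (c - (a * p.1 + b * p.2)) 0))

lemma measurable_quadrantTent (c a b : ℝ) : Measurable (quadrantTent c a b) :=
  (Measurable.ennreal_ofReal (by fun_prop)).indicator (measurableSet_Ici.prod measurableSet_Ici)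

lemma lintegral_quadrantTent (c : ℝ) {a b : ℝ} (ha : 0 < a) (hb : 0 < b) :
    ∫⁻ p, quadrantTent c a b p = ENNReal.ofReal (max c 0 ^ 3 / (6 * a * b)) := by
  rw [Measure.volume_eq_prod,
    lintegral_prod _ (measurable_quadrantTent c a b).aemeasurable]
  have hin : ∀ u, ∫⁻ v, quadrantTent c a b (u, v)
      = (Set.Ici (0 : ℝ)).indicator
          (fun u => ENNReal.ofReal (max (c - a * u) 0 ^ 2)) u * ENNReal.ofReal (1 / (b * 2)) := by
    intro u
    by_cases hu : u ∈ Set.Ici (0 : ℝ)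
    · have h1 := lintegral_Ici_posPart_pow 1 one_ne_zero (c - a * u) hb
      rw [Set.indicator_of_mem hu, ← ENNReal.ofReal_mul (by positivity)]
      convert h1 using 2
      · funext v
        simp only [quadrantTent, Set.indicator, Set.mem_prod, hu, true_and, pow_one]
        split <;> ring_nf
      · push_cast; ring
    · simp only [quadrantTent, Set.indicator, Set.mem_prod, hu, false_and, if_false,
        lintegral_zero, zero_mul]
  simp only [hin]
  rw [lintegral_mul_const']
  · rw [lintegral_Ici_posPart_pow 2 two_ne_zero c ha, ← ENNReal.ofReal_mul (by positivity)]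
    congr 1
    push_cast
    field_simp
    ring
  · exact ENNReal.ofReal_ne_top

/-- The planar linear map with coefficient rows `(a₁, b₁)` and `(a₂, b₂)`. -/
def planeMap (a₁ b₁ a₂ b₂ : ℝ) : ℝ × ℝ →ₗ[ℝ] ℝ × ℝ where
  toFun p := (a₁ * p.1 + b₁ * p.2, a₂ * p.1 + b₂ * p.2)
  map_add' p q := by simp only [Prod.fst_add, Prod.snd_add, Prod.mk_add_mk]; ext <;> dsimp <;> ring
  map_smul' r p := by
    simp only [Prod.smul_fst, Prod.smul_snd, RingHom.id_apply, smul_eq_mul, Prod.smul_mk]
    ext <;> dsimp <;> ring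

lemma det_planeMap (a₁ b₁ a₂ b₂ : ℝ) :
    LinearMap.det (planeMap a₁ b₁ a₂ b₂) = a₁ * b₂ - b₁ * a₂ := by
  rw [← LinearMap.det_toMatrix (Module.Basis.finTwoProd ℝ), Matrix.det_fin_two]
  simp [LinearMap.toMatrix_apply, planeMap]

lemma lintegral_comp_planeMap {a₁ b₁ a₂ b₂ : ℝ} (hD : a₁ * b₂ - b₁ * a₂ ≠ 0)
    {G : ℝ × ℝ → ℝ≥0∞} (hG : Measurable G) :
    ∫⁻ p, G (planeMap a₁ b₁ a₂ b₂ p)
      = ENNReal.ofReal |(a₁ * b₂ - b₁ * a₂)⁻¹| * ∫⁻ p, G p := by
  have : (volume : Measure (ℝ × ℝ)).IsAddHaarMeasure := by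
    rw [Measure.volume_eq_prod]; infer_instance
  have hm : Measurable (planeMap a₁ b₁ a₂ b₂) := by
    change Measurable fun p : ℝ × ℝ => (a₁ * p.1 + b₁ * p.2, a₂ * p.1 + b₂ * p.2)
    fun_prop
  rw [← lintegral_map hG hm,
    Measure.map_linearMap_addHaar_eq_smul_addHaar volume (by rw [det_planeMap]; exact hD),
    lintegral_smul_measure, det_planeMap, smul_eq_mul]

lemma gaussianReal_le_smul_volume :
    gaussianReal 0 1 ≤ ENNReal.ofReal phi0 • (volume : Measure ℝ) := by
  rw [gaussianReal_of_var_ne_zero 0 one_ne_zero, ← withDensity_const]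
  refine withDensity_mono (ae_of_all _ fun x => ?_)
  refine ENNReal.ofReal_le_ofReal ?_
  simp only [gaussianPDFReal, phi0, NNReal.coe_one, mul_one, sub_zero]
  refine mul_le_of_le_one_right (by positivity) (Real.exp_le_one_iff.mpr ?_)
  have := sq_nonneg x
  linarith

lemma lintegral_gs_two_le {f : (Fin 2 → ℝ) → ℝ≥0∞} (hf : Measurable f) :
    ∫⁻ y, f y ∂(gs 2) ≤ ENNReal.ofReal (phi0 ^ 2) * ∫⁻ p : ℝ × ℝ, f ![p.1, p.2] := by
  have hmp := (measurePreserving_piFinTwo
    (fun _ : Fin 2 => gaussianReal 0 1)).symm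
      (MeasurableEquiv.piFinTwo fun _ => ℝ)
  have hg : Measurable fun p : ℝ × ℝ => f ![p.1, p.2] := by
    refine hf.comp (measurable_pi_lambda _ fun i => ?_)
    fin_cases i
    · exact measurable_fst
    · exact measurable_snd
  have e : ∀ p : ℝ × ℝ, (MeasurableEquiv.piFinTwo fun _ : Fin 2 => ℝ).symm p = ![p.1, p.2] := by
    intro p; funext i; fin_cases i <;> rfl
  have h1 : ∫⁻ y, f y ∂(gs 2)
      = ∫⁻ p : ℝ × ℝ, f ![p.1, p.2] ∂((gaussianReal 0 1).prod (gaussianReal 0 1)) := by
    rw [gs, ← hmp.lintegral_comp hf]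
    simp only [e]
  have h2 : (gaussianReal 0 1).prod (gaussianReal 0 1)
      ≤ ENNReal.ofReal (phi0 ^ 2) • ((volume : Measure ℝ).prod (volume : Measure ℝ)) := by
    have hp : ENNReal.ofReal (phi0 ^ 2) = ENNReal.ofReal phi0 * ENNReal.ofReal phi0 := by
      rw [← ENNReal.ofReal_mul (by rw [phi0]; positivity), sq]
    refine Measure.le_iff.mpr fun s hs => ?_
    rw [Measure.prod_apply hs, Measure.smul_apply, Measure.prod_apply hs, hp, smul_eq_mul]
    calc ∫⁻ x, gaussianReal 0 1 (Prod.mk x ⁻¹' s) ∂gaussianReal 0 1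
        ≤ ∫⁻ x, ENNReal.ofReal phi0 * volume (Prod.mk x ⁻¹' s)
            ∂(ENNReal.ofReal phi0 • (volume : Measure ℝ)) := by
          refine lintegral_mono' gaussianReal_le_smul_volume fun x => ?_
          simpa only [Measure.smul_apply, smul_eq_mul] using
            gaussianReal_le_smul_volume (Prod.mk x ⁻¹' s)
      _ = _ := by
          rw [lintegral_smul_measure, lintegral_const_mul' _ _ ENNReal.ofReal_ne_top, smul_eq_mul,
            mul_assoc]
  rw [h1, Measure.volume_eq_prod, ← smul_eq_mul, ← lintegral_smul_measure]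
  exact lintegral_mono' h2 le_rfl

lemma lintegral_gaussianReal_posPart_cube {h : ℝ} (hh : 0 ≤ h) :
    ∫⁻ z, ENNReal.ofReal (max (h * z) 0 ^ 3) ∂(gaussianReal 0 1)
      = ENNReal.ofReal (2 * phi0 * h ^ 3) := by
  rw [gaussianReal_of_var_ne_zero 0 one_ne_zero,
    lintegral_withDensity_eq_lintegral_mul _ (measurable_gaussianPDF _ _) (by fun_prop)]
  have heq : (gaussianPDF 0 1 * fun z => ENNReal.ofReal (max (h * z) 0 ^ 3))
      = (Set.Ioi (0 : ℝ)).indicator
          (fun z => ENNReal.ofReal (phi0 * h ^ 3 * (z ^ (3 : ℝ) *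
            Real.exp (-(1 / 2) * z ^ (2 : ℝ))))) := by
    funext z
    simp only [Pi.mul_apply, gaussianPDF, gaussianPDFReal, Real.rpow_two, Set.indicator,
      Set.mem_Ioi]
    split_ifs with hz
    · rw [← ENNReal.ofReal_mul (by positivity), max_eq_left (mul_nonneg hh hz.le)]
      congr 1
      simp only [phi0, NNReal.coe_one, mul_one, sub_zero]
      rw [show (3 : ℝ) = ((3 : ℕ) : ℝ) by norm_num, Real.rpow_natCast]
      ring_nf
    · rw [max_eq_right (mul_nonpos_of_nonneg_of_nonpos hh (not_lt.mp hz))]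
      simp
  have hint : IntegrableOn (fun z : ℝ => z ^ (3 : ℝ) * Real.exp (-(1 / 2) * z ^ (2 : ℝ)))
      (Set.Ioi 0) :=
    integrableOn_rpow_mul_exp_neg_mul_rpow (by norm_num) (by norm_num) (by norm_num)
  rw [heq, lintegral_indicator measurableSet_Ioi,
    ← ofReal_integral_eq_lintegral_ofReal (hint.const_mul _)]
  · congr 1
    rw [integral_const_mul, integral_rpow_mul_exp_neg_mul_rpow (by norm_num) (by norm_num)
      (by norm_num)]
    norm_num
    ring
  · filter_upwards [ae_restrict_mem measurableSet_Ioi] with z hz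
    have : (0 : ℝ) < z := hz
    have : 0 < phi0 := by rw [phi0]; positivity
    positivity

/-- For fixed level `c`, the planar integral of the positive part of `c` minus the triangle
gauge. -/
lemma lintegral_triangle_le (p : Fin 3 → Fin 2 → ℝ) (l : Fin 3 → ℝ) (c : ℝ)
    (hl : ∀ i, 0 < l i) (hl1 : ∑ i, l i = 1)
    (hA : (p 1 0 - p 0 0) * (p 2 1 - p 0 1) - (p 1 1 - p 0 1) * (p 2 0 - p 0 0) ≠ 0) :
    ∫⁻ x : ℝ × ℝ, ENNReal.ofReal (max (dotv (∑ i, l i • p i) ![x.1, x.2] + c -
          max (max (dotv (p 0) ![x.1, x.2]) (dotv (p 1) ![x.1, x.2]))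
            (dotv (p 2) ![x.1, x.2])) 0)
      ≤ ENNReal.ofReal (max c 0 ^ 3 / (6 *
          |(p 1 0 - p 0 0) * (p 2 1 - p 0 1) - (p 1 1 - p 0 1) * (p 2 0 - p 0 0)| *
          (l 0 * l 1 * l 2))) := by
  obtain ⟨D, hD⟩ : ∃ D, D = (p 1 0 - p 0 0) * (p 2 1 - p 0 1)
      - (p 1 1 - p 0 1) * (p 2 0 - p 0 0) := ⟨_, rfl⟩
  rw [← hD] at hA ⊢
  let M : Fin 3 → Fin 3 → Fin 3 → ℝ × ℝ →ₗ[ℝ] ℝ × ℝ := fun i j k =>
    planeMap (p i 0 - p j 0) (p i 1 - p j 1) (p i 0 - p k 0) (p i 1 - p k 1)
  let T : Fin 3 → Fin 3 → Fin 3 → ℝ × ℝ → ℝ≥0∞ := fun i j k x =>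
    quadrantTent c (l j) (l k) (M i j k x)
  have hT : ∀ i j k, Measurable (T i j k) := by
    intro i j k
    refine (measurable_quadrantTent _ _ _).comp ?_
    change Measurable fun x : ℝ × ℝ => ((p i 0 - p j 0) * x.1 + (p i 1 - p j 1) * x.2,
      (p i 0 - p k 0) * x.1 + (p i 1 - p k 1) * x.2)
    fun_prop
  have hint : ∀ i j k, (p i 0 - p j 0) * (p i 1 - p k 1) - (p i 1 - p j 1) * (p i 0 - p k 0) = D →
      ∫⁻ x, T i j k x = ENNReal.ofReal (|D⁻¹| * (max c 0 ^ 3 / (6 * l j * l k))) := by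
    intro i j k hijk
    simp only [T, M]
    rw [lintegral_comp_planeMap (by rw [hijk]; exact hA) (measurable_quadrantTent _ _ _), hijk,
      lintegral_quadrantTent c (hl j) (hl k), ← ENNReal.ofReal_mul (abs_nonneg _)]
  have hd : ∀ (a : Fin 2 → ℝ) (x : ℝ × ℝ), dotv a ![x.1, x.2] = a 0 * x.1 + a 1 * x.2 := by
    intro a x; simp [dotv, Fin.sum_univ_two]
  have hl1' : l 0 + l 1 + l 2 = 1 := by simpa [Fin.sum_univ_three] using hl1
  refine le_trans (lintegral_mono (g := fun x => T 0 1 2 x + T 1 2 0 x + T 2 0 1 x) ?_) ?_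
  · intro x
    have hq : dotv (∑ i, l i • p i) ![x.1, x.2]
        = l 0 * dotv (p 0) ![x.1, x.2] + l 1 * dotv (p 1) ![x.1, x.2]
          + l 2 * dotv (p 2) ![x.1, x.2] := by
      simp only [hd, Fin.sum_univ_three, Pi.add_apply, Pi.smul_apply, smul_eq_mul]
      ring
    have key : ∀ i j k, l i + l j + l k = 1 →
        dotv (∑ i, l i • p i) ![x.1, x.2] = l i * dotv (p i) ![x.1, x.2]
          + l j * dotv (p j) ![x.1, x.2] + l k * dotv (p k) ![x.1, x.2] →
        dotv (p j) ![x.1, x.2] ≤ dotv (p i) ![x.1, x.2] →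
        dotv (p k) ![x.1, x.2] ≤ dotv (p i) ![x.1, x.2] →
        ENNReal.ofReal (max (dotv (∑ i, l i • p i) ![x.1, x.2] + c -
          max (max (dotv (p 0) ![x.1, x.2]) (dotv (p 1) ![x.1, x.2]))
            (dotv (p 2) ![x.1, x.2])) 0) ≤ T i j k x := by
      intro i j k hs he hj hk
      have hmax : dotv (p i) ![x.1, x.2] ≤ max (max (dotv (p 0) ![x.1, x.2])
          (dotv (p 1) ![x.1, x.2])) (dotv (p 2) ![x.1, x.2]) := by
        fin_cases i <;> simp
      simp only [T, M, quadrantTent, planeMap, LinearMap.coe_mk, AddHom.coe_mk]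
      rw [Set.indicator_of_mem]
      · refine ENNReal.ofReal_le_ofReal (max_le_max ?_ le_rfl)
        simp only [hd] at he hmax ⊢
        have h4 : l i * (p i 0 * x.1 + p i 1 * x.2) = (1 - l j - l k) *
            (p i 0 * x.1 + p i 1 * x.2) := by rw [← hs]; ring
        linarith
      · simp only [hd] at hj hk
        refine Set.mem_prod.mpr ⟨Set.mem_Ici.mpr ?_, Set.mem_Ici.mpr ?_⟩
        · show 0 ≤ (p i 0 - p j 0) * x.1 + (p i 1 - p j 1) * x.2
          linarith
        · show 0 ≤ (p i 0 - p k 0) * x.1 + (p i 1 - p k 1) * x.2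
          linarith
    rcases le_total (dotv (p 1) ![x.1, x.2]) (dotv (p 0) ![x.1, x.2]) with h10 | h10
    · rcases le_total (dotv (p 2) ![x.1, x.2]) (dotv (p 0) ![x.1, x.2]) with h20 | h20
      · exact (key 0 1 2 (by linarith) hq h10 h20).trans (le_add_right (le_add_right le_rfl))
      · exact (key 2 0 1 (by linarith) (by linarith) h20 (h10.trans h20)).trans
          (le_add_left le_rfl)
    · rcases le_total (dotv (p 2) ![x.1, x.2]) (dotv (p 1) ![x.1, x.2]) with h21 | h21
      · exact (key 1 2 0 (by linarith) (by linarith) h21 h10).trans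
          (le_add_right (le_add_left le_rfl))
      · exact (key 2 0 1 (by linarith) (by linarith) (h10.trans h21) h21).trans
          (le_add_left le_rfl)
  · rw [lintegral_add_right _ (hT 2 0 1), lintegral_add_right _ (hT 1 2 0),
      hint 0 1 2 (by rw [hD]; ring), hint 1 2 0 (by rw [hD]; ring), hint 2 0 1 (by rw [hD]; ring)]
    have h0 := hl 0
    have h1 := hl 1
    have h2 := hl 2
    rw [← ENNReal.ofReal_add (by positivity) (by positivity),
      ← ENNReal.ofReal_add (by positivity) (by positivity)]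
    refine le_of_eq (congrArg ENNReal.ofReal ?_)
    rw [abs_inv]
    have : |D| ≠ 0 := abs_ne_zero.mpr hA
    field_simp
    linear_combination (max c 0 ^ 3) * hl1'

/-- The triangle tail bound. The hypothesis `hsum` (the triangle is centred) is not needed. -/
theorem triangle_tail (p : Fin 3 → Fin 2 → ℝ) (l : Fin 3 → ℝ) (h : ℝ)
    (hl : ∀ i, 0 < l i) (hl1 : ∑ i, l i = 1)
    (hA : (p 1 0 - p 0 0) * (p 2 1 - p 0 1) - (p 1 1 - p 0 1) * (p 2 0 - p 0 0) ≠ 0) :
    ∫ z : ℝ × (Fin 2 → ℝ),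
        max (dotv (∑ i, l i • p i) z.2 + h * z.1 -
          max (max (dotv (p 0) z.2) (dotv (p 1) z.2)) (dotv (p 2) z.2)) 0
        ∂((gaussianReal 0 1).prod (gs 2)) ≤
      phi0 * (|h| ^ 3 / (12 * Real.pi *
        (|(p 1 0 - p 0 0) * (p 2 1 - p 0 1) - (p 1 1 - p 0 1) * (p 2 0 - p 0 0)| / 2) *
        (l 0 * l 1 * l 2))) := by
  have : IsProbabilityMeasure (gs 2) := by rw [gs]; infer_instance
  obtain ⟨D, hD⟩ : ∃ D, D = (p 1 0 - p 0 0) * (p 2 1 - p 0 1)
      - (p 1 1 - p 0 1) * (p 2 0 - p 0 0) := ⟨_, rfl⟩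
  have hA' : D ≠ 0 := hD ▸ hA
  rw [← hD]
  have h0 := hl 0
  have h1 := hl 1
  have h2 := hl 2
  have hphi : 0 < phi0 := by rw [phi0]; positivity
  have hpi : phi0 ^ 2 * (2 * Real.pi) = 1 := by
    rw [phi0, inv_pow, Real.sq_sqrt (by positivity), inv_mul_cancel₀ (by positivity)]
  have hmeas : ∀ z : ℝ, Measurable fun y : Fin 2 → ℝ => ENNReal.ofReal
      (max (dotv (∑ i, l i • p i) y + h * z -
        max (max (dotv (p 0) y) (dotv (p 1) y)) (dotv (p 2) y)) 0) := by
    intro z; simp only [dotv]; fun_prop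
  have hmeas2 : Measurable fun z : ℝ × (Fin 2 → ℝ) => max (dotv (∑ i, l i • p i) z.2 + h * z.1 -
      max (max (dotv (p 0) z.2) (dotv (p 1) z.2)) (dotv (p 2) z.2)) 0 := by
    simp only [dotv]; fun_prop
  rw [integral_eq_lintegral_of_nonneg_ae
    (f := fun z : ℝ × (Fin 2 → ℝ) => max (dotv (∑ i, l i • p i) z.2 + h * z.1 -
      max (max (dotv (p 0) z.2) (dotv (p 1) z.2)) (dotv (p 2) z.2)) 0)
    (ae_of_all _ fun z => le_max_right _ _) hmeas2.aestronglyMeasurable]
  refine ENNReal.toReal_le_of_le_ofReal (by positivity) ?_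
  rw [lintegral_prod _ hmeas2.ennreal_ofReal.aemeasurable]
  obtain ⟨K, hK⟩ : ∃ K, K = phi0 ^ 2 / (6 * |D| * (l 0 * l 1 * l 2)) := ⟨_, rfl⟩
  have hK0 : 0 ≤ K := hK ▸ by positivity
  have step : ∀ z : ℝ, ∫⁻ y, ENNReal.ofReal (max (dotv (∑ i, l i • p i) y + h * z -
      max (max (dotv (p 0) y) (dotv (p 1) y)) (dotv (p 2) y)) 0) ∂(gs 2)
      ≤ ENNReal.ofReal K * ENNReal.ofReal (max (h * z) 0 ^ 3) := by
    intro z
    refine (lintegral_gs_two_le (hmeas z)).trans ?_
    refine (mul_le_mul' le_rfl (lintegral_triangle_le p l (h * z) hl hl1 hA)).trans (le_of_eq ?_)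
    rw [← hD, ← ENNReal.ofReal_mul (by positivity), ← ENNReal.ofReal_mul hK0, hK]
    congr 1
    ring
  refine (lintegral_mono step).trans ?_
  rw [lintegral_const_mul' _ _ ENNReal.ofReal_ne_top]
  have habs : ∫⁻ z, ENNReal.ofReal (max (h * z) 0 ^ 3) ∂(gaussianReal 0 1)
      = ENNReal.ofReal (2 * phi0 * |h| ^ 3) := by
    rcases le_total 0 h with hh | hh
    · rw [abs_of_nonneg hh, lintegral_gaussianReal_posPart_cube hh]
    · rw [abs_of_nonpos hh, ← lintegral_gaussianReal_posPart_cube (neg_nonneg.mpr hh)]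
      have hneg : (gaussianReal 0 1).map (fun z => -z) = gaussianReal 0 1 := by
        rw [gaussianReal_map_neg, neg_zero]
      conv_lhs => rw [← hneg]
      rw [lintegral_map (by fun_prop) (by fun_prop)]
      refine lintegral_congr fun z => ?_
      ring_nf
  rw [habs, ← ENNReal.ofReal_mul hK0, hK]
  refine le_of_eq (congrArg ENNReal.ofReal ?_)
  have hpi' : Real.pi = 1 / (2 * phi0 ^ 2) := by
    field_simp; linarith
  rw [hpi']
  have : |D| ≠ 0 := abs_ne_zero.mpr hA'
  field_simp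
  ring

end TriangleTail

end Vale.Agent.P226
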