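import Vale.Agent.P226.TriangleExcess

/-!
# The triangle branch of the width bound
-/

namespace Vale.Agent.P226

open MeasureTheory ProbabilityTheory
open scoped RealInnerProductSpace

section WidthTriangle

variable {E : Type*} [NormedAddCommGroup E] [InnerProductSpace ℝ E] [FiniteDimensional ℝ E]
  [MeasurableSpace E] [BorelSpace E]
variable {ι : Type*} [Fintype ι] [Nonempty ι] [DecidableEq ι]

/-- The width is at most half the perimeter of any three of the vectors plus the excesses of the
other vectors over those three. -/
theorem width_le_perimeter_add_excess (w : ι → E) (i j k : ι) :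
    width w ≤ (‖w i - w j‖ + ‖w j - w k‖ + ‖w k - w i‖) / 2
      + ∑ m ∈ ({i, j, k} : Finset ι)ᶜ, excess (w m) (maxForm ![w i, w j, w k]) := by
  have : Nonempty ({i, j, k} : Finset ι) := ⟨⟨i, by simp⟩⟩
  have h := width_le_top' w {i, j, k} 0
  rw [width_three_finset w {i, j, k} i j k rfl] at h
  simp only [sub_zero] at h
  let f : Fin 3 → ({i, j, k} : Finset ι) := ![⟨i, by simp⟩, ⟨j, by simp⟩, ⟨k, by simp⟩]
  have hf : Function.Surjective f := by
    rintro ⟨x, hx⟩
    simp only [Finset.mem_insert, Finset.mem_singleton] at hx
    rcases hx with rfl | rfl | rfl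
    · exact ⟨0, rfl⟩
    · exact ⟨1, rfl⟩
    · exact ⟨2, rfl⟩
  have hM : maxForm (fun x : ({i, j, k} : Finset ι) => w x) = maxForm ![w i, w j, w k] := by
    funext g
    rw [← maxForm_comp_surjective (fun x : ({i, j, k} : Finset ι) => w x) hf g]
    congr 1
    funext m
    fin_cases m <;> rfl
  simp only [hM] at h
  exact h

end WidthTriangle

end Vale.Agent.P226
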